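import Vale.Agent.P353.AN.X2.Stmt
import Vale.Agent.P353.Z.U.StmtM

/-! # P353, all `N`, block X2: second quantisation and the model of an irreducible module — statements (architect helper679) -/

open MeasureTheory Filter Topology Matrix
open scoped ContDiff

namespace Vale.Agent.P353.Z

universe u

variable {d : ℕ} {F : Type*} [NormedAddCommGroup F] [InnerProductSpace ℂ F]

/-- words in the fermions -/
noncomputable def Setup.rep (S : Setup d F) : FreeAlgebra ℂ (Fin 16 × Fin d) →ₐ[ℂ] (F →L[ℂ] F) :=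
  FreeAlgebra.lift ℂ fun p => S.th p.1 p.2

/-- `G` implements the orthogonal colour rotation `O`: isometry, fixes the `Γ`-vacuum vectors -/
structure Imp (S : Setup d F) (O : Matrix (Fin d) (Fin d) ℝ) (G : F →L[ℂ] F) : Prop where
  orth : O * Oᵀ = 1
  imp : ∀ α A, G * S.th α A = ∑ B, ((O B A : ℝ) : ℂ) • (S.th α B * G)
  norm : ∀ v, ‖G v‖ = ‖v‖
  vac : ∀ v, (∀ A α, S.amF A α v = 0) → G v = v

/-- `T` is an orthonormal basis of the traceless hermitian matrices with structure constants `f` -/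
structure Bas (n d : ℕ) (T : Fin d → Matrix (Fin n) (Fin n) ℂ) (f : Fin d → Fin d → Fin d → ℝ) : Prop where
  dim_eq : d = n ^ 2 - 1
  herm : ∀ A, (T A).conjTranspose = T A
  tr0 : ∀ A, (T A).trace = 0
  ortho : ∀ A B, (T A * T B).trace = if A = B then 1 else 0
  comm : ∀ A B, T A * T B - T B * T A = ∑ C, (Complex.I * (f A B C : ℂ)) • T C

/-- the induction hypothesis on the level of models -/
def IHM.{v} (n : ℕ) : Prop := ∀ (d : ℕ) (E : Type v) [NormedAddCommGroup E] [InnerProductSpace ℂ E] (_ : FiniteDimensional ℂ E)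
  (M : BFSS.Model n d E) (S : Setup d E), U.Rep M S → OneD S

namespace AX2

/-- **X2-Wick** the vacuum state is universal. PROOF. `2θ_p = c_p + c_p^*` with `c_p = ∑_q(1 - iΓ)_{pq}θ_q = amF`, `c_p^* = ∑_q(1 + iΓ)_{pq}θ_q` (`Γ` real
antisymmetric for real symmetric `γ`; `Γ² = -1`), `⟨ζ, c_p^*v⟩ = ⟨c_pζ, v⟩ = 0`, and `c_p` is anticommuted to the right (`{c_p,θ_q} = (1 - iΓ)_{pq}`) and kills
`ζ`. So for every word `w` there is a number `c(w)`, depending only on `Γ`, with `⟨ζ, wζ⟩ = c(w)‖ζ‖²` (strong induction on the length; for both modules at the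
same time: `⟨ζ, S.rep w ζ⟩‖ζ'‖² = ⟨ζ', S'.rep w ζ'⟩‖ζ‖²`). `‖S.rep X ζ‖² = ⟨ζ, S.rep(X^*X)ζ⟩`, where `X^*` reverses the words and conjugates the coefficients. -/
def WickStmt : Prop := ∀ (d : ℕ) (E E' : Type u) [NormedAddCommGroup E] [InnerProductSpace ℂ E] [NormedAddCommGroup E']
  [InnerProductSpace ℂ E'] (S : Setup d E) (S' : Setup d E'), S.g = S'.g → ∀ (ζ : E) (ζ' : E'),
  (∀ A α, S.amF A α ζ = 0) → (∀ A α, S'.amF A α ζ' = 0) →
  (∀ X : FreeAlgebra ℂ (Fin 16 × Fin d),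
    inner ℂ ζ (S.rep X ζ) * ((‖ζ'‖ ^ 2 : ℝ) : ℂ) = inner ℂ ζ' (S'.rep X ζ') * ((‖ζ‖ ^ 2 : ℝ) : ℂ)) ∧
  ∀ X : FreeAlgebra ℂ (Fin 16 × Fin d), ‖S.rep X ζ‖ * ‖ζ'‖ = ‖S'.rep X ζ'‖ * ‖ζ‖

/-- **X2-Sec** second quantisation of orthogonal colour rotations. PROOF. Unit vacuum vector `ζ` (X2-Vex), a line (`U.Vac_unique`), `S.rep(𝔸)ζ = F` (irreducible).
`S_O` = the setup with `θ'^A = ∑_BO_{BA}θ^B` (and `f = 0`, `κ = 1`): same `g`; `ζ` is a vacuum vector of `S_O` too (`Γ` acts on the spinor index). X2-Wick: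
`‖S_O.rep X ζ‖ = ‖S.rep X ζ‖`, so `G_O(S.rep X ζ) = S_O.rep X ζ` is well defined, linear, isometric; it implements `O` and fixes `ζ`. Continuity: `F` is spanned by
finitely many `S.rep w ζ` (`w` words) and `S_O.rep w ζ` is polynomial in `O`. Uniqueness: `G`, `G'` agree on `ζ` and on `S.rep X ζ`. -/
def SecStmt {d : ℕ} {F : Type u} [NormedAddCommGroup F] [InnerProductSpace ℂ F] (S : Setup d F) : Prop :=
  FiniteDimensional ℂ F → S.Irr → (∃ v : F, v ≠ 0) →
  (∃ G : Matrix (Fin d) (Fin d) ℝ → F →L[ℂ] F, (∀ O, O * Oᵀ = 1 → Imp S O (G O)) ∧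
    ∀ v, ContinuousOn (fun O => G O v) {O | O * Oᵀ = 1}) ∧
  ∀ O G G', Imp S O G → Imp S O G' → G = G'

/-- **X2-Mod** every irreducible module over `su(n)` carries a model. PROOF. `M.γ = re S.g`, `M.θ = S.th`, `M.S U = G_O` with `O = (adCoeff T U B A)_{BA}` (orthogonal:
`T` is an orthonormal basis of the traceless hermitian matrices and `X ↦ UXU*` preserves them and the trace form), X2-Sec: `S_mul` from uniqueness
(`G_OG_{O'}` implements `OO'`, and `adCoeff` is multiplicative), `S_continuous` (composition with the continuous `U ↦ adCoeff T U`). -/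
def ModStmt : Prop := ∀ (n d : ℕ) (E : Type u) [NormedAddCommGroup E] [InnerProductSpace ℂ E] (_ : FiniteDimensional ℂ E)
  (T : Fin d → Matrix (Fin n) (Fin n) ℂ) (S : Setup d E), Bas n d T S.f → S.κ = 1 → S.Irr → (∃ v : E, v ≠ 0) →
  ∃ M : BFSS.Model n d E, U.Rep M S ∧ M.T = T

/-- **X2-IH** PROOF: X2-Mod. -/
def IHStmt : Prop := ∀ (n d : ℕ) (T : Fin d → Matrix (Fin n) (Fin n) ℂ) (f : Fin d → Fin d → Fin d → ℝ), Bas n d T f →
  IHM.{u} n → OneA.{u} 1 f

/-- **X2-ImpM** the operators of a model are the second quantisations. PROOF. `G_U` = second quantisation of `Ad U` (X2-Sec); `M.S U ∘ G_U⁻¹` commutes with all `θ`, so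
`M.S U = χ(U)G_U`, `χ : SU(N) → U(1)` a continuous homomorphism, trivial as in `U.GaussStmt` (`Z/U/…`: `M.S(exp(iH)) = exp(cS)` and `cS` kills the vacuum vector:
`cS_Cζ` is again a vacuum vector, so `cS_Cζ = λζ` with `λ = ⟨ζ,cS_Cζ⟩ = 0` by the antisymmetry of `f` in the two point function, and every `U ∈ SU(N)` is `exp(iH)`
with `H` hermitian and traceless; or: `SU(N)` is generated by commutators). -/
def ImpMStmt : Prop := ∀ (n d : ℕ) (E : Type u) [NormedAddCommGroup E] [InnerProductSpace ℂ E] (_ : FiniteDimensional ℂ E)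
  (M : BFSS.Model n d E) (S : Setup d E), U.Rep M S → ∀ U : BFSS.SU n,
  Imp S (Matrix.of fun B A => BFSS.adCoeff M.T U B A) (M.S U)

/-- **X2-CsV** the gauge spin generators kill the `Γ`-vacuum (any module). PROOF. `v` = vacuum vector: `cS_C = -(i/2)∑f_{CDE}θ^D·θ^E`; `∑_α θ_α^Dθ_α^E v`: write
`θ = ½(c + c^*)`: `∑_α{…}`: `∑_αc_α^{D*}c_α^{E*} = ∑_α((1+iΓ)θ^D)_α((1+iΓ)θ^E)_α = ∑(θ^D)ᵀ(1+iΓ)ᵀ(1+iΓ)θ^E = 0` since `(1 - iΓ)(1 + iΓ) = 1 + Γ² = 0`. Hence
`θ^D·θ^Ev = ¼∑_αc_α^Dc_α^{E*}v = ¼∑_α{c_α^D,c_α^{E*}}v = const·δ_{DE}v`, and `f` is antisymmetric. -/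
def CsVStmt (S : Setup d F) : Prop := ∀ v, (∀ A α, S.amF A α v = 0) → ∀ C, S.cS C v = 0

end AX2

end Vale.Agent.P353.Z
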