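import Vale.Agent.P353.AN.X2.StmtG

/-! # P353, all `N`, block X2: `OneA` from the induction hypothesis on models (X2-IH) -/

namespace Vale.Agent.P353.Z.AX2

universe u

/-- **X2-IH**: every irreducible module over `su(n)` carries a model, so `IHM n` gives `OneA`. -/
theorem ih_stmt : ModStmt.{u} → IHStmt.{u} := by
  intro hM n d T f hB hI E _ _ hfin S hf hκ hirr hne
  obtain ⟨M, hrep, _⟩ := hM n d E hfin T S (by rw [hf]; exact hB) hκ hirr hne
  exact hI d E hfin M S hrep

end Vale.Agent.P353.Z.AX2
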