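import Vale.Agent.P353.AN.X2.Stmt

/-! # P353, all `N`, block X2: X2-Main (zero modes with values in a module) -/

open MeasureTheory Filter Topology Matrix
open scoped ContDiff

namespace Vale.Agent.P353.Z.AX2

universe u

section

variable {d dh dm ds dz : ℕ} {F : Type u} [NormedAddCommGroup F] [InnerProductSpace ℂ F] {S : Setup d F} {φ : Spl dh dm d}
  {ψ : Spl ds dz dh} {z₀ : Cfg dz}

lemma x2m_ss_th (h : AD.Std2 S φ ψ z₀) (α : Fin 16) (A : Fin ds) :
    h.ss.th α A = S.th α (φ (Sum.inl (ψ (Sum.inl A)))) := rfl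

lemma x2m_cz_th (h : AD.Std2 S φ ψ z₀) (α : Fin 16) (A : Fin dz) :
    (czs h).th α A = S.th α (φ (Sum.inl (ψ (Sum.inr A)))) := rfl

lemma x2m_ant (h : AD.Std2 S φ ψ z₀) : Ant h.ss (czs h) := by
  refine ⟨rfl, ?_⟩
  intro α A β B
  rw [x2m_ss_th, x2m_cz_th, S.th_anti, if_neg]
  rintro ⟨-, h2⟩
  have h3 := ψ.injective (Sum.inl_injective (φ.injective h2))
  exact Sum.inl_ne_inr h3

lemma x2m_irr2 (h : AD.Std2 S φ ψ z₀) (hI : S.Irr) (hne : ∃ v : F, v ≠ 0) {L : Finset (Fin dz → ℝ)}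
    {Om : Cfg dz → Matrix (Fin dm) (Fin dm) ℝ} {K : Submodule ℂ F} {U : Cfg dz → F →L[ℂ] F}
    (hB : AX.Bun S φ (AX.Mz S φ ψ) L Om K U) : IrrOn2 h.ss (czs h) K where
  inv1 := fun α A v hv => hB.K_th α _ v hv
  inv2 := fun α A v hv => hB.K_th α _ v hv
  ne := by
    obtain ⟨v, hv, hv0⟩ := hB.K_ne hne
    intro hK
    rw [hK] at hv
    exact hv0 ((Submodule.mem_bot ℂ).1 hv)
  irr := by
    intro W hW h1 h2
    refine hB.K_irr hI W hW ?_
    intro α A v hv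
    obtain ⟨p, rfl⟩ := ψ.surjective A
    rcases p with a | a
    · exact h1 α a v hv
    · exact h2 α a v hv

end

lemma x2m_rst_irr {d : ℕ} {F : Type u} [NormedAddCommGroup F] [InnerProductSpace ℂ F] (S : Setup d F) (V : Submodule ℂ F)
    (hV : ∀ α A, ∀ v ∈ V, S.th α A v ∈ V) (h : IrrOn S V) : (S.rst V hV).Irr := by
  intro W hW
  have h1 := h.irr (W.map V.subtype) (Submodule.map_subtype_le V W) ?_
  · rcases h1 with h1 | h1
    · left
      apply Submodule.map_injective_of_injective V.injective_subtype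
      rw [h1, Submodule.map_bot]
    · right
      apply Submodule.map_injective_of_injective V.injective_subtype
      rw [h1, Submodule.map_subtype_top]
  · rintro α A v ⟨w, hw, rfl⟩
    exact ⟨(S.rst V hV).th α A w, hW α A w hw, rfl⟩

/-- **X2-Main** -/
theorem x2_stmt
    (hVI : ∀ {d1 d2 : ℕ} {F : Type u} [NormedAddCommGroup F] [InnerProductSpace ℂ F] (S1 : Setup d1 F) (S2 : Setup d2 F),
      VcaIrrStmt S1 S2)
    (hZI : ∀ {d1 d2 : ℕ} {F : Type u} [NormedAddCommGroup F] [InnerProductSpace ℂ F] (S1 : Setup d1 F) (S2 : Setup d2 F),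
      ZInvStmt S1 S2)
    (hZr : ∀ {d1 d2 : ℕ} {F : Type u} [NormedAddCommGroup F] [InnerProductSpace ℂ F] (S1 : Setup d1 F) (S2 : Setup d2 F),
      ZirrStmt S1 S2) : X2Stmt.{u} := by
  intro d dh dm ds dz F _ _ hfd S φ ψ z₀ h hI hne L Om K U hB hOne
  have hA := x2m_ant h
  have hI2 := x2m_irr2 h hI hne hB
  obtain ⟨hV, ζ, hζ, hζ1, -, -⟩ := hVI h.ss (czs h) hfd hA K hI2
  have hZ := hZI h.ss (czs h) hA K hI2.inv2
  have h1 : OneD (h.ss.rst (vca (czs h) K) hV.inv) := by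
    refine hOne (vca (czs h) K) inferInstance (h.ss.rst (vca (czs h) K) hV.inv) rfl rfl (x2m_rst_irr _ _ _ hV) ⟨⟨ζ, hζ⟩, ?_⟩
    intro h0
    have h2 : ζ = 0 := congrArg Subtype.val h0
    rw [h2, norm_zero] at hζ1
    exact zero_ne_one hζ1
  exact ⟨hZ, hZr h.ss (czs h) hfd hA K hI2 hV.inv h1 hZ⟩

end Vale.Agent.P353.Z.AX2
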