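import Vale.Agent.P353.AN.X2.StmtG

/-! # P353, all `N`, block X2: every irreducible module over `su(n)` carries a model (helper497) -/

set_option linter.all false

open MeasureTheory Filter Topology Matrix
open scoped ContDiff

namespace Vale.Agent.P353.Z.AX2

universe u

section ModT

variable {n d : ℕ} {T : Fin d → Matrix (Fin n) (Fin n) ℂ} {f : Fin d → Fin d → Fin d → ℝ}

/-- completeness of the basis `T_A`, `1` -/
theorem mod_complete (h : Bas n d T f) (hN : 0 < n) (X : Matrix (Fin n) (Fin n) ℂ) :
    X = ∑ A, (T A * X).trace • T A + (X.trace / n) • (1 : Matrix (Fin n) (Fin n) ℂ) := by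
  have hN' : (n : ℂ) ≠ 0 := by exact_mod_cast hN.ne'
  let Λ : Matrix (Fin n) (Fin n) ℂ →ₗ[ℂ] (Fin d → ℂ) × ℂ :=
    { toFun := fun X => (fun A => (T A * X).trace, X.trace)
      map_add' := fun X Y => by
        ext <;> simp [mul_add, Matrix.trace_add]
      map_smul' := fun c X => by
        ext <;> simp [Matrix.trace_smul] }
  have hval : ∀ (c : Fin d → ℂ) (s : ℂ), Λ (∑ A, c A • T A +
      (s / n) • (1 : Matrix (Fin n) (Fin n) ℂ)) = (c, s) := by
    intro c s
    apply Prod.ext
    · funext B
      show (T B * (∑ A, c A • T A + (s / n) • (1 : Matrix (Fin n) (Fin n) ℂ))).trace = c B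
      rw [mul_add, Matrix.mul_sum, Matrix.trace_add, Matrix.trace_sum, Finset.sum_eq_single B]
      · rw [Matrix.mul_smul, Matrix.trace_smul, h.ortho, if_pos rfl, Matrix.mul_smul,
          mul_one, Matrix.trace_smul, h.tr0]
        simp
      · intro A _ hA
        rw [Matrix.mul_smul, Matrix.trace_smul, h.ortho, if_neg (Ne.symm hA), smul_zero]
      · simp
    · show (∑ A, c A • T A + (s / n) • (1 : Matrix (Fin n) (Fin n) ℂ)).trace = s
      rw [Matrix.trace_add, Matrix.trace_sum, Finset.sum_eq_zero (fun A _ => by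
        rw [Matrix.trace_smul, h.tr0, smul_zero]), Matrix.trace_smul, Matrix.trace_one]
      simp [hN']
  have hsurj : Function.Surjective Λ := fun y => ⟨_, hval y.1 y.2⟩
  have hrank : Module.finrank ℂ (Matrix (Fin n) (Fin n) ℂ) =
      Module.finrank ℂ ((Fin d → ℂ) × ℂ) := by
    rw [Module.finrank_matrix, Module.finrank_prod, Module.finrank_pi, Module.finrank_self,
      Fintype.card_fin, Fintype.card_fin, h.dim_eq, mul_one]
    have : 1 ≤ n ^ 2 := Nat.one_le_pow _ _ hN
    have h2 : n ^ 2 = n * n := sq n
    omega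
  have hinj : Function.Injective Λ :=
    (LinearMap.injective_iff_surjective_of_finrank_eq_finrank hrank).2 hsurj
  apply hinj
  rw [hval]
  rfl

/-- the coefficients of the adjoint action are real traces -/
theorem mod_real (h : Bas n d T f) (U : BFSS.SU n) (B A : Fin d) :
    (T B * (U.val * T A * U.val.conjTranspose)).trace = ((BFSS.adCoeff T U B A : ℝ) : ℂ) := by
  unfold BFSS.adCoeff
  symm
  rw [← Complex.conj_eq_iff_re]
  have h1 : (T B * (U.val * T A * U.val.conjTranspose)).conjTranspose.trace =
      star (T B * (U.val * T A * U.val.conjTranspose)).trace :=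
    Matrix.trace_conjTranspose _
  rw [Matrix.conjTranspose_mul, Matrix.conjTranspose_mul, Matrix.conjTranspose_mul,
    Matrix.conjTranspose_conjTranspose, h.herm, h.herm, ← Matrix.mul_assoc U.val,
    Matrix.trace_mul_comm] at h1
  exact h1.symm

theorem mod_unit (V : BFSS.SU n) : V.val.conjTranspose * V.val = 1 :=
  (Unitary.mem_iff.1 (Matrix.mem_specialUnitaryGroup_iff.1 V.2).1).1

/-- `V T_A V* = ∑ ad(V)_{CA} T_C` -/
theorem mod_conj (h : Bas n d T f) (hN : 0 < n) (V : BFSS.SU n) (A : Fin d) :
    V.val * T A * V.val.conjTranspose = ∑ C, ((BFSS.adCoeff T V C A : ℝ) : ℂ) • T C := by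
  have h1 := mod_complete h hN (V.val * T A * V.val.conjTranspose)
  have ht : (V.val * T A * V.val.conjTranspose).trace = 0 := by
    rw [Matrix.trace_mul_comm, ← Matrix.mul_assoc, mod_unit, one_mul, h.tr0]
  rw [ht, zero_div, zero_smul, add_zero] at h1
  rw [h1]
  refine Finset.sum_congr rfl fun C _ => ?_
  rw [mod_real h]

/-- the adjoint representation is multiplicative -/
theorem mod_ad_mul (h : Bas n d T f) (U V : BFSS.SU n) (B A : Fin d) :
    BFSS.adCoeff T (U * V) B A = ∑ C, BFSS.adCoeff T U B C * BFSS.adCoeff T V C A := by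
  rcases Nat.eq_zero_or_pos n with hN | hN
  · have hd : d = 0 := by rw [h.dim_eq, hN]; rfl
    subst hd
    exact B.elim0
  · have h1 : (U * V).val * T A * (U * V).val.conjTranspose =
        ∑ C, ((BFSS.adCoeff T V C A : ℝ) : ℂ) • (U.val * T C * U.val.conjTranspose) := by
      have e : (U * V).val * T A * (U * V).val.conjTranspose =
          U.val * (V.val * T A * V.val.conjTranspose) * U.val.conjTranspose := by
        show U.val * V.val * T A * (U.val * V.val).conjTranspose = _
        rw [Matrix.conjTranspose_mul]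
        simp only [Matrix.mul_assoc]
      rw [e, mod_conj h hN V A, Finset.mul_sum, Finset.sum_mul]
      refine Finset.sum_congr rfl fun C _ => ?_
      rw [Matrix.mul_smul, Matrix.smul_mul]
    have h2 : ((BFSS.adCoeff T (U * V) B A : ℝ) : ℂ) =
        ((∑ C, BFSS.adCoeff T U B C * BFSS.adCoeff T V C A : ℝ) : ℂ) := by
      rw [← mod_real h (U * V) B A, h1, Finset.mul_sum, Matrix.trace_sum]
      push_cast
      refine Finset.sum_congr rfl fun C _ => ?_
      rw [Matrix.mul_smul, Matrix.trace_smul, mod_real h, smul_eq_mul, mul_comm]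
    exact_mod_cast h2

/-- the adjoint matrix -/
noncomputable def modO (T : Fin d → Matrix (Fin n) (Fin n) ℂ) (U : BFSS.SU n) : Matrix (Fin d) (Fin d) ℝ :=
  Matrix.of fun B A => BFSS.adCoeff T U B A

theorem modO_mul (h : Bas n d T f) (U V : BFSS.SU n) : modO T (U * V) = modO T U * modO T V := by
  ext B A
  rw [Matrix.mul_apply]
  exact mod_ad_mul h U V B A

theorem modO_one (h : Bas n d T f) : modO T (1 : BFSS.SU n) = 1 := by
  ext B A
  have h1 : modO T (1 : BFSS.SU n) B A = (T B * T A).trace.re := by
    show (T B * ((1 : BFSS.SU n).val * T A * (1 : BFSS.SU n).val.conjTranspose)).trace.re = _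
    have : (1 : BFSS.SU n).val = 1 := rfl
    rw [this, one_mul, Matrix.conjTranspose_one, mul_one]
  rw [h1, h.ortho, Matrix.one_apply]
  split_ifs <;> simp

theorem modO_inv (U : BFSS.SU n) : modO T U⁻¹ = (modO T U)ᵀ := by
  ext B A
  show (T B * ((U⁻¹).val * T A * (U⁻¹).val.conjTranspose)).trace.re =
    (T A * (U.val * T B * U.val.conjTranspose)).trace.re
  have e : (U⁻¹).val = U.val.conjTranspose := rfl
  rw [e, Matrix.conjTranspose_conjTranspose]
  congr 1
  rw [← Matrix.mul_assoc, ← Matrix.mul_assoc, Matrix.trace_mul_comm, ← Matrix.mul_assoc, ← Matrix.mul_assoc,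
    Matrix.trace_mul_comm (T A)]

theorem modO_orth (h : Bas n d T f) (U : BFSS.SU n) : modO T U * (modO T U)ᵀ = 1 := by
  rw [← modO_inv, ← modO_mul h, mul_inv_cancel, modO_one h]

theorem modO_cont : Continuous fun U : BFSS.SU n => modO T U := by
  refine continuous_matrix fun B A => ?_
  show Continuous fun U : BFSS.SU n => BFSS.adCoeff T U B A
  unfold BFSS.adCoeff
  refine Complex.continuous_re.comp (Continuous.matrix_trace ?_)
  have hv : Continuous fun U : BFSS.SU n => U.val := continuous_subtype_val
  exact continuous_const.mul ((hv.mul continuous_const).mul hv.star)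

end ModT

section ModS

variable {d : ℕ} {F : Type u} [NormedAddCommGroup F] [InnerProductSpace ℂ F]

/-- `Imp` on vectors -/
theorem mod_imp {S : Setup d F} {O : Matrix (Fin d) (Fin d) ℝ} {G : F →L[ℂ] F} (hG : Imp S O G) (α : Fin 16) (A : Fin d)
    (v : F) : G (S.th α A v) = ∑ B, ((O B A : ℝ) : ℂ) • S.th α B (G v) := by
  have h := congrArg (fun T : F →L[ℂ] F => T v) (hG.imp α A)
  simpa only [_root_.mul_apply_eq_comp, _root_.sum_apply, _root_.smul_apply] using h

/-- the implementers compose -/
theorem mod_comp {S : Setup d F} {O P : Matrix (Fin d) (Fin d) ℝ} {G H : F →L[ℂ] F} (hG : Imp S O G) (hH : Imp S P H) :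
    Imp S (O * P) (G * H) := by
  refine ⟨?_, ?_, ?_, ?_⟩
  · rw [Matrix.transpose_mul, Matrix.mul_assoc, ← Matrix.mul_assoc P, hH.orth, Matrix.one_mul, hG.orth]
  · intro α A
    ext v
    simp only [_root_.mul_apply_eq_comp, _root_.sum_apply, _root_.smul_apply]
    rw [mod_imp hH, map_sum]
    have h1 : ∀ B, G (((P B A : ℝ) : ℂ) • S.th α B (H v)) =
        ∑ C, (((O C B : ℝ) : ℂ) * ((P B A : ℝ) : ℂ)) • S.th α C (G (H v)) := by
      intro B
      rw [map_smul, mod_imp hG, Finset.smul_sum]
      refine Finset.sum_congr rfl fun C _ => ?_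
      rw [smul_smul, mul_comm]
    rw [Finset.sum_congr rfl fun B _ => h1 B, Finset.sum_comm]
    refine Finset.sum_congr rfl fun C _ => ?_
    rw [← Finset.sum_smul, Matrix.mul_apply]
    push_cast
    rfl
  · intro v
    show ‖G (H v)‖ = ‖v‖
    rw [hG.norm, hH.norm]
  · intro v hv
    show G (H v) = v
    rw [hH.vac v hv, hG.vac v hv]

/-- real gamma matrices -/
noncomputable def modg (S : Setup d F) (i : Fin 9) : Matrix (Fin 16) (Fin 16) ℝ := Matrix.of fun α β => (S.g i α β).re

theorem modg_coe (S : Setup d F) (i : Fin 9) (α β : Fin 16) : S.g i α β = ((modg S i α β : ℝ) : ℂ) :=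
  Complex.ext (by simp [modg]) (by simp [modg, S.g_real])

theorem modg_map (S : Setup d F) (i : Fin 9) : (modg S i).map (Complex.ofRealHom : ℝ →+* ℂ) = S.g i := by
  ext α β
  rw [Matrix.map_apply]
  exact (modg_coe S i α β).symm

theorem modg_symm (S : Setup d F) (i : Fin 9) : (modg S i).transpose = modg S i := by
  ext α β
  have h := congrFun (congrFun (S.g_symm i) α) β
  rw [Matrix.transpose_apply] at h
  show (S.g i β α).re = (S.g i α β).re
  rw [h]

theorem modg_anti (S : Setup d F) (i j : Fin 9) :
    modg S i * modg S j + modg S j * modg S i = if i = j then 2 else 0 := by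
  have hinj : Function.Injective fun X : Matrix (Fin 16) (Fin 16) ℝ =>
      (Complex.ofRealHom : ℝ →+* ℂ).mapMatrix X := by
    intro X Y hXY
    ext α β
    have h := congrFun (congrFun hXY α) β
    exact Complex.ofReal_injective h
  apply hinj
  show (Complex.ofRealHom : ℝ →+* ℂ).mapMatrix (modg S i * modg S j + modg S j * modg S i) =
    (Complex.ofRealHom : ℝ →+* ℂ).mapMatrix (if i = j then 2 else 0)
  have e : ∀ k, (Complex.ofRealHom : ℝ →+* ℂ).mapMatrix (modg S k) = S.g k := fun k => modg_map S k
  rw [map_add, map_mul, map_mul, e, e, S.g_anti]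
  by_cases hij : i = j
  · rw [if_pos hij, if_pos hij, map_ofNat]
  · rw [if_neg hij, if_neg hij, map_zero]

/-- **X2-Mod** -/
theorem mod_stmt : (∀ (d : ℕ) (F : Type u) [NormedAddCommGroup F] [InnerProductSpace ℂ F] (S : Setup d F), SecStmt S) →
    ModStmt.{u} := by
  intro hSec n d E _ _ hfd T S hB hκ hirr hne
  obtain ⟨⟨G, hG, hc⟩, hu⟩ := hSec d E S hfd hirr hne
  have hI : ∀ U : BFSS.SU n, Imp S (modO T U) (G (modO T U)) := fun U => hG _ (modO_orth hB U)
  refine ⟨{ dim_eq := hB.dim_eq
            T := T
            T_hermitian := hB.herm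
            T_traceless := hB.tr0
            T_orthonormal := hB.ortho
            f := S.f
            T_comm := hB.comm
            γ := modg S
            γ_symm := modg_symm S
            γ_anticomm := modg_anti S
            θ := S.th
            θ_selfAdjoint := S.th_sa
            θ_anticomm := ?_
            θ_irreducible := hirr
            nontrivial := hne
            S := fun U => G (modO T U)
            S_mul := ?_
            S_isometry := fun U v => (hI U).norm v
            S_continuous := fun v => (hc v).comp_continuous modO_cont fun U => modO_orth hB U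
            S_rotates := fun U α A v => mod_imp (hI U) α A v }, ⟨hκ, rfl, fun i α β => modg_coe S i α β, rfl⟩, rfl⟩
  · intro α A β B v
    have h := congrArg (fun X : E →L[ℂ] E => X v) (S.th_anti α A β B)
    have h2 : (S.th α A * S.th β B + S.th β B * S.th α A) v = S.th α A (S.th β B v) + S.th β B (S.th α A v) := rfl
    have h3 : (S.th α A * S.th β B + S.th β B * S.th α A) v = (if α = β ∧ A = B then (1 : E →L[ℂ] E) else 0) v := h
    rw [← h2, h3]
    by_cases hab : α = β ∧ A = B
    · rw [if_pos hab, if_pos hab]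
      rfl
    · rw [if_neg hab, if_neg hab]
      rfl
  · intro U V v
    have h1 := mod_comp (hI U) (hI V)
    rw [← modO_mul hB] at h1
    have h2 := hu _ _ _ (hI (U * V)) h1
    show G (modO T (U * V)) v = G (modO T U) (G (modO T V) v)
    rw [h2]
    rfl

end ModS

end Vale.Agent.P353.Z.AX2
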