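import Vale.Agent.P353.AN.X2.Stmt
import Vale.Agent.P353.Z.LimL2

/-! # P353, all `N`, block X2: `RstStmt` (helper663)

Intertwiners between setups map zero modes to zero modes; the inclusion of an invariant subspace and the orthogonal projection
onto it are intertwiners. -/

open MeasureTheory Filter Topology Matrix
open scoped ContDiff

namespace Vale.Agent.P353.Z.AX2

universe u

section map

variable {d : ℕ} {F F' : Type u} [NormedAddCommGroup F] [InnerProductSpace ℂ F] [NormedAddCommGroup F']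
  [InnerProductSpace ℂ F']

/-- `T` intertwines the two setups. -/
structure RstxInt (S : Setup d F) (S' : Setup d F') (T : F →L[ℂ] F') : Prop where
  g : S'.g = S.g
  f : S'.f = S.f
  k : S'.κ = S.κ
  t : ∀ α A v, T (S.th α A v) = S'.th α A (T v)

variable {S : Setup d F} {S' : Setup d F'} {T : F →L[ℂ] F'}

lemma rstx_vec (h : RstxInt S S' T) (N : Matrix (Fin 16) (Fin 16) ℂ) (A : Fin d) (β : Fin 16) (v : F) :
    T (S.vec N A β v) = S'.vec N A β (T v) := by
  simp only [CS.vec, _root_.sum_apply, _root_.smul_apply, map_sum, map_smul, h.t]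

lemma rstx_bil (h : RstxInt S S' T) (N : Matrix (Fin 16) (Fin 16) ℂ) (A B : Fin d) (v : F) :
    T (S.bil N A B v) = S'.bil N A B (T v) := by
  simp only [CS.bil, _root_.sum_apply, map_sum]
  refine Finset.sum_congr rfl fun α _ => ?_
  have h1 : (S.th α A * S.vec N B α) v = S.th α A (S.vec N B α v) := rfl
  have h2 : (S'.th α A * S'.vec N B α) (T v) = S'.th α A (S'.vec N B α (T v)) := rfl
  rw [h1, h2, h.t, rstx_vec h]

lemma rstx_FF (h : RstxInt S S' T) (A : Fin d) (i j : Fin 9) (x : Cfg d) : S'.FF A i j x = S.FF A i j x := by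
  simp only [Setup.FF, h.f, h.k]

lemma rstx_W (h : RstxInt S S' T) (β : Fin 16) (x : Cfg d) (v : F) : T (S.W β x v) = S'.W β x (T v) := by
  simp only [Setup.W, _root_.smul_apply, _root_.sum_apply, map_smul, map_sum, rstx_vec h,
    rstx_FF h, CS.g2, h.g]

lemma rstx_cS (h : RstxInt S S' T) (C : Fin d) (v : F) : T (S.cS C v) = S'.cS C (T v) := by
  simp only [Setup.cS, _root_.smul_apply, _root_.sum_apply, map_smul, map_sum, rstx_bil h,
    h.f]

lemma rstx_pd (T : F →L[ℂ] F') {i : Fin 9} {A : Fin d} {u : Cfg d → F} {x : Cfg d}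
    (hu : DifferentiableAt ℝ u x) : pd i A (fun y => T (u y)) x = T (pd i A u x) := by
  unfold pd
  have h : HasFDerivAt (fun y => T (u y)) ((T.restrictScalars ℝ).comp (fderiv ℝ u x)) x :=
    (T.restrictScalars ℝ).hasFDerivAt.comp x hu.hasFDerivAt
  rw [h.fderiv]
  rfl

lemma rstx_Q (h : RstxInt S S' T) {β : Fin 16} {u : Cfg d → F} {x : Cfg d} (hu : DifferentiableAt ℝ u x) :
    S'.Q β (fun y => T (u y)) x = T (S.Q β u x) := by
  simp only [Setup.Q, rstx_pd T hu, map_add, map_smul, map_sum, rstx_vec h, rstx_W h, h.g]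

lemma rstx_G (h : RstxInt S S' T) {C : Fin d} {u : Cfg d → F} {x : Cfg d} (hu : DifferentiableAt ℝ u x) :
    S'.G C (fun y => T (u y)) x = T (S.G C u x) := by
  simp only [Setup.G, rstx_pd T hu, map_add, map_smul, map_sum, rstx_cS h, h.f]

lemma rstx_tst (T : F →L[ℂ] F') {u : Cfg d → F} (hu : Setup.Tst u) : Setup.Tst (fun x => T (u x)) :=
  ⟨(T.restrictScalars ℝ).contDiff.comp hu.1, hu.2.comp_left (map_zero T)⟩

lemma rstx_nsq (T : F →L[ℂ] F') {f : ℕ → Cfg d → F} {g : ℕ → Cfg d → F'}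
    (hf : ∀ n, MemLp (f n) 2 (volume : Measure (Cfg d)))
    (h : Tendsto (fun n => ∫ x, ‖f n x‖ ^ 2) atTop (𝓝 0)) (hg : ∀ n, ∀ᵐ x ∂(volume : Measure (Cfg d)), g n x = T (f n x)) :
    Tendsto (fun n => ∫ x, ‖g n x‖ ^ 2) atTop (𝓝 0) := by
  have h0 : Tendsto (fun n => ‖T‖ ^ 2 * ∫ x, ‖f n x‖ ^ 2) atTop (𝓝 0) := by
    simpa using h.const_mul (‖T‖ ^ 2)
  refine squeeze_zero (fun n => integral_nonneg fun x => by positivity) (fun n => ?_) h0
  rw [← integral_const_mul]
  refine integral_mono_of_nonneg (Filter.Eventually.of_forall fun x => by positivity) ?_ ?_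
  · exact ((hf n).integrable_norm_pow (by norm_num)).const_mul _
  · filter_upwards [hg n] with x hx
    rw [hx, ← mul_pow]
    exact pow_le_pow_left₀ (norm_nonneg _) (T.le_opNorm _) 2

lemma rstx_IsZM (h : RstxInt S S' T) {Ψ : Lp F 2 (volume : Measure (Cfg d))} (hΨ : S.IsZM Ψ) :
    S'.IsZM (T.compLpL 2 volume Ψ) := by
  obtain ⟨u, hu1, hu2, hu3, hu4⟩ := hΨ
  refine ⟨fun n x => T (u n x), fun n => rstx_tst T (hu1 n), fun n C x => ?_, ?_, fun β => ?_⟩
  · rw [rstx_G h ((hu1 n).diff x), hu2, map_zero]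
  · refine rstx_nsq T (f := fun n x => u n x - Ψ x) (fun n => ((hu1 n).memLp).sub (Lp.memLp Ψ)) hu3 fun n => ?_
    filter_upwards [T.coeFn_compLpL Ψ] with x hx
    rw [hx, map_sub]
  · refine rstx_nsq T (f := fun n x => S.Q β (u n) x) (fun n => ((hu1 n).Q S β).memLp) (hu4 β) fun n => ?_
    exact Filter.Eventually.of_forall fun x => rstx_Q h ((hu1 n).diff x)

end map

/-- **X2-Rst** zero modes of the restricted setup -/
theorem rst_stmt {d : ℕ} {F : Type u} [NormedAddCommGroup F] [InnerProductSpace ℂ F] (S : Setup d F) : RstStmt S := by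
  intro hF V hV
  have hi : RstxInt (S.rst V hV) S V.subtypeL := ⟨rfl, rfl, rfl, fun α A v => rfl⟩
  have hp : RstxInt S (S.rst V hV) V.orthogonalProjectionOnto := by
    refine ⟨rfl, rfl, rfl, fun α A v => ?_⟩
    have h1 : v - V.starProjection v ∈ Vᗮ := V.sub_starProjection_mem_orthogonal v
    have h2 : S.th α A (v - V.starProjection v) ∈ Vᗮ := by
      rw [Submodule.mem_orthogonal] at h1 ⊢
      intro w hw
      rw [← S.th_sa]
      exact h1 _ (hV α A w hw)
    have h3 : V.orthogonalProjectionOnto (S.th α A (v - V.starProjection v)) = 0 :=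
      (Submodule.orthogonalProjectionOnto_eq_zero_iff).2 h2
    have h4 : S.th α A v = S.th α A (V.starProjection v) + S.th α A (v - V.starProjection v) := by
      rw [← map_add]
      congr 1
      abel
    rw [h4, map_add, h3, add_zero]
    have h5 : (S.rst V hV).th α A (V.orthogonalProjectionOnto v) =
        (⟨S.th α A (V.starProjection v), hV α A _ (V.starProjection_apply_mem v)⟩ : V) := rfl
    rw [h5]
    exact Submodule.orthogonalProjectionOnto_mem_subspace_eq_self
      (⟨S.th α A (V.starProjection v), hV α A _ (V.starProjection_apply_mem v)⟩ : V)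
  have hpi : ∀ Ψ : Lp V 2 (volume : Measure (Cfg d)),
      V.orthogonalProjectionOnto.compLpL 2 volume (V.subtypeL.compLpL 2 volume Ψ) = Ψ := by
    intro Ψ
    apply Lp.ext
    filter_upwards [V.orthogonalProjectionOnto.coeFn_compLpL (V.subtypeL.compLpL 2 volume Ψ),
      V.subtypeL.coeFn_compLpL Ψ] with x h1 h2
    rw [h1, h2]
    exact Submodule.orthogonalProjectionOnto_mem_subspace_eq_self (Ψ x)
  refine ⟨fun Ψ => ⟨fun h => rstx_IsZM hi h, fun h => ?_⟩, fun Φ hΦ => ?_⟩
  · have h1 := rstx_IsZM hp h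
    rwa [hpi] at h1
  · refine ⟨V.orthogonalProjectionOnto.compLpL 2 volume Φ, ?_⟩
    apply Lp.ext
    filter_upwards [V.subtypeL.coeFn_compLpL (V.orthogonalProjectionOnto.compLpL 2 volume Φ),
      V.orthogonalProjectionOnto.coeFn_compLpL Φ, hΦ] with x h1 h2 h3
    rw [h1, h2]
    exact (congrArg Subtype.val (Submodule.orthogonalProjectionOnto_mem_subspace_eq_self (⟨Φ x, h3⟩ : V))).symm

end Vale.Agent.P353.Z.AX2
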