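import Vale.Agent.P353.AN.X2.StmtG
import Vale.Agent.P353.AN.F.Vac

/-! # P353, all `N`, block X2: second quantisation of orthogonal colour rotations (helper489) -/

open MeasureTheory Filter Topology Matrix
open scoped ContDiff

namespace Vale.Agent.P353.Z.AX2

universe u

variable {d : ℕ} {F : Type u} [NormedAddCommGroup F] [InnerProductSpace ℂ F]

/-- rotated fermions -/
noncomputable def secTh (S : Setup d F) (O : Matrix (Fin d) (Fin d) ℝ) (α : Fin 16) (A : Fin d) : F →L[ℂ] F :=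
  ∑ B, ((O B A : ℝ) : ℂ) • S.th α B

lemma secTh_apply (S : Setup d F) (O : Matrix (Fin d) (Fin d) ℝ) (α : Fin 16) (A : Fin d) (v : F) :
    secTh S O α A v = ∑ B, ((O B A : ℝ) : ℂ) • S.th α B v := by
  unfold secTh
  simp only [_root_.sum_apply, _root_.smul_apply]

lemma sec_orth {O : Matrix (Fin d) (Fin d) ℝ} (hO : O * Oᵀ = 1) (A B : Fin d) :
    ∑ C, ((O C A : ℝ) : ℂ) * ((O C B : ℝ) : ℂ) = if A = B then 1 else 0 := by
  have h1 : Oᵀ * O = 1 := mul_eq_one_comm.1 hO
  have h2 := congrFun (congrFun h1 A) B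
  rw [Matrix.mul_apply, Matrix.one_apply] at h2
  simp only [Matrix.transpose_apply] at h2
  have h3 := congrArg (fun t : ℝ => (t : ℂ)) h2
  push_cast at h3
  rw [h3]
  split_ifs <;> simp

lemma secTh_anti (S : Setup d F) {O : Matrix (Fin d) (Fin d) ℝ} (hO : O * Oᵀ = 1) (α : Fin 16) (A : Fin d)
    (β : Fin 16) (B : Fin d) :
    secTh S O α A * secTh S O β B + secTh S O β B * secTh S O α A = if α = β ∧ A = B then 1 else 0 := by
  have h1 : secTh S O α A * secTh S O β B =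
      ∑ C, ∑ D, (((O C A : ℝ) : ℂ) * ((O D B : ℝ) : ℂ)) • (S.th α C * S.th β D) := by
    unfold secTh
    rw [Finset.sum_mul_sum]
    refine Finset.sum_congr rfl fun C _ => Finset.sum_congr rfl fun D _ => ?_
    rw [smul_mul_smul_comm]
  have h2 : secTh S O β B * secTh S O α A =
      ∑ C, ∑ D, (((O C A : ℝ) : ℂ) * ((O D B : ℝ) : ℂ)) • (S.th β D * S.th α C) := by
    unfold secTh
    rw [Finset.sum_mul_sum, Finset.sum_comm]
    refine Finset.sum_congr rfl fun C _ => Finset.sum_congr rfl fun D _ => ?_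
    rw [smul_mul_smul_comm, mul_comm ((O D B : ℝ) : ℂ)]
  rw [h1, h2, ← Finset.sum_add_distrib]
  have h3 : ∀ C, ∑ D, (((O C A : ℝ) : ℂ) * ((O D B : ℝ) : ℂ)) • (S.th α C * S.th β D) +
      ∑ D, (((O C A : ℝ) : ℂ) * ((O D B : ℝ) : ℂ)) • (S.th β D * S.th α C) =
      (((O C A : ℝ) : ℂ) * ((O C B : ℝ) : ℂ)) • (if α = β then (1 : F →L[ℂ] F) else 0) := by
    intro C
    rw [← Finset.sum_add_distrib, Finset.sum_eq_single C]
    · rw [← smul_add, S.th_anti]
      by_cases h : α = β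
      · rw [if_pos h, if_pos ⟨h, rfl⟩]
      · rw [if_neg h, if_neg fun h' => h h'.1]
    · intro D _ hD
      rw [← smul_add, S.th_anti, if_neg fun h' => hD h'.2.symm, smul_zero]
    · intro h
      exact absurd (Finset.mem_univ _) h
  rw [Finset.sum_congr rfl fun C _ => h3 C, ← Finset.sum_smul, sec_orth hO]
  by_cases h : α = β
  · by_cases h' : A = B
    · rw [if_pos h, if_pos h', if_pos ⟨h, h'⟩, one_smul]
    · rw [if_neg h', zero_smul, if_neg (fun hh : α = β ∧ A = B => h' hh.2)]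
  · rw [if_neg h, smul_zero, if_neg (fun hh : α = β ∧ A = B => h hh.1)]

/-- the rotated Clifford system (structure constants `0`) -/
noncomputable def secS (S : Setup d F) (O : Matrix (Fin d) (Fin d) ℝ) (hO : O * Oᵀ = 1) : Setup d F where
  g := S.g
  g_symm := S.g_symm
  g_anti := S.g_anti
  th := secTh S O
  th_anti := secTh_anti S hO
  κ := 1
  κ_pos := one_pos
  f := fun _ _ _ => 0
  f_swap := fun _ _ _ => neg_zero.symm
  f_cyc := fun _ _ _ => rfl
  f_jac := fun _ _ _ _ => by simp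
  g_real := S.g_real
  th_sa := by
    intro α A v w
    rw [secTh_apply, secTh_apply, sum_inner, inner_sum]
    refine Finset.sum_congr rfl fun B _ => ?_
    rw [inner_smul_left, inner_smul_right, S.th_sa, Complex.conj_ofReal]

lemma sec_amF_apply (S : Setup d F) (A : Fin d) (α : Fin 16) (v : F) :
    S.amF A α v = S.th α A v - Complex.I • ∑ γ, S.Gam α γ • S.th γ A v := by
  unfold Setup.amF CS.vec
  simp only [_root_.sub_apply, _root_.smul_apply, _root_.sum_apply]

lemma sec_amF (S : Setup d F) (O : Matrix (Fin d) (Fin d) ℝ) (hO : O * Oᵀ = 1) (A : Fin d) (α : Fin 16) (v : F) :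
    (secS S O hO).amF A α v = ∑ B, ((O B A : ℝ) : ℂ) • S.amF B α v := by
  rw [sec_amF_apply]
  have h1 : (secS S O hO).Gam = S.Gam := rfl
  have h2 : ∀ γ, (secS S O hO).th γ A v = ∑ B, ((O B A : ℝ) : ℂ) • S.th γ B v := fun γ => secTh_apply S O γ A v
  rw [h1]
  simp only [h2, sec_amF_apply S, smul_sub, Finset.sum_sub_distrib, Finset.smul_sum]
  congr 1
  rw [Finset.sum_comm]
  refine Finset.sum_congr rfl fun B _ => Finset.sum_congr rfl fun γ _ => ?_
  rw [smul_smul, smul_smul, smul_smul, smul_smul]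
  congr 1
  ring

/-- action of words on a vector, as a linear map -/
noncomputable def secL (S : Setup d F) (ζ : F) : FreeAlgebra ℂ (Fin 16 × Fin d) →ₗ[ℂ] F where
  toFun := fun X => S.rep X ζ
  map_add' := fun X Y => by rw [map_add]; rfl
  map_smul' := fun c X => by rw [map_smul]; rfl

lemma secL_ι (S : Setup d F) (ζ : F) (p : Fin 16 × Fin d) (X : FreeAlgebra ℂ (Fin 16 × Fin d)) :
    secL S ζ (FreeAlgebra.ι ℂ p * X) = S.th p.1 p.2 (secL S ζ X) := by
  change S.rep (FreeAlgebra.ι ℂ p * X) ζ = S.th p.1 p.2 (S.rep X ζ)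
  rw [map_mul]
  have h : S.rep (FreeAlgebra.ι ℂ p) = S.th p.1 p.2 := by
    unfold Setup.rep
    rw [FreeAlgebra.lift_ι_apply]
  rw [h]
  rfl

lemma secL_surj (S : Setup d F) (hirr : S.Irr) {ζ : F} (h0 : ζ ≠ 0) : Function.Surjective (secL S ζ) := by
  rw [← LinearMap.range_eq_top]
  rcases hirr (LinearMap.range (secL S ζ)) (by
    rintro α A _ ⟨X, rfl⟩
    exact ⟨FreeAlgebra.ι ℂ (α, A) * X, secL_ι S ζ (α, A) X⟩) with h | h
  · exfalso
    have h1 : ζ ∈ LinearMap.range (secL S ζ) := ⟨1, by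
      change S.rep 1 ζ = ζ
      rw [map_one]
      rfl⟩
    rw [h, Submodule.mem_bot] at h1
    exact h0 h1
  · exact h

/-- uniqueness -/
lemma sec_uniq (S : Setup d F) (hirr : S.Irr) {ζ : F} (h0 : ζ ≠ 0) (hζ : ∀ A α, S.amF A α ζ = 0)
    {O : Matrix (Fin d) (Fin d) ℝ} {G G' : F →L[ℂ] F} (hG : Imp S O G) (hG' : Imp S O G') : G = G' := by
  have e : ∀ {H : F →L[ℂ] F}, Imp S O H → ∀ α A v, H (S.th α A v) = ∑ B, ((O B A : ℝ) : ℂ) • S.th α B (H v) := by
    intro H hH α A v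
    have h := congrArg (fun T : F →L[ℂ] F => T v) (hH.imp α A)
    simpa only [_root_.mul_apply_eq_comp, _root_.sum_apply, _root_.smul_apply] using h
  have hW : ∀ α A, ∀ v ∈ LinearMap.eqLocus (G : F →ₗ[ℂ] F) (G' : F →ₗ[ℂ] F),
      S.th α A v ∈ LinearMap.eqLocus (G : F →ₗ[ℂ] F) (G' : F →ₗ[ℂ] F) := by
    intro α A v hv
    have hv' : G v = G' v := hv
    change G (S.th α A v) = G' (S.th α A v)
    rw [e hG, e hG', hv']
  rcases hirr _ hW with h | h
  · exfalso
    have h1 : ζ ∈ LinearMap.eqLocus (G : F →ₗ[ℂ] F) (G' : F →ₗ[ℂ] F) := by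
      change G ζ = G' ζ
      rw [hG.vac ζ hζ, hG'.vac ζ hζ]
    rw [h, Submodule.mem_bot] at h1
    exact h0 h1
  · ext v
    have h1 : v ∈ LinearMap.eqLocus (G : F →ₗ[ℂ] F) (G' : F →ₗ[ℂ] F) := by rw [h]; exact Submodule.mem_top
    exact h1

/-- existence for one rotation, with the formula on words -/
lemma sec_ex (hWick : WickStmt.{u}) (S : Setup d F) (hfd : FiniteDimensional ℂ F) (hirr : S.Irr) {ζ : F} (h1 : ‖ζ‖ = 1)
    (hζ : ∀ A α, S.amF A α ζ = 0) (hu : ∀ v : F, (∀ A α, S.amF A α v = 0) → ∃ c : ℂ, v = c • ζ)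
    (O : Matrix (Fin d) (Fin d) ℝ) (hO : O * Oᵀ = 1) :
    ∃ G : F →L[ℂ] F, Imp S O G ∧ ∀ X, G (S.rep X ζ) = (secS S O hO).rep X ζ := by
  have h0 : ζ ≠ 0 := fun h => by rw [h, norm_zero] at h1; exact zero_ne_one h1
  have hζ' : ∀ A α, (secS S O hO).amF A α ζ = 0 := by
    intro A α
    rw [sec_amF]
    exact Finset.sum_eq_zero fun B _ => by rw [hζ, smul_zero]
  have hn : ∀ X, ‖secL S ζ X‖ = ‖secL (secS S O hO) ζ X‖ := by
    intro X
    have h := (hWick d F F S (secS S O hO) rfl ζ ζ hζ hζ').2 X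
    rw [h1, mul_one, mul_one] at h
    exact h
  obtain ⟨s, hs⟩ := (secL S ζ).exists_rightInverse_of_surjective
    (LinearMap.range_eq_top.2 (secL_surj S hirr h0))
  have hs' : ∀ v, secL S ζ (s v) = v := fun v => by
    have := congrArg (fun T : F →ₗ[ℂ] F => T v) hs
    exact this
  obtain ⟨G₀, hG₀⟩ : ∃ G₀ : F →ₗ[ℂ] F, G₀ = (secL (secS S O hO) ζ).comp s := ⟨_, rfl⟩
  have hX : ∀ X, G₀ (secL S ζ X) = secL (secS S O hO) ζ X := by
    intro X
    have h2 : secL S ζ (s (secL S ζ X) - X) = 0 := by rw [map_sub, hs', sub_self]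
    have h3 : ‖secL (secS S O hO) ζ (s (secL S ζ X) - X)‖ = 0 := by rw [← hn, h2, norm_zero]
    rw [norm_eq_zero, map_sub, sub_eq_zero] at h3
    rw [hG₀]
    exact h3
  obtain ⟨G, hG⟩ : ∃ G : F →L[ℂ] F, ∀ v, G v = G₀ v :=
    ⟨LinearMap.toContinuousLinearMap G₀, fun v => rfl⟩
  have hGX : ∀ X, G (secL S ζ X) = secL (secS S O hO) ζ X := fun X => by rw [hG, hX]
  refine ⟨G, ⟨hO, ?_, ?_, ?_⟩, hGX⟩
  · intro α A
    ext v
    obtain ⟨X, rfl⟩ := secL_surj S hirr h0 v
    simp only [_root_.mul_apply_eq_comp, _root_.sum_apply, _root_.smul_apply]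
    rw [← secL_ι S ζ (α, A) X, hGX, hGX, secL_ι]
    exact secTh_apply S O α A _
  · intro v
    obtain ⟨X, rfl⟩ := secL_surj S hirr h0 v
    rw [hGX, hn]
  · intro v hv
    obtain ⟨c, rfl⟩ := hu v hv
    have h2 : G ζ = ζ := by
      have h3 := hGX 1
      have h4 : secL S ζ 1 = ζ := by
        change S.rep 1 ζ = ζ
        rw [map_one]
        rfl
      have h5 : secL (secS S O hO) ζ 1 = ζ := by
        change (secS S O hO).rep 1 ζ = ζ
        rw [map_one]
        rfl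
      rw [h4, h5] at h3
      exact h3
    rw [map_smul, h2]

/-- words in the rotated fermions depend continuously on the matrix -/
lemma sec_cont (S : Setup d F) (X : FreeAlgebra ℂ (Fin 16 × Fin d)) :
    Continuous fun O : Matrix (Fin d) (Fin d) ℝ =>
      (FreeAlgebra.lift ℂ (fun p : Fin 16 × Fin d => secTh S O p.1 p.2) : FreeAlgebra ℂ (Fin 16 × Fin d) →ₐ[ℂ] (F →L[ℂ] F)) X := by
  refine FreeAlgebra.induction ℂ (Fin 16 × Fin d)
    (motive := fun X => Continuous fun O : Matrix (Fin d) (Fin d) ℝ =>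
      (FreeAlgebra.lift ℂ (fun p : Fin 16 × Fin d => secTh S O p.1 p.2) :
        FreeAlgebra ℂ (Fin 16 × Fin d) →ₐ[ℂ] (F →L[ℂ] F)) X) ?_ ?_ ?_ ?_ X
  · intro r
    simp only [AlgHom.commutes]
    exact continuous_const
  · intro p
    simp only [FreeAlgebra.lift_ι_apply]
    unfold secTh
    refine continuous_finsetSum _ fun B _ => ?_
    have h1 : Continuous fun O : Matrix (Fin d) (Fin d) ℝ => O B p.2 := continuous_id.matrix_elem B p.2
    exact (Complex.continuous_ofReal.comp h1).smul continuous_const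
  · intro X Y hX hY
    simp only [map_mul]
    exact hX.mul hY
  · intro X Y hX hY
    simp only [map_add]
    exact hX.add hY

/-- **X2-Sec** from the universality of the vacuum state -/
theorem sec_of (hWick : WickStmt.{u}) (S : Setup d F) : SecStmt S := by
  intro hfd hirr hne
  obtain ⟨ζ, h1, hζ, -, hu⟩ := AF.vacF S hirr hne
  have h0 : ζ ≠ 0 := fun h => by rw [h, norm_zero] at h1; exact zero_ne_one h1
  refine ⟨?_, fun O G G' hG hG' => sec_uniq S hirr h0 hζ hG hG'⟩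
  have hex : ∀ O : Matrix (Fin d) (Fin d) ℝ, ∃ G : F →L[ℂ] F, ∀ hO : O * Oᵀ = 1,
      Imp S O G ∧ ∀ X, G (S.rep X ζ) = (secS S O hO).rep X ζ := by
    intro O
    by_cases hO : O * Oᵀ = 1
    · obtain ⟨G, hG⟩ := sec_ex hWick S hfd hirr h1 hζ hu O hO
      exact ⟨G, fun _ => hG⟩
    · exact ⟨0, fun h => absurd h hO⟩
  choose G hG using hex
  refine ⟨G, fun O hO => (hG O hO).1, fun v => ?_⟩
  obtain ⟨X, rfl⟩ := secL_surj S hirr h0 v
  have hc : Continuous fun O : Matrix (Fin d) (Fin d) ℝ =>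
      (FreeAlgebra.lift ℂ (fun p : Fin 16 × Fin d => secTh S O p.1 p.2) :
        FreeAlgebra ℂ (Fin 16 × Fin d) →ₐ[ℂ] (F →L[ℂ] F)) X ζ := (sec_cont S X).clm_apply continuous_const
  refine hc.continuousOn.congr fun O hO => ?_
  exact (hG O hO).2 X

/-- **X2-Sec** -/
theorem sec_stmt (S : Setup d F) : WickStmt.{u} → VexStmt S → SecStmt S := fun hWick _ => sec_of hWick S

end Vale.Agent.P353.Z.AX2
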