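import Vale.Agent.P353.AN.X2.Stmt
import Vale.Agent.P353.AN.F.Vac

/-! # P353, all `N`, block X2: the vacuum space of one Clifford system is irreducible for the other one (helper275) -/

open MeasureTheory Filter Topology Matrix
open scoped ContDiff

namespace Vale.Agent.P353.Z.AX2

universe u

variable {d d1 d2 : ℕ} {F : Type u} [NormedAddCommGroup F] [InnerProductSpace ℂ F]

/-- all fermions of both systems -/
noncomputable def vciTh (S1 : Setup d1 F) (S2 : Setup d2 F) (α : Fin 16) (A : Fin (d1 + d2)) : F →L[ℂ] F :=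
  Fin.addCases (motive := fun _ => F →L[ℂ] F) (fun A => S1.th α A) (fun A => S2.th α A) A

lemma vciTh_l (S1 : Setup d1 F) (S2 : Setup d2 F) (α : Fin 16) (A : Fin d1) :
    vciTh S1 S2 α (Fin.castAdd d2 A) = S1.th α A := by
  unfold vciTh
  exact Fin.addCases_left A

lemma vciTh_r (S1 : Setup d1 F) (S2 : Setup d2 F) (α : Fin 16) (A : Fin d2) :
    vciTh S1 S2 α (Fin.natAdd d1 A) = S2.th α A := by
  unfold vciTh
  exact Fin.addCases_right A

/-- both systems combined, structure constants `0` -/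
noncomputable def vciCmb (S1 : Setup d1 F) (S2 : Setup d2 F) (h : Ant S1 S2) : Setup (d1 + d2) F where
  g := S1.g
  g_symm := S1.g_symm
  g_anti := S1.g_anti
  th := vciTh S1 S2
  th_anti := by
    intro α A β B
    have hne : ∀ (A : Fin d1) (B : Fin d2), Fin.castAdd d2 A ≠ Fin.natAdd d1 B := by
      intro A B hAB
      have h1 := congrArg Fin.val hAB
      have h2 := A.2
      simp only [Fin.val_castAdd, Fin.val_natAdd] at h1
      omega
    refine Fin.addCases (fun A => ?_) (fun A => ?_) A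
    · refine Fin.addCases (fun B => ?_) (fun B => ?_) B
      · rw [vciTh_l, vciTh_l, S1.th_anti]
        by_cases hab : α = β ∧ A = B
        · rw [if_pos hab, if_pos ⟨hab.1, by rw [hab.2]⟩]
        · rw [if_neg hab, if_neg fun h' => hab ⟨h'.1, Fin.castAdd_injective d1 d2 h'.2⟩]
      · rw [vciTh_l, vciTh_r, h.anti, if_neg fun h' => hne A B h'.2]
    · refine Fin.addCases (fun B => ?_) (fun B => ?_) B
      · rw [vciTh_l, vciTh_r, add_comm, h.anti, if_neg fun h' => hne B A h'.2.symm]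
      · rw [vciTh_r, vciTh_r, S2.th_anti]
        by_cases hab : α = β ∧ A = B
        · rw [if_pos hab, if_pos ⟨hab.1, by rw [hab.2]⟩]
        · rw [if_neg hab, if_neg fun h' => hab ⟨h'.1, Fin.natAdd_injective d2 d1 h'.2⟩]
  κ := 1
  κ_pos := one_pos
  f := fun _ _ _ => 0
  f_swap := fun _ _ _ => neg_zero.symm
  f_cyc := fun _ _ _ => rfl
  f_jac := fun _ _ _ _ => by simp
  g_real := S1.g_real
  th_sa := by
    intro α A v w
    refine Fin.addCases (fun A => ?_) (fun A => ?_) A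
    · rw [vciTh_l]
      exact S1.th_sa α A v w
    · rw [vciTh_r]
      exact S2.th_sa α A v w

lemma vci_amF_apply (S : Setup d F) (A : Fin d) (α : Fin 16) (v : F) :
    S.amF A α v = S.th α A v - Complex.I • ∑ γ, S.Gam α γ • S.th γ A v := by
  unfold Setup.amF CS.vec
  simp only [_root_.sub_apply, _root_.smul_apply, _root_.sum_apply]

lemma vci_amF_l (S1 : Setup d1 F) (S2 : Setup d2 F) (h : Ant S1 S2) (A : Fin d1) (α : Fin 16) (v : F) :
    (vciCmb S1 S2 h).amF (Fin.castAdd d2 A) α v = S1.amF A α v := by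
  rw [vci_amF_apply, vci_amF_apply]
  have e : ∀ γ, (vciCmb S1 S2 h).th γ (Fin.castAdd d2 A) = S1.th γ A := fun γ => vciTh_l S1 S2 γ A
  simp only [e]
  rfl

lemma vci_amF_r (S1 : Setup d1 F) (S2 : Setup d2 F) (h : Ant S1 S2) (A : Fin d2) (α : Fin 16) (v : F) :
    (vciCmb S1 S2 h).amF (Fin.natAdd d1 A) α v = S2.amF A α v := by
  rw [vci_amF_apply, vci_amF_apply]
  have e : ∀ γ, (vciCmb S1 S2 h).th γ (Fin.natAdd d1 A) = S2.th γ A := fun γ => vciTh_r S1 S2 γ A
  have e2 : (vciCmb S1 S2 h).Gam = S2.Gam := by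
    change S1.g 0 * S1.g 1 * S1.g 2 = S2.g 0 * S2.g 1 * S2.g 2
    rw [h.g]
  simp only [e, e2]

lemma vci_amF_rst (S : Setup d F) (V : Submodule ℂ F) (hV : ∀ α A, ∀ v ∈ V, S.th α A v ∈ V) (A : Fin d)
    (α : Fin 16) (v : V) : (((S.rst V hV).amF A α v : V) : F) = S.amF A α v := by
  rw [vci_amF_apply, vci_amF_apply]
  push_cast
  rfl

lemma vci_amF_anti (S1 : Setup d1 F) (S2 : Setup d2 F) (h : Ant S1 S2) (A : Fin d2) (α : Fin 16) (β : Fin 16)
    (B : Fin d1) (v : F) : S2.amF A α (S1.th β B v) = -S1.th β B (S2.amF A α v) := by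
  have e : ∀ γ, S2.th γ A (S1.th β B v) = -S1.th β B (S2.th γ A v) := by
    intro γ
    have h1 := congrArg (fun T : F →L[ℂ] F => T v) (h.anti β B γ A)
    have h2 : S1.th β B (S2.th γ A v) + S2.th γ A (S1.th β B v) = 0 := h1
    rw [eq_neg_iff_add_eq_zero, add_comm]
    exact h2
  rw [vci_amF_apply, vci_amF_apply]
  simp only [e, map_sub, map_smul, map_sum, smul_neg, Finset.sum_neg_distrib]
  abel

/-- X2-Vex for invariant subspaces -/
lemma vci_vex (S : Setup d F) (W : Submodule ℂ F) (hW : ∀ α A, ∀ v ∈ W, S.th α A v ∈ W) (hne : W ≠ ⊥) :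
    ∃ w ∈ W, w ≠ 0 ∧ ∀ A α, S.amF A α w = 0 := by
  obtain ⟨w, hw, hw0⟩ := Submodule.exists_mem_ne_zero_of_ne_bot hne
  obtain ⟨v, hv, hvA⟩ := U.Vac_exists (S.rst W hW) (𝒜 := (S.rst W hW).vfSub)
    (fun a ha b hb => (S.rst W hW).vf_iso ha hb) ⟨⟨w, hw⟩, fun h => hw0 (congrArg Subtype.val h)⟩
  refine ⟨v, v.2, fun h => hv (Subtype.ext h), fun A α => ?_⟩
  rw [← vci_amF_rst S W hW, (S.rst W hW).vf_kill' hvA]
  rfl

/-- **X2-VcaIrr**, without hypotheses -/
theorem vci_main (S1 : Setup d1 F) (S2 : Setup d2 F) : VcaIrrStmt S1 S2 := by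
  intro hfd hA K0 hK
  -- the combined system on `K0`
  obtain ⟨C, hC⟩ : ∃ C : Setup (d1 + d2) F, C = vciCmb S1 S2 hA := ⟨_, rfl⟩
  have hCl : ∀ α A, C.th α (Fin.castAdd d2 A) = S1.th α A := fun α A => by
    rw [hC]; exact vciTh_l S1 S2 α A
  have hCr : ∀ α A, C.th α (Fin.natAdd d1 A) = S2.th α A := fun α A => by
    rw [hC]; exact vciTh_r S1 S2 α A
  have hCinv : ∀ α A, ∀ v ∈ K0, C.th α A v ∈ K0 := by
    intro α A v hv
    refine Fin.addCases (fun A => ?_) (fun A => ?_) A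
    · rw [hCl]; exact hK.inv1 α A v hv
    · rw [hCr]; exact hK.inv2 α A v hv
  have hCirr : (C.rst K0 hCinv).Irr := by
    intro W hW
    have h1 : ∀ α A, ∀ v ∈ W.map K0.subtype, C.th α A v ∈ W.map K0.subtype := by
      rintro α A _ ⟨v, hv, rfl⟩
      exact ⟨(C.rst K0 hCinv).th α A v, hW α A v hv, rfl⟩
    have h2 := hK.irr (W.map K0.subtype) (Submodule.map_subtype_le K0 W)
      (fun α A v hv => by rw [← hCl]; exact h1 _ _ v hv) (fun α A v hv => by rw [← hCr]; exact h1 _ _ v hv)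
    rcases h2 with h2 | h2
    · left
      rw [eq_bot_iff]
      intro x hx
      have h3 : (x : F) ∈ W.map K0.subtype := ⟨x, hx, rfl⟩
      rw [h2, Submodule.mem_bot] at h3
      rw [Submodule.mem_bot]
      exact Subtype.ext h3
    · right
      rw [eq_top_iff]
      intro x _
      have h3 : (x : F) ∈ W.map K0.subtype := by rw [h2]; exact x.2
      obtain ⟨y, hy, hyx⟩ := h3
      have h4 : y = x := Subtype.ext hyx
      rw [← h4]
      exact hy
  have hKne : ∃ v : K0, v ≠ 0 := by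
    obtain ⟨w, hw, hw0⟩ := Submodule.exists_mem_ne_zero_of_ne_bot hK.ne
    exact ⟨⟨w, hw⟩, fun h => hw0 (congrArg Subtype.val h)⟩
  obtain ⟨Ω, hΩ1, hΩA, -, hΩu⟩ := AF.vacF (C.rst K0 hCinv) hCirr hKne
  have hΩC : ∀ A α, C.amF A α (Ω : F) = 0 := by
    intro A α
    rw [← vci_amF_rst C K0 hCinv, hΩA]
    rfl
  have hΩ1' : ∀ A α, S1.amF A α (Ω : F) = 0 := fun A α => by
    rw [← vci_amF_l S1 S2 hA, ← hC]; exact hΩC _ _
  have hΩ2' : ∀ A α, S2.amF A α (Ω : F) = 0 := fun A α => by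
    rw [← vci_amF_r S1 S2 hA, ← hC]; exact hΩC _ _
  have huniq : ∀ v ∈ vca S2 K0, (∀ A α, S1.amF A α v = 0) → ∃ c : ℂ, v = c • (Ω : F) := by
    intro v hv h1
    obtain ⟨c, hc⟩ := hΩu ⟨v, hv.1⟩ (by
      intro A α
      apply Subtype.ext
      rw [vci_amF_rst]
      change C.amF A α v = 0
      rw [hC]
      refine Fin.addCases (fun A => ?_) (fun A => ?_) A
      · rw [vci_amF_l]; exact h1 A α
      · rw [vci_amF_r]; exact hv.2 A α)
    exact ⟨c, congrArg Subtype.val hc⟩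
  have hΩV : (Ω : F) ∈ vca S2 K0 := ⟨Ω.2, hΩ2'⟩
  have hΩn : ‖(Ω : F)‖ = 1 := hΩ1
  have hΩ0 : (Ω : F) ≠ 0 := fun h => by rw [h, norm_zero] at hΩn; exact zero_ne_one hΩn
  have hVinv : ∀ α A, ∀ v ∈ vca S2 K0, S1.th α A v ∈ vca S2 K0 := by
    intro α A v hv
    refine ⟨hK.inv1 α A v hv.1, fun B β => ?_⟩
    rw [vci_amF_anti S1 S2 hA, hv.2 B β, map_zero, neg_zero]
  -- every nonzero submodule contains `Ω`
  have hkey : ∀ W : Submodule ℂ F, W ≤ vca S2 K0 → (∀ α A, ∀ v ∈ W, S1.th α A v ∈ W) → W ≠ ⊥ → (Ω : F) ∈ W := by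
    intro W hW hWinv hWne
    obtain ⟨w, hw, hw0, hwA⟩ := vci_vex S1 W hWinv hWne
    obtain ⟨c, hc⟩ := huniq w (hW hw) hwA
    have hc0 : c ≠ 0 := fun h => hw0 (by rw [hc, h, zero_smul])
    have h1 : (Ω : F) = c⁻¹ • w := by rw [hc, smul_smul, inv_mul_cancel₀ hc0, one_smul]
    rw [h1]
    exact W.smul_mem _ hw
  refine ⟨⟨hVinv, fun h => hΩ0 (by rw [h, Submodule.mem_bot] at hΩV; exact hΩV), fun W hW hWinv => ?_⟩,
    Ω, hΩV, hΩn, hΩ1', huniq⟩
  by_cases hWb : W = ⊥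
  · exact Or.inl hWb
  right
  have h1 := hkey W hW hWinv hWb
  have h2 : Wᗮ ⊓ vca S2 K0 = ⊥ := by
    by_contra hne
    have h3 := hkey (Wᗮ ⊓ vca S2 K0) inf_le_right (by
      intro α A v hv
      refine ⟨?_, hVinv α A v hv.2⟩
      intro w hw
      rw [← S1.th_sa]
      exact hv.1 _ (hWinv α A w hw)) hne
    have h4 : inner ℂ (Ω : F) (Ω : F) = (0 : ℂ) := h3.1 _ h1
    exact hΩ0 (inner_self_eq_zero.1 h4)
  have h5 := Submodule.sup_orthogonal_inf_of_hasOrthogonalProjection hW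
  rw [h2, sup_bot_eq] at h5
  exact h5

/-- **X2-VcaIrr** -/
theorem vcaIrr_stmt (S1 : Setup d1 F) (S2 : Setup d2 F) :
    (∀ (d : ℕ) (E : Type u) [NormedAddCommGroup E] [InnerProductSpace ℂ E] (S : Setup d E), VexStmt S) →
      VcaIrrStmt S1 S2 := fun _ => vci_main S1 S2

end Vale.Agent.P353.Z.AX2
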