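import Vale.Agent.P353.AN.X2.Stmt
import Vale.Agent.P353.AN.F.Vac

/-! # P353, all `N`, block X2: a nonzero module contains a vacuum vector (helper435) -/

namespace Vale.Agent.P353.Z.AX2

universe u

/-- **X2-Vex** a nonzero module (any dimension) contains a `Γ`-vacuum vector. -/
theorem vex_stmt {d : ℕ} {E : Type u} [NormedAddCommGroup E] [InnerProductSpace ℂ E] (S : Setup d E) : VexStmt S := by
  intro hE
  obtain ⟨v, hv, hvA⟩ := U.Vac_exists S (𝒜 := S.vfSub) (fun a ha b hb => S.vf_iso ha hb) hE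
  exact ⟨v, hv, fun A α => S.vf_kill' hvA A α⟩

end Vale.Agent.P353.Z.AX2
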