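import Vale.Agent.P353.AN.X2.StmtG
import Vale.Agent.P353.Z.U.Inv

/-! # P353, all `N`, block X2: the vacuum state is universal (helper973) -/

open MeasureTheory Filter Topology Matrix
open scoped ContDiff

namespace Vale.Agent.P353.Z.AX2

universe u

section one

variable {d : ℕ} {E : Type u} [NormedAddCommGroup E] [InnerProductSpace ℂ E] (S : Setup d E)

/-- the anticommutator of `amF p` and `θ_q` -/
noncomputable def wk_a (Γ : Matrix (Fin 16) (Fin 16) ℂ) (p q : Fin 16 × Fin d) : ℂ :=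
  (if p.1 = q.1 ∧ p.2 = q.2 then 1 else 0) - Complex.I * (if p.2 = q.2 then Γ p.1 q.1 else 0)

lemma wk_th (p q : Fin 16 × Fin d) (v : E) :
    S.th p.1 p.2 (S.th q.1 q.2 v) + S.th q.1 q.2 (S.th p.1 p.2 v) = if p.1 = q.1 ∧ p.2 = q.2 then v else 0 := by
  have h := congrArg (fun T : E →L[ℂ] E => T v) (S.th_anti p.1 p.2 q.1 q.2)
  have e : (if p.1 = q.1 ∧ p.2 = q.2 then (1 : E →L[ℂ] E) else 0) v = if p.1 = q.1 ∧ p.2 = q.2 then v else 0 := by
    split_ifs <;> rfl
  rw [← e]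
  exact h

lemma wk_vec (N : Matrix (Fin 16) (Fin 16) ℂ) (A : Fin d) (α : Fin 16) (v : E) :
    S.vec N A α v = ∑ γ, N α γ • S.th γ A v := by
  simp only [CS.vec, _root_.sum_apply, _root_.smul_apply]

lemma wk_am (p q : Fin 16 × Fin d) (v : E) :
    S.amF p.2 p.1 (S.th q.1 q.2 v) = wk_a S.Gam p q • v - S.th q.1 q.2 (S.amF p.2 p.1 v) := by
  have h1 : ∀ w, S.amF p.2 p.1 w = S.th p.1 p.2 w - Complex.I • ∑ γ, S.Gam p.1 γ • S.th γ p.2 w := by
    intro w
    simp only [Setup.amF, _root_.sub_apply, _root_.smul_apply, wk_vec]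
  rw [eq_sub_iff_add_eq, h1, h1, map_sub, map_smul, map_sum]
  simp only [map_smul]
  have h2 : ∑ γ, S.Gam p.1 γ • S.th γ p.2 (S.th q.1 q.2 v) + ∑ γ, S.Gam p.1 γ • S.th q.1 q.2 (S.th γ p.2 v) =
      (if p.2 = q.2 then S.Gam p.1 q.1 else 0) • v := by
    rw [← Finset.sum_add_distrib]
    simp only [← smul_add]
    have h3 : ∀ γ, S.th γ p.2 (S.th q.1 q.2 v) + S.th q.1 q.2 (S.th γ p.2 v) =
        if γ = q.1 ∧ p.2 = q.2 then v else 0 := fun γ => wk_th S (γ, p.2) q v
    simp only [h3]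
    by_cases h : p.2 = q.2
    · simp [h]
    · simp [h]
  have h4 := wk_th S p q v
  have h5 : S.th p.1 p.2 (S.th q.1 q.2 v) - Complex.I • ∑ γ, S.Gam p.1 γ • S.th γ p.2 (S.th q.1 q.2 v) +
      (S.th q.1 q.2 (S.th p.1 p.2 v) - Complex.I • ∑ γ, S.Gam p.1 γ • S.th q.1 q.2 (S.th γ p.2 v)) =
      (S.th p.1 p.2 (S.th q.1 q.2 v) + S.th q.1 q.2 (S.th p.1 p.2 v)) -
      Complex.I • (∑ γ, S.Gam p.1 γ • S.th γ p.2 (S.th q.1 q.2 v) + ∑ γ, S.Gam p.1 γ • S.th q.1 q.2 (S.th γ p.2 v)) := by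
    rw [smul_add]
    abel
  rw [h5, h4, h2, wk_a, sub_smul, mul_smul]
  congr 1
  split_ifs <;> simp

lemma wk_real (α β : Fin 16) : (starRingEnd ℂ) (S.Gam α β) = S.Gam α β := by
  have h := congrFun (congrFun (U.InvPf.Gr_map S) α) β
  rw [← h]
  simp

/-- adjoint of the annihilators -/
lemma wk_adj (p : Fin 16 × Fin d) (v w : E) :
    inner ℂ v (S.th p.1 p.2 w) * 2 = inner ℂ v (S.amF p.2 p.1 w) + inner ℂ (S.amF p.2 p.1 v) w := by
  have h1 : ∀ w, S.amF p.2 p.1 w = S.th p.1 p.2 w - Complex.I • ∑ γ, S.Gam p.1 γ • S.th γ p.2 w := by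
    intro w
    simp only [Setup.amF, _root_.sub_apply, _root_.smul_apply, wk_vec]
  rw [h1, h1, inner_sub_left, inner_sub_right, inner_smul_left, inner_smul_right, inner_sum, sum_inner]
  simp only [inner_smul_left, inner_smul_right, wk_real, S.th_sa, Complex.conj_I]
  ring

/-- word vectors -/
noncomputable def wk_W (ζ : E) : List (Fin 16 × Fin d) → E
  | [] => ζ
  | q :: l => S.th q.1 q.2 (wk_W ζ l)

end one

/-- contractions -/
noncomputable def wk_c {d : ℕ} (a : Fin 16 × Fin d → Fin 16 × Fin d → ℂ) (p : Fin 16 × Fin d) :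
    List (Fin 16 × Fin d) → List (ℂ × List (Fin 16 × Fin d))
  | [] => []
  | q :: l => (a p q, l) :: (wk_c a p l).map fun c => (-c.1, q :: c.2)

lemma wk_len {d : ℕ} (a : Fin 16 × Fin d → Fin 16 × Fin d → ℂ) (p : Fin 16 × Fin d) (l : List (Fin 16 × Fin d)) :
    ∀ c ∈ wk_c a p l, c.2.length < l.length := by
  induction l with
  | nil => intro c hc; simp [wk_c] at hc
  | cons q l ih =>
    intro c hc
    simp only [wk_c, List.mem_cons, List.mem_map] at hc
    rcases hc with rfl | ⟨c', hc', rfl⟩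
    · simp
    · have := ih c' hc'
      simpa using this

section one

variable {d : ℕ} {E : Type u} [NormedAddCommGroup E] [InnerProductSpace ℂ E] (S : Setup d E)

lemma wk_amW {ζ : E} (hζ : ∀ A α, S.amF A α ζ = 0) (p : Fin 16 × Fin d) (l : List (Fin 16 × Fin d)) :
    S.amF p.2 p.1 (wk_W S ζ l) = ((wk_c (wk_a S.Gam) p l).map fun c => c.1 • wk_W S ζ c.2).sum := by
  induction l with
  | nil => simp [wk_c, wk_W, hζ]
  | cons q l ih =>
    rw [wk_W, wk_am, ih, wk_c, List.map_cons, List.sum_cons, map_list_sum, List.map_map, List.map_map, sub_eq_add_neg]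
    congr 1
    rw [← neg_one_smul ℂ, List.smul_sum, List.map_map]
    congr 1
    refine List.map_congr_left fun c _ => ?_
    simp only [Function.comp_apply, wk_W, map_smul, neg_smul, one_smul]

lemma wk_red {ζ : E} (hζ : ∀ A α, S.amF A α ζ = 0) (p : Fin 16 × Fin d) (l : List (Fin 16 × Fin d)) :
    inner ℂ ζ (wk_W S ζ (p :: l)) * 2 =
      ((wk_c (wk_a S.Gam) p l).map fun c => c.1 * inner ℂ ζ (wk_W S ζ c.2)).sum := by
  rw [wk_W, wk_adj, hζ, inner_zero_left, add_zero, wk_amW S hζ]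
  have h : ∀ L : List (ℂ × List (Fin 16 × Fin d)), (inner ℂ ζ (L.map fun c => c.1 • wk_W S ζ c.2).sum : ℂ) =
      (L.map fun c => c.1 * inner ℂ ζ (wk_W S ζ c.2)).sum := by
    intro L
    induction L with
    | nil => simp
    | cons c L ih => simp only [List.map_cons, List.sum_cons, inner_add_right, inner_smul_right, ih]
  exact h _

end one

/-- **X2-Wick** -/
theorem wick_stmt : WickStmt.{u} := by
  intro d E E' _ _ _ _ S S' hg ζ ζ' hζ hζ'
  have hGam : S'.Gam = S.Gam := by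
    unfold Setup.Gam
    rw [hg]
  -- words
  have hw : ∀ n, ∀ l : List (Fin 16 × Fin d), l.length = n →
      inner ℂ ζ (wk_W S ζ l) * ((‖ζ'‖ ^ 2 : ℝ) : ℂ) = inner ℂ ζ' (wk_W S' ζ' l) * ((‖ζ‖ ^ 2 : ℝ) : ℂ) := by
    intro n
    induction n using Nat.strong_induction_on with
    | _ n ih =>
      intro l hl
      cases l with
      | nil =>
        simp only [wk_W, inner_self_eq_norm_sq_to_K]
        push_cast
        exact mul_comm _ _
      | cons p l =>
        have h1 := wk_red S hζ p l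
        have h2 := wk_red S' hζ' p l
        rw [hGam] at h2
        have h3 : ∀ c ∈ wk_c (wk_a S.Gam) p l,
            c.1 * inner ℂ ζ (wk_W S ζ c.2) * ((‖ζ'‖ ^ 2 : ℝ) : ℂ) =
            c.1 * inner ℂ ζ' (wk_W S' ζ' c.2) * ((‖ζ‖ ^ 2 : ℝ) : ℂ) := by
          intro c hc
          have h4 := wk_len _ _ _ c hc
          rw [List.length_cons] at hl
          rw [mul_assoc, mul_assoc, ih c.2.length (by omega) c.2 rfl]
        have h5 : ((wk_c (wk_a S.Gam) p l).map fun c => c.1 * inner ℂ ζ (wk_W S ζ c.2)).sum *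
            ((‖ζ'‖ ^ 2 : ℝ) : ℂ) =
            ((wk_c (wk_a S.Gam) p l).map fun c => c.1 * inner ℂ ζ' (wk_W S' ζ' c.2)).sum *
            ((‖ζ‖ ^ 2 : ℝ) : ℂ) := by
          rw [← List.sum_map_mul_right, ← List.sum_map_mul_right]
          congr 1
          exact List.map_congr_left h3
        rw [← h1, ← h2] at h5
        linear_combination h5 / 2
  -- pairs of word vectors
  set 𝒲 : Submodule ℂ (E × E') := Submodule.span ℂ (Set.range fun l => (wk_W S ζ l, wk_W S' ζ' l)) with h𝒲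
  have hth : ∀ p : Fin 16 × Fin d, ∀ z ∈ 𝒲, (S.th p.1 p.2 z.1, S'.th p.1 p.2 z.2) ∈ 𝒲 := by
    intro p z hz
    induction hz using Submodule.span_induction with
    | mem z hz =>
      obtain ⟨l, rfl⟩ := hz
      exact Submodule.subset_span ⟨p :: l, rfl⟩
    | zero =>
      simp only [Prod.fst_zero, Prod.snd_zero, map_zero]
      exact 𝒲.zero_mem
    | add z w _ _ hz hw =>
      simp only [Prod.fst_add, Prod.snd_add, map_add]
      exact 𝒲.add_mem hz hw
    | smul c z _ hz =>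
      simp only [Prod.smul_fst, Prod.smul_snd, map_smul]
      exact 𝒲.smul_mem c hz
  have hrep : ∀ X : FreeAlgebra ℂ (Fin 16 × Fin d), ∀ z ∈ 𝒲, (S.rep X z.1, S'.rep X z.2) ∈ 𝒲 := by
    intro X
    induction X using FreeAlgebra.induction with
    | grade0 r =>
      intro z hz
      have h1 : S.rep (algebraMap ℂ _ r) z.1 = r • z.1 := by
        rw [AlgHom.commutes]
        rfl
      have h2 : S'.rep (algebraMap ℂ _ r) z.2 = r • z.2 := by
        rw [AlgHom.commutes]
        rfl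
      rw [h1, h2]
      exact 𝒲.smul_mem r hz
    | grade1 p =>
      intro z hz
      have h1 : S.rep (FreeAlgebra.ι ℂ p) = S.th p.1 p.2 := by
        unfold Setup.rep
        rw [FreeAlgebra.lift_ι_apply]
      have h2 : S'.rep (FreeAlgebra.ι ℂ p) = S'.th p.1 p.2 := by
        unfold Setup.rep
        rw [FreeAlgebra.lift_ι_apply]
      rw [h1, h2]
      exact hth p z hz
    | mul a b ha hb =>
      intro z hz
      rw [map_mul, map_mul]
      exact ha _ (hb z hz)
    | add a b ha hb =>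
      intro z hz
      rw [map_add, map_add]
      exact 𝒲.add_mem (ha z hz) (hb z hz)
  have h0 : ((ζ, ζ') : E × E') ∈ 𝒲 := Submodule.subset_span ⟨[], rfl⟩
  have hvac : ∀ z ∈ 𝒲, inner ℂ ζ z.1 * ((‖ζ'‖ ^ 2 : ℝ) : ℂ) = inner ℂ ζ' z.2 * ((‖ζ‖ ^ 2 : ℝ) : ℂ) := by
    intro z hz
    induction hz using Submodule.span_induction with
    | mem z hz =>
      obtain ⟨l, rfl⟩ := hz
      exact hw _ l rfl
    | zero => simp
    | add z w _ _ hz hw =>
      simp only [Prod.fst_add, Prod.snd_add, inner_add_right, add_mul, hz, hw]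
    | smul c z _ hz =>
      simp only [Prod.smul_fst, Prod.smul_snd, inner_smul_right, mul_assoc, hz]
  have hword : ∀ l : List (Fin 16 × Fin d), ∀ z ∈ 𝒲, inner ℂ (wk_W S ζ l) z.1 * ((‖ζ'‖ ^ 2 : ℝ) : ℂ) =
      inner ℂ (wk_W S' ζ' l) z.2 * ((‖ζ‖ ^ 2 : ℝ) : ℂ) := by
    intro l
    induction l with
    | nil => exact hvac
    | cons q l ih =>
      intro z hz
      rw [wk_W, wk_W, S.th_sa, S'.th_sa]
      exact ih _ (hth q z hz)
  have hall : ∀ w ∈ 𝒲, ∀ z ∈ 𝒲, inner ℂ w.1 z.1 * ((‖ζ'‖ ^ 2 : ℝ) : ℂ) =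
      inner ℂ w.2 z.2 * ((‖ζ‖ ^ 2 : ℝ) : ℂ) := by
    intro w hw' z hz
    induction hw' using Submodule.span_induction with
    | mem w hw' =>
      obtain ⟨l, rfl⟩ := hw'
      exact hword l z hz
    | zero => simp
    | add w w' _ _ h1 h2 =>
      simp only [Prod.fst_add, Prod.snd_add, inner_add_left, add_mul, h1, h2]
    | smul c w _ h1 =>
      simp only [Prod.smul_fst, Prod.smul_snd, inner_smul_left, mul_assoc, h1]
  refine ⟨fun X => hvac _ (hrep X _ h0), fun X => ?_⟩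
  have hX := hrep X _ h0
  have h1 := hall _ hX _ hX
  simp only [inner_self_eq_norm_sq_to_K] at h1
  have h2 : (‖S.rep X ζ‖ * ‖ζ'‖) ^ 2 = (‖S'.rep X ζ'‖ * ‖ζ‖) ^ 2 := by
    rw [mul_pow, mul_pow]
    apply Complex.ofReal_injective
    push_cast
    push_cast at h1
    exact h1
  exact (sq_eq_sq₀ (by positivity) (by positivity)).mp h2

end Vale.Agent.P353.Z.AX2
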