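import Vale.Agent.P353.AN.X2.Stmt
import Vale.Agent.P353.AN.L.ZM

/-! # P353, all `N`, block X2: `ZInvStmt` (helper379)

The fermions of the second setup map zero modes of the first one (with values in an invariant subspace)
to zero modes: they anticommute with the fermions of the first setup, so `Q_β (T u) = -T (Q_β u)` and
`G_C (T u) = T (G_C u)`. -/

open MeasureTheory Filter Topology Matrix
open scoped ContDiff

namespace Vale.Agent.P353.Z.AX2

universe u

variable {d1 d2 : ℕ} {F : Type u} [NormedAddCommGroup F] [InnerProductSpace ℂ F]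

lemma zInv_sgC {S1 : Setup d1 F} {S2 : Setup d2 F} (h : Ant S1 S2) (α : Fin 16) (A : Fin d2) :
    AL.SgC S1 (S2.th α A) (-1) := by
  intro β B
  have h1 := h.anti β B α A
  rw [neg_one_smul]
  exact eq_neg_of_add_eq_zero_right h1

lemma zInv_opL (T : F →L[ℂ] F) {w : ℕ → Cfg d1 → F} (hw : ∀ n, MemLp (w n) 2 (volume : Measure (Cfg d1)))
    (h : Tendsto (fun n => ∫ x, ‖w n x‖ ^ 2) atTop (𝓝 0)) :
    Tendsto (fun n => ∫ x, ‖T (w n x)‖ ^ 2) atTop (𝓝 0) := by
  have h2 : Tendsto (fun n => ‖T‖ ^ 2 * ∫ x, ‖w n x‖ ^ 2) atTop (𝓝 0) := by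
    simpa using h.const_mul (‖T‖ ^ 2)
  refine squeeze_zero (fun n => integral_nonneg fun x => by positivity) (fun n => ?_) h2
  rw [← integral_const_mul]
  refine integral_mono_of_nonneg (Filter.Eventually.of_forall fun x => by positivity)
    ((memLp_norm_sq_int (hw n)).const_mul _) (Filter.Eventually.of_forall fun x => ?_)
  show ‖T (w n x)‖ ^ 2 ≤ ‖T‖ ^ 2 * ‖w n x‖ ^ 2
  rw [← mul_pow]
  exact pow_le_pow_left₀ (norm_nonneg _) (T.le_opNorm _) 2

/-- **X2-ZInv**: the other fermions act on the zero modes -/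
theorem zInv_stmt (S1 : Setup d1 F) (S2 : Setup d2 F) : ZmsStmt S1 → ZInvStmt S1 S2 := by
  intro hz hA K0 hK α A Ψ hΨ
  obtain ⟨⟨u, hu1, hu2, hu3, hu4⟩, hk⟩ := (hz K0 Ψ).1 hΨ
  have hs := zInv_sgC hA α A
  have h11 : (-1 : ℂ) * (-1) = 1 := by norm_num
  refine (hz K0 _).2 ⟨⟨fun n x => S2.th α A (u n x), fun n => AL.Tst_clm _ (hu1 n), fun n C x => ?_, ?_, fun β => ?_⟩, ?_⟩
  · rw [AL.G_clm hs h11 C (hu1 n) x, hu2, map_zero]
  · have h := zInv_opL (S2.th α A) (w := fun n x => u n x - Ψ x)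
      (fun n => (hu1 n).memLp.sub (Lp.memLp Ψ)) hu3
    refine h.congr fun n => integral_congr_ae ?_
    filter_upwards [Setup.pwa_ae (S2.th α A) Ψ] with x hx
    rw [hx, map_sub]
  · have h := zInv_opL (S2.th α A) (w := fun n x => S1.Q β (u n) x)
      (fun n => ((hu1 n).Q S1 β).memLp) (hu4 β)
    refine h.congr fun n => integral_congr_ae (Filter.Eventually.of_forall fun x => ?_)
    simp only [AL.Q_clm hs h11 β (hu1 n) x, norm_smul, norm_neg, norm_one, one_mul]
  · filter_upwards [hk, Setup.pwa_ae (S2.th α A) Ψ] with x hx hy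
    rw [hy]
    exact hK α A _ hx

end Vale.Agent.P353.Z.AX2
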