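import Vale.Agent.P353.AN.X2.Stmt

/-! # P353, all `N`, block X2: no colours -/

open MeasureTheory Filter Topology Matrix
open scoped ContDiff

namespace Vale.Agent.P353.Z.AX2

universe u

theorem zr775_sub : Subsingleton (Cfg 0) := by
  refine ⟨fun x y => ?_⟩
  ext p
  exact p.2.elim0

theorem zr775_zm {F : Type u} [NormedAddCommGroup F] [InnerProductSpace ℂ F] (S : Setup 0 F)
    (Ψ : Lp F 2 (volume : Measure (Cfg 0))) : S.IsZM Ψ := by
  have := zr775_sub
  refine ⟨fun _ x => Ψ x, fun n => ⟨?_, ?_⟩, fun n C => C.elim0, ?_, fun β => ?_⟩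
  · have : (fun x : Cfg 0 => Ψ x) = fun _ => Ψ 0 := by
      funext x
      rw [Subsingleton.elim x 0]
    rw [this]
    exact contDiff_const
  · exact HasCompactSupport.of_compactSpace _
  · simp
  · have : ∀ x : Cfg 0, S.Q β (fun x => Ψ x) x = 0 := by
      intro x
      unfold Setup.Q Setup.W
      simp
    simp [this]

theorem zero_stmt : ZeroStmt.{u} := by
  intro κ f E _ _ hE S _ _ hIrr hne
  have := zr775_sub
  obtain ⟨v, hv⟩ := hne
  have : IsFiniteMeasure (volume : Measure (Cfg 0)) := inferInstance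
  let Ψ₀ : Lp E 2 (volume : Measure (Cfg 0)) := (memLp_const v).toLp _
  have h0 : ∀ᵐ x ∂(volume : Measure (Cfg 0)), Ψ₀ x = v := (memLp_const v).coeFn_toLp
  refine ⟨Ψ₀, zr775_zm S Ψ₀, ?_, ?_⟩
  · intro h
    have h1 : ∀ᵐ x ∂(volume : Measure (Cfg 0)), (0 : Lp E 2 (volume : Measure (Cfg 0))) x = 0 := Lp.coeFn_zero _ _ _
    have h2 : ∀ᵐ x ∂(volume : Measure (Cfg 0)), False := by
      filter_upwards [h0, h1] with x e0 e1
      rw [h, e1] at e0
      exact hv e0.symm
    rw [Filter.eventually_false_iff_eq_bot, ae_eq_bot] at h2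
    exact NeZero.ne (volume : Measure (Cfg 0)) h2
  · intro Ψ _
    have hspan : ∀ w : E, ∃ c : ℂ, w = c • v := by
      intro w
      rcases hIrr (Submodule.span ℂ {v}) (fun _ A => A.elim0) with h | h
      · exact absurd (Submodule.span_singleton_eq_bot.1 h) hv
      · have : w ∈ Submodule.span ℂ {v} := by rw [h]; exact Submodule.mem_top
        obtain ⟨c, hc⟩ := Submodule.mem_span_singleton.1 this
        exact ⟨c, hc.symm⟩
    obtain ⟨c, hc⟩ := hspan (Ψ 0)
    refine ⟨c, Lp.ext ?_⟩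
    filter_upwards [h0, Lp.coeFn_smul c Ψ₀] with x e0 e1
    rw [e1, Pi.smul_apply, e0, Subsingleton.elim x 0, hc]

end Vale.Agent.P353.Z.AX2
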