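import Vale.Agent.P353.AN.X2.Stmt

/-! # P353, all `N`, block X2: the zero modes form an irreducible module of the other fermions -/

open MeasureTheory Filter Topology Matrix
open scoped ContDiff

namespace Vale.Agent.P353.Z.AX2

universe u

section gen

variable {d : ℕ} {E : Type u} [NormedAddCommGroup E] [InnerProductSpace ℂ E]

theorem q216_amF (S : Setup d E) (V : Submodule ℂ E) (hV : ∀ α A, ∀ v ∈ V, S.th α A v ∈ V)
    (A : Fin d) (α : Fin 16) (v : V) : (((S.rst V hV).amF A α v : V) : E) = S.amF A α v := by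
  have h1 : ∀ γ : Fin 16, (((S.rst V hV).th γ A v : V) : E) = S.th γ A v := fun γ => rfl
  have h2 : (S.rst V hV).Gam = S.Gam := rfl
  unfold Setup.amF CS.vec
  rw [h2]
  simp only [_root_.sub_apply, _root_.smul_apply, _root_.sum_apply, Submodule.coe_sub,
    Submodule.coe_smul, Submodule.coe_sum, h1]

/-- a nonzero submodule contains the vacuum vector -/
theorem q216_mem (hvex : ∀ (d : ℕ) (E : Type u) [NormedAddCommGroup E] [InnerProductSpace ℂ E]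
      (S : Setup d E), VexStmt S) (S : Setup d E) (k : E)
    (hk : ∀ w : E, (∀ A α, S.amF A α w = 0) → ∃ c : ℂ, w = c • k) (W : Submodule ℂ E)
    (hW : ∀ α A, ∀ v ∈ W, S.th α A v ∈ W) (hne : W ≠ ⊥) : k ∈ W := by
  obtain ⟨v, hv, hv0⟩ := W.exists_mem_ne_zero_of_ne_bot hne
  obtain ⟨w, hw0, hw⟩ := hvex d W (S.rst W hW) ⟨⟨v, hv⟩, fun h => hv0 (congrArg Subtype.val h)⟩
  obtain ⟨c, hc⟩ := hk (w : E) fun A α => by
    rw [← q216_amF S W hW A α w, hw A α]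
    rfl
  have hc0 : c ≠ 0 := by
    rintro rfl
    rw [zero_smul] at hc
    exact hw0 (Subtype.ext hc)
  have h1 : k = c⁻¹ • (w : E) := by
    rw [hc, smul_smul, inv_mul_cancel₀ hc0, one_smul]
  rw [h1]
  exact W.smul_mem _ w.2

/-- a finite dimensional submodule containing the vacuum vector is everything -/
theorem q216_top (hvex : ∀ (d : ℕ) (E : Type u) [NormedAddCommGroup E] [InnerProductSpace ℂ E]
      (S : Setup d E), VexStmt S) (S : Setup d E) (k : E) (hk0 : k ≠ 0)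
    (hk : ∀ w : E, (∀ A α, S.amF A α w = 0) → ∃ c : ℂ, w = c • k) (W : Submodule ℂ E)
    (hW : ∀ α A, ∀ v ∈ W, S.th α A v ∈ W) [FiniteDimensional ℂ W] (hkW : k ∈ W) : W = ⊤ := by
  by_contra hne
  have h1 : Wᗮ ≠ ⊥ := fun h => hne (Submodule.orthogonal_eq_bot_iff.1 h)
  have h2 : ∀ α A, ∀ v ∈ Wᗮ, S.th α A v ∈ Wᗮ := by
    intro α A v hv
    rw [Submodule.mem_orthogonal] at hv ⊢
    intro u hu
    rw [← S.th_sa α A u v]
    exact hv _ (hW α A u hu)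
  have h3 := q216_mem hvex S k hk Wᗮ h2 h1
  have h4 : inner ℂ k k = (0 : ℂ) := (Submodule.mem_orthogonal _ _).1 h3 k hkW
  exact hk0 (inner_self_eq_zero.1 h4)

end gen

section pw

variable {d1 d2 : ℕ} {F : Type u} [NormedAddCommGroup F] [InnerProductSpace ℂ F]

theorem q216_pwa_mul (T T' : F →L[ℂ] F) (Ψ : Lp F 2 (volume : Measure (Cfg d1))) :
    Setup.pwa d1 (T * T') Ψ = Setup.pwa d1 T (Setup.pwa d1 T' Ψ) := by
  apply Lp.ext
  filter_upwards [Setup.pwa_ae (T * T') Ψ, Setup.pwa_ae T (Setup.pwa d1 T' Ψ), Setup.pwa_ae T' Ψ]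
    with x e1 e2 e3
  rw [e1, e2, e3]
  rfl

theorem q216_pwa_one (Ψ : Lp F 2 (volume : Measure (Cfg d1))) :
    Setup.pwa d1 (1 : F →L[ℂ] F) Ψ = Ψ := by
  apply Lp.ext
  filter_upwards [Setup.pwa_ae (1 : F →L[ℂ] F) Ψ] with x e1
  rw [e1]
  rfl

/-- `T ↦ T Ψ` -/
noncomputable def q216_ev (Ψ : Lp F 2 (volume : Measure (Cfg d1))) :
    (F →L[ℂ] F) →ₗ[ℂ] Lp F 2 (volume : Measure (Cfg d1)) where
  toFun := fun T => Setup.pwa d1 T Ψ
  map_add' := fun T T' => by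
    apply Lp.ext
    filter_upwards [Setup.pwa_ae (T + T') Ψ, Setup.pwa_ae T Ψ, Setup.pwa_ae T' Ψ,
      Lp.coeFn_add (Setup.pwa d1 T Ψ) (Setup.pwa d1 T' Ψ)] with x e1 e2 e3 e4
    rw [e1, e4, Pi.add_apply, e2, e3]
    rfl
  map_smul' := fun c T => by
    apply Lp.ext
    filter_upwards [Setup.pwa_ae (c • T) Ψ, Setup.pwa_ae T Ψ,
      Lp.coeFn_smul c (Setup.pwa d1 T Ψ)] with x e1 e2 e3
    rw [e1, RingHom.id_apply, e3, Pi.smul_apply, e2]
    rfl

/-- the algebra generated by the fermions of `S2` -/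
noncomputable def q216_alg (S2 : Setup d2 F) : Subalgebra ℂ (F →L[ℂ] F) :=
  Algebra.adjoin ℂ {T | ∃ α A, T = S2.th α A}

end pw

theorem q216_line {d1 : ℕ} {F : Type u} [NormedAddCommGroup F] [InnerProductSpace ℂ F]
    (S1 : Setup d1 F) (hzms : ZmsStmt S1) (hrst : RstStmt S1) (hF : FiniteDimensional ℂ F)
    (V : Submodule ℂ F) (hV : ∀ α A, ∀ v ∈ V, S1.th α A v ∈ V) (hone : OneD (S1.rst V hV)) :
    ∃ Φ₀ ∈ S1.zms V, Φ₀ ≠ 0 ∧ ∀ Φ ∈ S1.zms V, ∃ c : ℂ, Φ = c • Φ₀ := by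
  obtain ⟨Ψ₀, hΨ₀, hΨ₀0, huniq⟩ := hone
  have a1 : S1.IsZM (V.subtypeL.compLpL 2 volume Ψ₀) := ((hrst hF V hV).1 Ψ₀).1 hΨ₀
  have a2 : ∀ᵐ x ∂(volume : Measure (Cfg d1)), V.subtypeL.compLpL 2 volume Ψ₀ x
      = V.subtypeL (Ψ₀ x) := V.subtypeL.coeFn_compLpL Ψ₀
  have a3 : ∀ᵐ x ∂(volume : Measure (Cfg d1)), V.subtypeL.compLpL 2 volume Ψ₀ x ∈ V := by
    filter_upwards [a2] with x hx
    rw [hx]
    exact (Ψ₀ x).2
  refine ⟨V.subtypeL.compLpL 2 volume Ψ₀, (hzms V _).2 ⟨a1, a3⟩, ?_, ?_⟩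
  · intro h
    apply hΨ₀0
    apply Lp.ext
    filter_upwards [a2, Lp.coeFn_zero V 2 (volume : Measure (Cfg d1)),
      Lp.coeFn_zero F 2 (volume : Measure (Cfg d1))] with x e1 e2 e3
    rw [h, e3] at e1
    rw [e2]
    exact Subtype.ext e1.symm
  · intro Φ hΦ
    obtain ⟨b1, b2⟩ := (hzms V Φ).1 hΦ
    obtain ⟨Ψ, rfl⟩ := (hrst hF V hV).2 Φ b2
    obtain ⟨c, rfl⟩ := huniq Ψ (((hrst hF V hV).1 Ψ).2 b1)
    exact ⟨c, by rw [map_smul]⟩

section mod

variable {d1 d2 : ℕ} {F : Type u} [NormedAddCommGroup F] [InnerProductSpace ℂ F]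
  (S2 : Setup d2 F) (Z : Submodule ℂ (Lp F 2 (volume : Measure (Cfg d1))))
  (hZ : ∀ α A, ∀ Ψ ∈ Z, Setup.pwa d1 (S2.th α A) Ψ ∈ Z)

/-- the module generated by `k` -/
noncomputable def q216_W (k : Z) : Submodule ℂ Z :=
  ((Subalgebra.toSubmodule (q216_alg S2)).map
    (q216_ev (k : Lp F 2 (volume : Measure (Cfg d1))))).comap Z.subtype

theorem q216_W_fin (hF : FiniteDimensional ℂ F) (k : Z) : FiniteDimensional ℂ (q216_W S2 Z k) := by
  have : FiniteDimensional ℂ ((Subalgebra.toSubmodule (q216_alg S2)).map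
    (q216_ev (k : Lp F 2 (volume : Measure (Cfg d1))))) := inferInstance
  have h1 : (q216_W S2 Z k).map Z.subtype ≤ (Subalgebra.toSubmodule (q216_alg S2)).map
    (q216_ev (k : Lp F 2 (volume : Measure (Cfg d1)))) := Submodule.map_comap_le _ _
  have : FiniteDimensional ℂ ((q216_W S2 Z k).map Z.subtype) :=
    Submodule.finiteDimensional_of_le h1
  exact (Submodule.equivMapOfInjective Z.subtype Z.injective_subtype
    (q216_W S2 Z k)).symm.finiteDimensional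

theorem q216_W_mem (k : Z) : k ∈ q216_W S2 Z k := by
  refine ⟨1, (q216_alg S2).one_mem, ?_⟩
  exact q216_pwa_one _

theorem q216_W_inv (k : Z) (α : Fin 16) (A : Fin d2) (v : Z) (hv : v ∈ q216_W S2 Z k) :
    (S2.lft Z hZ).th α A v ∈ q216_W S2 Z k := by
  obtain ⟨T, hT, hTv⟩ := hv
  refine ⟨S2.th α A * T, (q216_alg S2).mul_mem (Algebra.subset_adjoin ⟨α, A, rfl⟩) hT, ?_⟩
  have h1 : Setup.pwa d1 T (k : Lp F 2 (volume : Measure (Cfg d1))) = v := hTv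
  have h2 : Setup.pwa d1 (S2.th α A * T) (k : Lp F 2 (volume : Measure (Cfg d1)))
      = Setup.pwa d1 (S2.th α A) (v : Lp F 2 (volume : Measure (Cfg d1))) := by
    rw [q216_pwa_mul, h1]
  exact h2

theorem q216_W_le (k : Z) (W : Submodule ℂ Z)
    (hW : ∀ α A, ∀ v ∈ W, (S2.lft Z hZ).th α A v ∈ W) (hk : k ∈ W) : q216_W S2 Z k ≤ W := by
  rintro v ⟨T, hT, hTv⟩
  have key : ∀ T ∈ q216_alg S2, ∀ w ∈ W, ∃ w' ∈ W,
      (w' : Lp F 2 (volume : Measure (Cfg d1))) = Setup.pwa d1 T w := by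
    intro T hT
    induction hT using Algebra.adjoin_induction with
    | mem T hT =>
      obtain ⟨α, A, rfl⟩ := hT
      intro w hw
      exact ⟨(S2.lft Z hZ).th α A w, hW α A w hw, rfl⟩
    | algebraMap c =>
      intro w hw
      refine ⟨c • w, W.smul_mem _ hw, ?_⟩
      rw [Algebra.algebraMap_eq_smul_one]
      have : Setup.pwa d1 (c • (1 : F →L[ℂ] F)) (w : Lp F 2 (volume : Measure (Cfg d1)))
          = c • Setup.pwa d1 (1 : F →L[ℂ] F) (w : Lp F 2 (volume : Measure (Cfg d1))) :=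
        (q216_ev (w : Lp F 2 (volume : Measure (Cfg d1)))).map_smul c 1
      rw [this, q216_pwa_one]
      rfl
    | add T T' _ _ h h' =>
      intro w hw
      obtain ⟨u, hu, hu'⟩ := h w hw
      obtain ⟨u', hu'', hu3⟩ := h' w hw
      refine ⟨u + u', W.add_mem hu hu'', ?_⟩
      have : Setup.pwa d1 (T + T') (w : Lp F 2 (volume : Measure (Cfg d1)))
          = Setup.pwa d1 T (w : Lp F 2 (volume : Measure (Cfg d1)))
            + Setup.pwa d1 T' (w : Lp F 2 (volume : Measure (Cfg d1))) :=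
        (q216_ev (w : Lp F 2 (volume : Measure (Cfg d1)))).map_add T T'
      rw [this, ← hu', ← hu3]
      rfl
    | mul T T' _ _ h h' =>
      intro w hw
      obtain ⟨u, hu, hu'⟩ := h' w hw
      obtain ⟨u', hu'', hu3⟩ := h u hu
      refine ⟨u', hu'', ?_⟩
      rw [hu3, hu', q216_pwa_mul]
  obtain ⟨w', hw', hw''⟩ := key T hT k hk
  have : w' = v := by
    apply Subtype.ext
    rw [hw'']
    exact hTv
  rwa [← this]

/-- irreducibility from a unique vacuum vector -/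
theorem q216_irr (hvex : ∀ (d : ℕ) (E : Type u) [NormedAddCommGroup E] [InnerProductSpace ℂ E]
      (S : Setup d E), VexStmt S) (hF : FiniteDimensional ℂ F) (k : Z) (hk0 : k ≠ 0)
    (hk : ∀ w : Z, (∀ A α, (S2.lft Z hZ).amF A α w = 0) → ∃ c : ℂ, w = c • k) :
    FiniteDimensional ℂ Z ∧ (S2.lft Z hZ).Irr := by
  have := q216_W_fin S2 Z hF k
  have w3 : q216_W S2 Z k = ⊤ := q216_top hvex (S2.lft Z hZ) k hk0 hk (q216_W S2 Z k)
    (fun α A v hv => q216_W_inv S2 Z hZ k α A v hv) (q216_W_mem S2 Z k)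
  constructor
  · have h1 : FiniteDimensional ℂ (⊤ : Submodule ℂ Z) := by rw [← w3]; infer_instance
    exact (Submodule.topEquiv (R := ℂ) (M := Z)).finiteDimensional
  · intro W hW
    by_cases hne : W = ⊥
    · exact Or.inl hne
    · right
      have h1 : k ∈ W := q216_mem hvex (S2.lft Z hZ) k hk W hW hne
      have h2 := q216_W_le S2 Z hZ k W hW h1
      rw [w3] at h2
      exact eq_top_iff.2 h2

end mod

theorem zirr_stmt {d1 d2 : ℕ} {F : Type u} [NormedAddCommGroup F] [InnerProductSpace ℂ F]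
    (S1 : Setup d1 F) (S2 : Setup d2 F) (hzms : ZmsStmt S1) (hrst : RstStmt S1)
    (hvex : ∀ (d : ℕ) (E : Type u) [NormedAddCommGroup E] [InnerProductSpace ℂ E]
      (S : Setup d E), VexStmt S) (hzvc : ZvcStmt S1 S2) : ZirrStmt S1 S2 := by
  intro hF hAnt K0 hK0 hV hone hZ
  obtain ⟨Φ₀, a4, a6, a7⟩ := q216_line S1 hzms hrst hF _ hV hone
  have hVK : vca S2 K0 ≤ K0 := fun v hv => hv.1
  have a5 : Φ₀ ∈ S1.zms K0 := by
    obtain ⟨b1, b2⟩ := (hzms _ Φ₀).1 a4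
    exact (hzms K0 Φ₀).2 ⟨b1, by filter_upwards [b2] with x hx using hVK hx⟩
  have n0 : (‖Φ₀‖ : ℂ) ≠ 0 := by
    rw [Ne, Complex.ofReal_eq_zero, norm_eq_zero]
    exact a6
  obtain ⟨k, hk⟩ : ∃ k : S1.zms K0, k = ((‖Φ₀‖ : ℂ)⁻¹) • (⟨Φ₀, a5⟩ : S1.zms K0) := ⟨_, rfl⟩
  have hkc : (k : Lp F 2 (volume : Measure (Cfg d1))) = ((‖Φ₀‖ : ℂ)⁻¹) • Φ₀ := by
    rw [hk]; rfl
  have k1 : ‖k‖ = 1 := by
    rw [Submodule.coe_norm, hkc, norm_smul, norm_inv, Complex.norm_real, norm_norm,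
      inv_mul_cancel₀]
    rw [Ne, norm_eq_zero]
    exact a6
  have k0 : k ≠ 0 := by
    intro h
    rw [h, norm_zero] at k1
    exact zero_ne_one k1
  have k2 : ∀ A α, (S2.lft (S1.zms K0) hZ).amF A α k = 0 := by
    refine (hzvc hzms K0 hZ k).2 ?_
    rw [hkc]
    exact (S1.zms (vca S2 K0)).smul_mem _ a4
  have k3 : ∀ w : S1.zms K0, (∀ A α, (S2.lft (S1.zms K0) hZ).amF A α w = 0) →
      ∃ c : ℂ, w = c • k := by
    intro w hw
    obtain ⟨c, hc⟩ := a7 _ ((hzvc hzms K0 hZ w).1 hw)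
    refine ⟨c * ‖Φ₀‖, Subtype.ext ?_⟩
    rw [Submodule.coe_smul, hkc, smul_smul, mul_assoc, mul_inv_cancel₀ n0, mul_one]
    exact hc
  obtain ⟨f1, f2⟩ := q216_irr S2 (S1.zms K0) hZ hvex hF k k0 k3
  exact ⟨f1, f2, k, k1, k2, k3⟩

end Vale.Agent.P353.Z.AX2
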