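import Vale.Agent.P353.AN.X2.Stmt

/-! # P353, all `N`, block X2: vacuum vectors of the lifted system -/

open MeasureTheory Filter Topology Matrix
open scoped ContDiff

namespace Vale.Agent.P353.Z.AX2

universe u

variable {d d1 d2 : ℕ} {F : Type u} [NormedAddCommGroup F] [InnerProductSpace ℂ F]

lemma zvc_apply (S : Setup d F) (A : Fin d) (α : Fin 16) (v : F) :
    S.amF A α v = S.th α A v - Complex.I • ∑ γ, S.Gam α γ • S.th γ A v := by
  rw [Setup.amF, CS.vec, _root_.sub_apply, _root_.smul_apply, _root_.sum_apply]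
  rfl

lemma zvc_lin {M N : Type*} [AddCommGroup M] [Module ℂ M] [AddCommGroup N] [Module ℂ N]
    (L : M →ₗ[ℂ] N) (a : M) (c : Fin 16 → ℂ) (b : Fin 16 → M) :
    L (a - Complex.I • ∑ γ, c γ • b γ) = L a - Complex.I • ∑ γ, c γ • L (b γ) := by
  rw [map_sub, map_smul, map_sum]
  simp only [map_smul]

/-- `pwa` is linear in the operator -/
noncomputable def zvcL (Φ : Lp F 2 (volume : Measure (Cfg d1))) :
    (F →L[ℂ] F) →ₗ[ℂ] Lp F 2 (volume : Measure (Cfg d1)) where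
  toFun := fun T => Setup.pwa d1 T Φ
  map_add' := fun T T' => by
    rw [Setup.pwa, ContinuousLinearMap.add_compLpL]
    rfl
  map_smul' := fun c T => by
    rw [Setup.pwa, ContinuousLinearMap.smul_compLpL]
    rfl

lemma zvc_am (S2 : Setup d2 F) (A : Fin d2) (α : Fin 16)
    (Φ : Lp F 2 (volume : Measure (Cfg d1))) :
    (Setup.lfa d1 S2).amF A α Φ = Setup.pwa d1 (S2.amF A α) Φ := by
  rw [zvc_apply]
  exact (zvc_lin (zvcL Φ) (S2.th α A) (fun γ => S2.Gam α γ) (fun γ => S2.th γ A)).symm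

lemma zvc_rst {E : Type u} [NormedAddCommGroup E] [InnerProductSpace ℂ E] (S : Setup d E)
    (V : Submodule ℂ E) (hV : ∀ α A, ∀ v ∈ V, S.th α A v ∈ V) (A : Fin d) (α : Fin 16) (v : V) :
    ((S.rst V hV).amF A α v).1 = S.amF A α v.1 := by
  rw [zvc_apply, zvc_apply]
  exact zvc_lin V.subtype ((S.rst V hV).th α A v) (fun γ => S.Gam α γ)
    (fun γ => (S.rst V hV).th γ A v)

lemma zvc_coe (S2 : Setup d2 F) (Z : Submodule ℂ (Lp F 2 (volume : Measure (Cfg d1))))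
    (hZ : ∀ α A, ∀ Ψ ∈ Z, Setup.pwa d1 (S2.th α A) Ψ ∈ Z) (A : Fin d2) (α : Fin 16) (Ψ : Z) :
    ((S2.lft Z hZ).amF A α Ψ).1 = Setup.pwa d1 (S2.amF A α) Ψ.1 :=
  (zvc_rst (Setup.lfa d1 S2) Z hZ A α Ψ).trans (zvc_am S2 A α Ψ.1)

lemma zvc_zero (S2 : Setup d2 F) (Z : Submodule ℂ (Lp F 2 (volume : Measure (Cfg d1))))
    (hZ : ∀ α A, ∀ Ψ ∈ Z, Setup.pwa d1 (S2.th α A) Ψ ∈ Z) (A : Fin d2) (α : Fin 16) (Ψ : Z) :
    (S2.lft Z hZ).amF A α Ψ = 0 ↔ ∀ᵐ x ∂(volume : Measure (Cfg d1)),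
      S2.amF A α ((Ψ : Lp F 2 (volume : Measure (Cfg d1))) x) = 0 := by
  have h0 := zvc_coe S2 Z hZ A α Ψ
  have h := Setup.pwa_ae (d := d1) (S2.amF A α) (Ψ : Lp F 2 (volume : Measure (Cfg d1)))
  constructor
  · intro h1
    have h2 : Setup.pwa d1 (S2.amF A α) (Ψ : Lp F 2 (volume : Measure (Cfg d1))) = 0 := by
      rw [← h0, h1]
      rfl
    rw [h2] at h
    filter_upwards [h, Lp.coeFn_zero F 2 (volume : Measure (Cfg d1))] with x e1 e2
    rw [← e1, e2, Pi.zero_apply]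
  · intro h1
    apply Subtype.ext
    refine h0.trans ?_
    apply Lp.ext
    filter_upwards [h, h1, Lp.coeFn_zero F 2 (volume : Measure (Cfg d1))] with x e1 e2 e3
    exact (e1.trans e2).trans e3.symm

/-- **X2-Zvc** -/
theorem zvc_stmt (S1 : Setup d1 F) (S2 : Setup d2 F) : ZvcStmt S1 S2 := by
  intro hZms K0 hZ Ψ
  rw [hZms]
  obtain ⟨h1, h2⟩ := (hZms K0 Ψ).1 Ψ.2
  constructor
  · intro h
    refine ⟨h1, ?_⟩
    have h3 : ∀ᵐ x ∂(volume : Measure (Cfg d1)), ∀ A α,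
        S2.amF A α ((Ψ : Lp F 2 (volume : Measure (Cfg d1))) x) = 0 :=
      ae_all_iff.2 fun A => ae_all_iff.2 fun α => (zvc_zero S2 _ hZ A α Ψ).1 (h A α)
    filter_upwards [h2, h3] with x e1 e2
    exact ⟨e1, e2⟩
  · rintro ⟨_, h3⟩ A α
    refine (zvc_zero S2 _ hZ A α Ψ).2 ?_
    filter_upwards [h3] with x e1
    exact e1.2 A α

end Vale.Agent.P353.Z.AX2
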