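import Vale.Agent.P353.AN.X2.Zms
import Vale.Agent.P353.AN.X2.Rst
import Vale.Agent.P353.AN.X2.ZInv
import Vale.Agent.P353.AN.X2.Vex
import Vale.Agent.P353.AN.X2.VcaIrr
import Vale.Agent.P353.AN.X2.Zvc
import Vale.Agent.P353.AN.X2.Zirr
import Vale.Agent.P353.AN.X2.Main
import Vale.Agent.P353.AN.X2.Zero
import Vale.Agent.P353.AN.X2.Wick
import Vale.Agent.P353.AN.X2.Sec
import Vale.Agent.P353.AN.X2.Mod
import Vale.Agent.P353.AN.X2.IH
import Vale.Agent.P353.AN.X2.CsV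

/-! # P353, all `N`, block X2: assembly, first part (unconditional outputs) -/

namespace Vale.Agent.P353.Z.AX2

universe u

theorem zInvAll {d1 d2 : ℕ} {F : Type u} [NormedAddCommGroup F] [InnerProductSpace ℂ F] (S1 : Setup d1 F) (S2 : Setup d2 F) :
    ZInvStmt S1 S2 := zInv_stmt S1 S2 (zms_stmt S1)

theorem zirrAll {d1 d2 : ℕ} {F : Type u} [NormedAddCommGroup F] [InnerProductSpace ℂ F] (S1 : Setup d1 F) (S2 : Setup d2 F) :
    ZirrStmt S1 S2 :=
  zirr_stmt S1 S2 (zms_stmt S1) (rst_stmt S1) (fun _ _ _ _ S => vex_stmt S) (zvc_stmt S1 S2)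

/-- **X2-Main**, unconditional -/
theorem x2All : X2Stmt.{u} :=
  x2_stmt (fun S1 S2 => vci_main S1 S2) (fun S1 S2 => zInvAll S1 S2) (fun S1 S2 => zirrAll S1 S2)

theorem secAll {d : ℕ} {F : Type u} [NormedAddCommGroup F] [InnerProductSpace ℂ F] (S : Setup d F) : SecStmt S :=
  sec_of wick_stmt S

theorem modAll : ModStmt.{u} := mod_stmt fun _ _ _ _ S => secAll S

/-- **X2-IH**, unconditional -/
theorem ihAll : IHStmt.{u} := ih_stmt modAll

end Vale.Agent.P353.Z.AX2
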