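import Vale.Agent.P353.AN.X2.Stmt
import Vale.Agent.P353.Z.LimL2

/-! # P353, all `N`, block X2: `ZmsStmt` (helper393)

The zero modes with values in a subspace form a subspace of `L²`. -/

open MeasureTheory Filter Topology Matrix
open scoped ContDiff

namespace Vale.Agent.P353.Z.AX2

universe u

variable {d : ℕ} {F : Type u} [NormedAddCommGroup F] [InnerProductSpace ℂ F]

lemma zmsx_pd_smul (c : ℂ) {i : Fin 9} {A : Fin d} {u : Cfg d → F} {x : Cfg d} (hu : DifferentiableAt ℝ u x) :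
    pd i A (fun y => c • u y) x = c • pd i A u x := by
  unfold pd
  rw [fderiv_fun_const_smul hu]
  rfl

lemma zmsx_Q_add (S : Setup d F) {β : Fin 16} {u v : Cfg d → F} {x : Cfg d} (hu : DifferentiableAt ℝ u x)
    (hv : DifferentiableAt ℝ v x) : S.Q β (fun y => u y + v y) x = S.Q β u x + S.Q β v x := by
  simp only [Setup.Q, pd_add hu hv, map_add, Finset.sum_add_distrib, smul_add]
  abel

lemma zmsx_Q_smul (S : Setup d F) (c : ℂ) {β : Fin 16} {u : Cfg d → F} {x : Cfg d} (hu : DifferentiableAt ℝ u x) :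
    S.Q β (fun y => c • u y) x = c • S.Q β u x := by
  simp only [Setup.Q, zmsx_pd_smul c hu, map_smul, ← Finset.smul_sum, smul_add]
  rw [smul_comm c]

lemma zmsx_G_add (S : Setup d F) {C : Fin d} {u v : Cfg d → F} {x : Cfg d} (hu : DifferentiableAt ℝ u x)
    (hv : DifferentiableAt ℝ v x) : S.G C (fun y => u y + v y) x = S.G C u x + S.G C v x := by
  simp only [Setup.G, pd_add hu hv, map_add, Finset.sum_add_distrib, smul_add]
  abel

lemma zmsx_G_smul (S : Setup d F) (c : ℂ) {C : Fin d} {u : Cfg d → F} {x : Cfg d} (hu : DifferentiableAt ℝ u x) :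
    S.G C (fun y => c • u y) x = c • S.G C u x := by
  simp only [Setup.G, zmsx_pd_smul c hu, map_smul, smul_add, Finset.smul_sum]
  congr 1
  refine Finset.sum_congr rfl fun i _ => Finset.sum_congr rfl fun A _ => Finset.sum_congr rfl fun B _ => ?_
  simp only [smul_smul]
  congr 1
  ring

lemma zmsx_tst_smul (c : ℂ) {u : Cfg d → F} (hu : Setup.Tst u) : Setup.Tst (fun x => c • u x) := by
  refine ⟨contDiff_const.smul hu.1, hu.2.mono ?_⟩
  intro x hx
  simp only [Function.mem_support] at hx ⊢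
  intro h0
  exact hx (by rw [h0, smul_zero])

lemma zmsx_IsZM_add (S : Setup d F) {Ψ Φ : Lp F 2 (volume : Measure (Cfg d))} (h1 : S.IsZM Ψ) (h2 : S.IsZM Φ) :
    S.IsZM (Ψ + Φ) := by
  obtain ⟨u, hu1, hu2, hu3, hu4⟩ := h1
  obtain ⟨v, hv1, hv2, hv3, hv4⟩ := h2
  refine ⟨fun n x => u n x + v n x, fun n => (hu1 n).add (hv1 n), fun n C x => ?_, ?_, fun β => ?_⟩
  · rw [zmsx_G_add S ((hu1 n).diff x) ((hv1 n).diff x), hu2, hv2, add_zero]
  · have h := ((Lp_L2t hu1 hu3).add (Lp_L2t hv1 hv3)).lim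
    refine h.congr fun n => integral_congr_ae ?_
    filter_upwards [Lp.coeFn_add Ψ Φ] with x hx
    rw [hx, Pi.add_apply]
  · have h := ((zero_L2t (fun n => (hu1 n).Q S β) (hu4 β)).add (zero_L2t (fun n => (hv1 n).Q S β) (hv4 β))).lim
    refine h.congr fun n => integral_congr_ae (Filter.Eventually.of_forall fun x => ?_)
    simp only [zmsx_Q_add S ((hu1 n).diff x) ((hv1 n).diff x), add_zero, sub_zero]

lemma zmsx_IsZM_smul (S : Setup d F) {Ψ : Lp F 2 (volume : Measure (Cfg d))} (c : ℂ) (h1 : S.IsZM Ψ) :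
    S.IsZM (c • Ψ) := by
  obtain ⟨u, hu1, hu2, hu3, hu4⟩ := h1
  refine ⟨fun n x => c • u n x, fun n => zmsx_tst_smul c (hu1 n), fun n C x => ?_, ?_, fun β => ?_⟩
  · rw [zmsx_G_smul S c ((hu1 n).diff x), hu2, smul_zero]
  · have h : Tendsto (fun n => ‖c‖ ^ 2 * ∫ x, ‖u n x - Ψ x‖ ^ 2) atTop (𝓝 0) := by
      simpa using hu3.const_mul (‖c‖ ^ 2)
    refine h.congr fun n => ?_
    rw [← integral_const_mul]
    refine integral_congr_ae ?_
    filter_upwards [Lp.coeFn_smul c Ψ] with x hx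
    rw [hx, Pi.smul_apply, ← smul_sub, norm_smul, mul_pow]
  · have h : Tendsto (fun n => ‖c‖ ^ 2 * ∫ x, ‖S.Q β (u n) x‖ ^ 2) atTop (𝓝 0) := by
      simpa using (hu4 β).const_mul (‖c‖ ^ 2)
    refine h.congr fun n => ?_
    rw [← integral_const_mul]
    refine integral_congr_ae (Filter.Eventually.of_forall fun x => ?_)
    simp only [zmsx_Q_smul S c ((hu1 n).diff x), norm_smul, mul_pow]

lemma zmsx_IsZM_zero (S : Setup d F) : S.IsZM (0 : Lp F 2 (volume : Measure (Cfg d))) := by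
  have hT : Setup.Tst (fun _ : Cfg d => (0 : F)) := ⟨contDiff_const, HasCompactSupport.zero⟩
  have hG : ∀ C x, S.G C (fun _ : Cfg d => (0 : F)) x = 0 := by
    intro C x
    have h := zmsx_G_smul S 0 (C := C) (hT.diff x)
    simpa only [zero_smul] using h
  have hQ : ∀ β x, S.Q β (fun _ : Cfg d => (0 : F)) x = 0 := by
    intro β x
    have h := zmsx_Q_smul S 0 (β := β) (hT.diff x)
    simpa only [zero_smul] using h
  refine ⟨fun _ _ => 0, fun _ => hT, fun _ C x => hG C x, ?_, fun β => ?_⟩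
  · have h : ∫ x : Cfg d, ‖(0 : F) - (0 : Lp F 2 (volume : Measure (Cfg d))) x‖ ^ 2 = 0 := by
      rw [← integral_zero (Cfg d) ℝ (μ := volume)]
      refine integral_congr_ae ?_
      filter_upwards [Lp.coeFn_zero F 2 (volume : Measure (Cfg d))] with x hx
      rw [hx]
      simp
    simp only [h]
    exact tendsto_const_nhds
  · simp only [hQ, norm_zero, ne_eq, OfNat.ofNat_ne_zero, not_false_eq_true, zero_pow, integral_zero]
    exact tendsto_const_nhds

/-- **X2-Zms**: the zero modes with values in `K0` form a subspace -/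
theorem zms_stmt {d : ℕ} {F : Type u} [NormedAddCommGroup F] [InnerProductSpace ℂ F] (S : Setup d F) : ZmsStmt S := by
  intro K0 Ψ
  refine ⟨fun h => ?_, fun h => Submodule.subset_span h⟩
  refine Submodule.span_induction (p := fun Ψ _ => S.IsZM Ψ ∧ ∀ᵐ x ∂(volume : Measure (Cfg d)), Ψ x ∈ K0)
    ?_ ?_ ?_ ?_ h
  · intro Ψ h
    exact h
  · refine ⟨zmsx_IsZM_zero S, ?_⟩
    filter_upwards [Lp.coeFn_zero F 2 (volume : Measure (Cfg d))] with x hx
    rw [hx]
    exact K0.zero_mem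
  · rintro Ψ Φ - - ⟨h1, h2⟩ ⟨h3, h4⟩
    refine ⟨zmsx_IsZM_add S h1 h3, ?_⟩
    filter_upwards [Lp.coeFn_add Ψ Φ, h2, h4] with x hx hy hz
    rw [hx]
    exact K0.add_mem hy hz
  · rintro c Ψ - ⟨h1, h2⟩
    refine ⟨zmsx_IsZM_smul S c h1, ?_⟩
    filter_upwards [Lp.coeFn_smul c Ψ, h2] with x hx hy
    rw [hx]
    exact K0.smul_mem c hy

end Vale.Agent.P353.Z.AX2
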