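import Vale.Agent.P353.AN.X2.StmtG
import Vale.Agent.P353.AN.F.Vac

/-! # P353, all `N`, block X2: the gauge spin generators kill the vacuum vectors (helper516) -/

open MeasureTheory Filter Topology Matrix
open scoped ContDiff

namespace Vale.Agent.P353.Z

variable {d : ℕ} {F : Type*} [NormedAddCommGroup F] [InnerProductSpace ℂ F]

namespace AX2

lemma csv_f_diag (S : Setup d F) (C D : Fin d) : S.f C D D = 0 := by
  have h := S.f_swap' C D D
  linarith

/-- **X2-CsV** -/
theorem csV_stmt (S : Setup d F) : CsVStmt S := by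
  intro v hv C
  unfold Setup.cS
  rw [_root_.smul_apply, _root_.sum_apply]
  have h : ∀ D ∈ Finset.univ, (∑ E, (S.f C D E : ℂ) • S.bil 1 D E) v = 0 := by
    intro D _
    rw [_root_.sum_apply]
    refine Finset.sum_eq_zero fun E _ => ?_
    rw [_root_.smul_apply, S.vf_bil_vac (by rw [one_mul, mul_one]) hv]
    split_ifs with hDE
    · subst hDE
      rw [csv_f_diag, Complex.ofReal_zero, zero_smul]
    · rw [smul_zero]
  rw [Finset.sum_eq_zero h, smul_zero]

end AX2

end Vale.Agent.P353.Z
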