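import Vale.Agent.P353.AN.X2.StmtG
import Vale.Agent.P353.AN.X2.CsV
import Vale.Agent.P353.Z.U.MGauss
import Vale.Agent.P353.Z.U.MAd
import Vale.Agent.P353.Z.U.GrpExp

/-! # P353, all `N`, block X2: the operators of a model are the second quantisations (`ImpMStmt`, helper393) -/

open MeasureTheory Filter Topology Matrix
open scoped ContDiff

namespace Vale.Agent.P353.Z.AX2

universe u

open Vale.Agent.P353.Z.U

/-- diagonalisation of a special unitary matrix by a special unitary matrix -/
theorem impx_conj {N : ℕ} (hN : 0 < N) (V : Matrix.specialUnitaryGroup (Fin N) ℂ) :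
    ∃ (U : Matrix.specialUnitaryGroup (Fin N) ℂ) (x : mgH N), V = U * mgtor x * U⁻¹ := by
  have hV : V.val ∈ unitary (Matrix (Fin N) (Fin N) ℂ) :=
    (Matrix.mem_specialUnitaryGroup_iff.1 V.2).1
  have hdet : V.val.det = 1 := (Matrix.mem_specialUnitaryGroup_iff.1 V.2).2
  obtain ⟨K, hK, hKV⟩ := mad_log V.val hV
  obtain ⟨U, hU⟩ := mg_phase hN (hK.eigenvectorUnitary : Matrix (Fin N) (Fin N) ℂ) hK.eigenvectorUnitary.2
  set W : Matrix (Fin N) (Fin N) ℂ := (hK.eigenvectorUnitary : Matrix (Fin N) (Fin N) ℂ) with hW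
  have hW1 : W * W.conjTranspose = 1 := Matrix.mem_unitaryGroup_iff.1 hK.eigenvectorUnitary.2
  have hW2 : W.conjTranspose * W = 1 := Matrix.mem_unitaryGroup_iff'.1 hK.eigenvectorUnitary.2
  have hKd : K = W * (Matrix.diagonal fun j => ((hK.eigenvalues j : ℝ) : ℂ)) * W.conjTranspose := by
    have h2 := hK.spectral_theorem
    rw [Unitary.conjStarAlgAut_apply] at h2
    exact h2
  -- `V = W diag(exp(i k_j)) W*`
  have hVd : V.val = W * (Matrix.diagonal fun j => Complex.exp (Complex.I * ((hK.eigenvalues j : ℝ) : ℂ))) *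
      W.conjTranspose := by
    have e1 : Complex.I • K = W * (Matrix.diagonal fun j => Complex.I * ((hK.eigenvalues j : ℝ) : ℂ)) * W⁻¹ := by
      have e2 : W⁻¹ = W.conjTranspose := Matrix.inv_eq_right_inv hW1
      rw [e2]
      conv_lhs => rw [hKd]
      rw [← Matrix.smul_mul, ← Matrix.mul_smul, ← Matrix.diagonal_smul]
      rfl
    have e3 : IsUnit W := by
      rw [Matrix.isUnit_iff_isUnit_det]
      exact Matrix.isUnit_det_of_right_inverse hW1
    rw [← hKV, e1, Matrix.exp_conj _ _ e3, Matrix.exp_diagonal, Matrix.inv_eq_right_inv hW1]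
    congr 3
    funext j
    rw [Pi.coe_exp, ← Complex.exp_eq_exp_ℂ]
  -- the sum of the angles
  have hsum : ∃ m : ℤ, ∑ j, hK.eigenvalues j = m * (2 * Real.pi) := by
    have h1 : ∏ j, Complex.exp (Complex.I * ((hK.eigenvalues j : ℝ) : ℂ)) = 1 := by
      have h2 := hdet
      rw [hVd, Matrix.det_mul, Matrix.det_mul, Matrix.det_diagonal, mul_comm W.det, mul_assoc, ← Matrix.det_mul, hW1,
        Matrix.det_one, mul_one] at h2
      exact h2
    rw [← Complex.exp_sum, Complex.exp_eq_one_iff] at h1
    obtain ⟨m, hm⟩ := h1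
    refine ⟨m, ?_⟩
    rw [← Finset.mul_sum, ← Complex.ofReal_sum] at hm
    have h3 : ((∑ j, hK.eigenvalues j : ℝ) : ℂ) = ((m * (2 * Real.pi) : ℝ) : ℂ) := by
      apply mul_left_cancel₀ Complex.I_ne_zero
      rw [hm]
      push_cast
      ring
    exact_mod_cast h3
  obtain ⟨m, hm⟩ := hsum
  let j₀ : Fin N := ⟨0, hN⟩
  let y : Fin N → ℝ := fun j => hK.eigenvalues j - if j = j₀ then m * (2 * Real.pi) else 0
  have hy : ∑ j, y j = 0 := by
    simp only [y, Finset.sum_sub_distrib, Finset.sum_ite_eq', Finset.mem_univ, if_true]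
    rw [hm, sub_self]
  refine ⟨U, ⟨y, hy⟩, ?_⟩
  have hexp : ∀ j, Complex.exp (Complex.I * ((y j : ℝ) : ℂ)) = Complex.exp (Complex.I * ((hK.eigenvalues j : ℝ) : ℂ)) := by
    intro j
    by_cases hj : j = j₀
    · have : Complex.I * ((y j : ℝ) : ℂ) = Complex.I * ((hK.eigenvalues j : ℝ) : ℂ) - m * (2 * Real.pi * Complex.I) := by
        simp only [y, if_pos hj]
        push_cast
        ring
      rw [this, Complex.exp_sub, Complex.exp_int_mul_two_pi_mul_I, div_one]
    · simp only [y, if_neg hj, sub_zero]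
  have hmt : mgtorM (⟨y, hy⟩ : mgH N) = Matrix.diagonal fun j => Complex.exp (Complex.I * ((hK.eigenvalues j : ℝ) : ℂ)) := by
    rw [mgtorM]
    congr 1
    funext j
    rw [← hexp j]
    congr 1
    exact mul_comm _ _
  apply Subtype.ext
  show V.val = U.val * mgtorM ⟨y, hy⟩ * U.val.conjTranspose
  rw [hmt, hVd]
  exact (hU _).symm

section

variable {N d : ℕ} {F : Type*} [NormedAddCommGroup F] [InnerProductSpace ℂ F]

/-- the generators in terms of the matrices `Z(X)` -/
theorem impx_mgz (M : BFSS.Model N d F) (S : Setup d F) (hrep : Rep M S) (C : Fin d) :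
    mgz M.toOld (M.toOld.T C) = Complex.I • S.cS C := by
  have hf : S.f = M.toOld.f := hrep.hf
  have hth : S.th = M.toOld.θ := hrep.hth
  have h2 : S.cS C = (-Complex.I) • mgz M.toOld (M.toOld.T C) := by
    have hb : ∀ D E, S.bil 1 D E = mgb M.toOld D E := by
      intro D E
      simp only [CS.bil, CS.vec_one, hth]
      rfl
    have ht : ∀ D E, (M.toOld.T C * (M.toOld.T D * M.toOld.T E -
        M.toOld.T E * M.toOld.T D)).trace = Complex.I * (M.f C D E : ℂ) := by
      intro D E
      rw [Matrix.trace_mul_comm]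
      have h3 := mf_trace M D E C
      rw [← mf_cyc M C D E] at h3
      exact h3
    rw [mgz_apply, Setup.cS]
    simp only [hb, ht, hf]
    rw [smul_smul, Finset.smul_sum, Finset.smul_sum]
    refine Finset.sum_congr rfl fun D _ => ?_
    rw [Finset.smul_sum, Finset.smul_sum]
    refine Finset.sum_congr rfl fun E _ => ?_
    rw [smul_smul, smul_smul]
    congr 1
    show -Complex.I / 2 * (M.f C D E : ℂ) = -Complex.I * (-Complex.I / 2) *
      (Complex.I * (M.f C D E : ℂ))
    linear_combination (-Complex.I / 2 * (M.f C D E : ℂ)) * Complex.I_sq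
  rw [h2, smul_smul]
  simp

/-- `Z(X)` kills the vacuum vectors -/
theorem impx_kill (M : BFSS.Model N d F) (S : Setup d F) (hrep : Rep M S) (hd : 0 < d)
    (X : Matrix (Fin N) (Fin N) ℂ) (hX : X.trace = 0) (v : F) (hv : ∀ A α, S.amF A α v = 0) :
    mgz M.toOld X v = 0 := by
  have h1 := mg_complete M.toOld hd X hX
  rw [← h1, map_sum, _root_.sum_apply]
  refine Finset.sum_eq_zero fun C _ => ?_
  rw [map_smul, impx_mgz M S hrep, _root_.smul_apply, _root_.smul_apply, csV_stmt S v hv C, smul_zero, smul_zero]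

/-- exponentials of operators that kill `v` fix `v` -/
theorem impx_exp [CompleteSpace F] (z : F →L[ℂ] F) (v : F) (hz : z v = 0) (t : ℝ) : mgE z t v = v := by
  have hcomm : ∀ s, mgE z s * z = z * mgE z s := fun s => ((mgE_comm (Commute.refl z) s).eq).symm
  have hder : ∀ s : ℝ, HasDerivAt (fun s : ℝ => mgE z s v) 0 s := by
    intro s
    have h1 := ((ContinuousLinearMap.apply ℂ F v).restrictScalars ℝ).hasFDerivAt.comp_hasDerivAt s (mgE_deriv z s)
    have h2 : ((ContinuousLinearMap.apply ℂ F v).restrictScalars ℝ) (z * mgE z s) = 0 := by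
      show (z * mgE z s) v = 0
      rw [← hcomm s]
      show mgE z s (z v) = 0
      rw [hz, map_zero]
    rw [h2] at h1
    exact h1
  have hconst := is_const_of_deriv_eq_zero (fun s => (hder s).differentiableAt) (fun s => (hder s).deriv) t 0
  rw [hconst, mgE_zero]
  rfl

/-- **X2-ImpM** (main part: the operators fix the vacuum vectors) -/
theorem impx_vac [FiniteDimensional ℂ F] (M : BFSS.Model N d F) (S : Setup d F) (hrep : Rep M S) (V : BFSS.SU N)
    (v : F) (hv : ∀ A α, S.amF A α v = 0) : M.S V v = v := by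
  have hcs : CompleteSpace F := FiniteDimensional.complete ℂ F
  rcases Nat.eq_zero_or_pos d with hd | hd
  · -- `N ≤ 1`: the group is trivial
    have h1 : V = 1 := by
      have hN : N ≤ 1 := by
        by_contra hN
        have h2 : 2 ≤ N := by omega
        have h3 := M.dim_eq
        have h4 : 2 ^ 2 ≤ N ^ 2 := Nat.pow_le_pow_left h2 2
        omega
      have hsub : Subsingleton (Fin N) := by
        rw [← Fintype.card_le_one_iff_subsingleton, Fintype.card_fin]
        exact hN
      apply Subtype.ext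
      ext i j
      have hij : i = j := Subsingleton.elim _ _
      subst hij
      have hdet : V.val.det = 1 := (Matrix.mem_specialUnitaryGroup_iff.1 V.2).2
      have : Unique (Fin N) := ⟨⟨i⟩, fun a => Subsingleton.elim _ _⟩
      rw [Matrix.det_unique] at hdet
      have h5 : (default : Fin N) = i := Subsingleton.elim _ _
      rw [h5] at hdet
      rw [hdet]
      simp
    rw [h1, M.S_one]
    rfl
  · obtain ⟨hN, -⟩ := mg_dim M.toOld hd
    obtain ⟨U, x, hUx⟩ := impx_conj hN V
    have h1 := mgS_conj M.toOld hd U x 1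
    rw [one_smul, ← hUx] at h1
    have h2 : M.S V = M.toOld.S V := rfl
    rw [h2, h1]
    apply impx_exp
    apply impx_kill M S hrep hd _ _ v hv
    rw [mgc_trace, mgd, Matrix.trace_diagonal, ← Complex.ofReal_sum, mgH_sum, Complex.ofReal_zero]

/-- **X2-ImpM** -/
theorem impM_stmt : ImpMStmt.{u} := by
  intro n d E _ _ _ M S hrep V
  refine ⟨?_, ?_, M.S_isometry V, fun v hv => impx_vac M S hrep V v hv⟩
  · rcases Nat.eq_zero_or_pos n with hN | hN
    · have hd : d = 0 := by rw [M.dim_eq, hN]; rfl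
      subst hd
      ext i
      exact i.elim0
    · obtain ⟨a, ha⟩ := mad_exp M hN S hrep V
      rw [ha]
      exact mul_eq_one_comm.1 (gx983_orth S a (-1))
  · intro α A
    have h := M.toOld.S_rotates V α A
    rw [hrep.hth]
    exact h

end

end Vale.Agent.P353.Z.AX2
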