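import Vale.Agent.P353.AN.X2.AllB
import Vale.Agent.P353.AN.X2.ImpMB

/-! # P353, all `N`, block X2: assembly (all outputs unconditional: `x2All ihAll secAll modAll fubAll prodAll zeroAll impMAll`) -/

namespace Vale.Agent.P353.Z.AX2

universe u

/-- **X2-ImpM**, unconditional -/
theorem impMAll : ImpMStmt.{u} := impM_stmt

end Vale.Agent.P353.Z.AX2
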