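import Vale.Agent.P353.AN.X2.StmtG
import Vale.Agent.P353.AN.E.TR

/-! # P353, all `N`, block X2: X2-Fub, existence of the zero mode of a direct sum (helper314) -/

open MeasureTheory Filter Topology Matrix
open scoped ContDiff

namespace Vale.Agent.P353.Z.AX2

universe u

/-- **X2-FubE** existence part of X2-Fub. -/
def FubEStmt : Prop := ∀ (d d1 d2 : ℕ) (F : Type u) [NormedAddCommGroup F] [InnerProductSpace ℂ F] (_ : FiniteDimensional ℂ F)
  (S : Setup d F) (S1 : Setup d1 F) (S2 : Setup d2 F) (ψ : Spl d1 d2 d), S.Irr → (∃ v : F, v ≠ 0) →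
  DSum ψ S.f S1.f S2.f → S1.κ = S.κ → S2.κ = S.κ → S1.g = S.g → S2.g = S.g →
  (∀ α A, S1.th α A = S.th α (ψ (Sum.inl A))) → (∀ α A, S2.th α A = S.th α (ψ (Sum.inr A))) →
  ∀ hZ : ∀ α A, ∀ Ψ ∈ S1.zms ⊤, Setup.pwa d1 (S2.th α A) Ψ ∈ S1.zms ⊤, ZOut S1 S2 ⊤ hZ →
    (∃ Φ : Lp (S1.zms ⊤) 2 (volume : Measure (Cfg d2)), (S2.lft (S1.zms ⊤) hZ).IsZM Φ ∧ Φ ≠ 0) →
    ∃ Ψ : Lp F 2 (volume : Measure (Cfg d)), S.IsZM Ψ ∧ Ψ ≠ 0

section Alg

variable {d d1 d2 : ℕ} {E F : Type*} [NormedAddCommGroup E] [InnerProductSpace ℂ E]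
  [NormedAddCommGroup F] [InnerProductSpace ℂ F]

/-- intertwining of `vec` -/
theorem fube_vec (S' : Setup d E) (S : Setup d F) (L L' : E →L[ℂ] F)
    (h : ∀ α A v, S.th α A (L v) = L' (S'.th α A v)) (N : Matrix (Fin 16) (Fin 16) ℂ) (A : Fin d) (β : Fin 16)
    (v : E) : S.vec N A β (L v) = L' (S'.vec N A β v) := by
  simp only [CS.vec, _root_.sum_apply, _root_.smul_apply, h, map_sum, map_smul]

/-- intertwining of `bil` -/
theorem fube_bil (S' : Setup d E) (S : Setup d F) (L L' : E →L[ℂ] F)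
    (h : ∀ α A v, S.th α A (L v) = L' (S'.th α A v)) (h' : ∀ α A v, S.th α A (L' v) = L (S'.th α A v))
    (N : Matrix (Fin 16) (Fin 16) ℂ) (A B : Fin d) (v : E) : S.bil N A B (L v) = L (S'.bil N A B v) := by
  simp only [CS.bil, _root_.sum_apply, mul_apply_eq_comp, map_sum]
  refine Finset.sum_congr rfl fun α _ => ?_
  rw [fube_vec S' S L L' h, h']

/-- intertwining of the potential -/
theorem fube_W (S' : Setup d E) (S : Setup d F) (hg : S.g = S'.g) (hf : S.f = S'.f) (hκ : S.κ = S'.κ) (L L' : E →L[ℂ] F)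
    (h : ∀ α A v, S.th α A (L v) = L' (S'.th α A v)) (β : Fin 16) (x : Cfg d) (v : E) :
    S.W β x (L v) = L' (S'.W β x v) := by
  have hF : ∀ A i j, S.FF A i j x = S'.FF A i j x := by
    intro A i j
    unfold Setup.FF
    rw [hf, hκ]
  have hg2 : ∀ i j, S.g2 i j = S'.g2 i j := by
    intro i j
    unfold CS.g2
    rw [hg]
  simp only [Setup.W, _root_.sum_apply, _root_.smul_apply, hF, hg2, map_sum, map_smul]
  refine congrArg _ (Finset.sum_congr rfl fun A _ => Finset.sum_congr rfl fun i _ => Finset.sum_congr rfl fun j _ => ?_)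
  rw [fube_vec S' S L L' h]

/-- derivatives commute with linear maps -/
theorem fube_pd (L : E →L[ℂ] F) (u : Cfg d → E) (x : Cfg d) (hu : DifferentiableAt ℝ u x) (i : Fin 9) (A : Fin d) :
    pd i A (fun y => L (u y)) x = L (pd i A u x) := by
  unfold pd
  have h1 : HasFDerivAt (fun y => (L.restrictScalars ℝ) (u y)) ((L.restrictScalars ℝ).comp (fderiv ℝ u x)) x :=
    (L.restrictScalars ℝ).hasFDerivAt.comp x hu.hasFDerivAt
  have h2 : fderiv ℝ (fun y => L (u y)) x = (L.restrictScalars ℝ).comp (fderiv ℝ u x) := h1.fderiv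
  rw [h2]
  rfl

/-- intertwining of the supercharge -/
theorem fube_Q (S' : Setup d E) (S : Setup d F) (hg : S.g = S'.g) (hf : S.f = S'.f) (hκ : S.κ = S'.κ) (L L' : E →L[ℂ] F)
    (h : ∀ α A v, S.th α A (L v) = L' (S'.th α A v)) (β : Fin 16) (u : Cfg d → E) (x : Cfg d)
    (hu : DifferentiableAt ℝ u x) :
    S.Q β (fun y => L (u y)) x = L' (S'.Q β u x) := by
  simp only [Setup.Q, map_add, map_smul, map_sum, fube_pd L u x hu]
  rw [fube_W S' S hg hf hκ L L' h]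
  congr 2
  refine Finset.sum_congr rfl fun i _ => Finset.sum_congr rfl fun A _ => ?_
  rw [fube_vec S' S L L' h, hg]

/-- intertwining of the gauge generators -/
theorem fube_cS (S' : Setup d E) (S : Setup d F) (hf : S.f = S'.f) (L L' : E →L[ℂ] F)
    (h : ∀ α A v, S.th α A (L v) = L' (S'.th α A v)) (h' : ∀ α A v, S.th α A (L' v) = L (S'.th α A v))
    (C : Fin d) (v : E) : S.cS C (L v) = L (S'.cS C v) := by
  simp only [Setup.cS, _root_.sum_apply, _root_.smul_apply, map_sum, map_smul, hf]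
  refine congrArg _ (Finset.sum_congr rfl fun A _ => Finset.sum_congr rfl fun i _ => ?_)
  rw [fube_bil S' S L L' h h']

theorem fube_G (S' : Setup d E) (S : Setup d F) (hf : S.f = S'.f) (L L' : E →L[ℂ] F)
    (h : ∀ α A v, S.th α A (L v) = L' (S'.th α A v)) (h' : ∀ α A v, S.th α A (L' v) = L (S'.th α A v))
    (C : Fin d) (u : Cfg d → E) (x : Cfg d) (hu : DifferentiableAt ℝ u x) :
    S.G C (fun y => L (u y)) x = L (S'.G C u x) := by
  simp only [Setup.G, map_add, map_smul, map_sum, fube_pd L u x hu, hf]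
  rw [fube_cS S' S hf L L' h h']

end Alg

section Par

variable {d1 d2 : ℕ} {F : Type*} [NormedAddCommGroup F] [InnerProductSpace ℂ F]

/-- words of the second system commute with the first one up to parity -/
theorem fube_par (S1 : Setup d1 F) (S2 : Setup d2 F)
    (ha : ∀ α A β B v, S1.th α A (S2.th β B v) = -S2.th β B (S1.th α A v)) (X : FreeAlgebra ℂ (Fin 16 × Fin d2)) :
    ∃ X' : F →L[ℂ] F, (∀ α A v, S1.th α A (S2.rep X v) = X' (S1.th α A v)) ∧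
      (∀ α A v, S1.th α A (X' v) = S2.rep X (S1.th α A v)) := by
  induction X using FreeAlgebra.induction with
  | grade0 r =>
    refine ⟨S2.rep (algebraMap ℂ _ r), fun α A v => ?_, fun α A v => ?_⟩
    · rw [AlgHom.commutes, Algebra.algebraMap_eq_smul_one]
      simp
    · rw [AlgHom.commutes, Algebra.algebraMap_eq_smul_one]
      simp
  | grade1 p =>
    refine ⟨-S2.rep (FreeAlgebra.ι ℂ p), fun α A v => ?_, fun α A v => ?_⟩
    · have h1 : S2.rep (FreeAlgebra.ι ℂ p) = S2.th p.1 p.2 := by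
        simp [Setup.rep]
      rw [h1, ha]
      rfl
    · have h1 : S2.rep (FreeAlgebra.ι ℂ p) = S2.th p.1 p.2 := by
        simp [Setup.rep]
      rw [h1]
      change S1.th α A (-(S2.th p.1 p.2 v)) = S2.th p.1 p.2 (S1.th α A v)
      rw [map_neg, ha, neg_neg]
  | mul X Y hX hY =>
    obtain ⟨X', h1, h2⟩ := hX
    obtain ⟨Y', h3, h4⟩ := hY
    refine ⟨X' * Y', fun α A v => ?_, fun α A v => ?_⟩
    · rw [map_mul, mul_apply_eq_comp, mul_apply_eq_comp, h1, h3]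
    · rw [map_mul, mul_apply_eq_comp, mul_apply_eq_comp, h2, h4]
  | add X Y hX hY =>
    obtain ⟨X', h1, h2⟩ := hX
    obtain ⟨Y', h3, h4⟩ := hY
    refine ⟨X' + Y', fun α A v => ?_, fun α A v => ?_⟩
    · rw [map_add, _root_.add_apply, _root_.add_apply, map_add, h1, h3]
    · rw [map_add, _root_.add_apply, _root_.add_apply, map_add, h2, h4]

end Par

section Split

variable {d d1 d2 : ℕ} {F : Type*} [NormedAddCommGroup F] [InnerProductSpace ℂ F]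

/-- first projection as a linear map -/
noncomputable def fubeZ (ψ : Spl d1 d2 d) : Cfg d →L[ℝ] Cfg d1 :=
  LinearMap.toContinuousLinearMap
    { toFun := zpt ψ
      map_add' := fun _ _ => rfl
      map_smul' := fun _ _ => rfl }

/-- second projection as a linear map -/
noncomputable def fubeS (ψ : Spl d1 d2 d) : Cfg d →L[ℝ] Cfg d2 :=
  LinearMap.toContinuousLinearMap
    { toFun := spt ψ
      map_add' := fun _ _ => rfl
      map_smul' := fun _ _ => rfl }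

theorem fubeZ_inl (ψ : Spl d1 d2 d) (i : Fin 9) (A : Fin d1) :
    fubeZ ψ (EuclideanSpace.single (i, ψ (Sum.inl A)) 1) = EuclideanSpace.single (i, A) 1 := by
  ext p
  change (EuclideanSpace.single (i, ψ (Sum.inl A)) (1 : ℝ) : Cfg d) (p.1, ψ (Sum.inl p.2)) = _
  simp [Prod.ext_iff]

theorem fubeZ_inr (ψ : Spl d1 d2 d) (i : Fin 9) (A : Fin d2) :
    fubeZ ψ (EuclideanSpace.single (i, ψ (Sum.inr A)) 1) = 0 := by
  ext p
  change (EuclideanSpace.single (i, ψ (Sum.inr A)) (1 : ℝ) : Cfg d) (p.1, ψ (Sum.inl p.2)) = _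
  simp [Prod.ext_iff]

theorem fubeS_inr (ψ : Spl d1 d2 d) (i : Fin 9) (A : Fin d2) :
    fubeS ψ (EuclideanSpace.single (i, ψ (Sum.inr A)) 1) = EuclideanSpace.single (i, A) 1 := by
  ext p
  change (EuclideanSpace.single (i, ψ (Sum.inr A)) (1 : ℝ) : Cfg d) (p.1, ψ (Sum.inr p.2)) = _
  simp [Prod.ext_iff]

theorem fubeS_inl (ψ : Spl d1 d2 d) (i : Fin 9) (A : Fin d1) :
    fubeS ψ (EuclideanSpace.single (i, ψ (Sum.inl A)) 1) = 0 := by
  ext p
  change (EuclideanSpace.single (i, ψ (Sum.inl A)) (1 : ℝ) : Cfg d) (p.1, ψ (Sum.inr p.2)) = _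
  simp [Prod.ext_iff]

/-- derivative of the product profile -/
theorem fube_pdB {Z : Type*} [NormedAddCommGroup Z] [InnerProductSpace ℂ Z] (ψ : Spl d1 d2 d) (T : Z →L[ℂ] F →L[ℂ] F) (u : Cfg d1 → F) (c : Cfg d2 → Z)
    (hu : Differentiable ℝ u) (hc : Differentiable ℝ c) (x : Cfg d) (i : Fin 9) :
    (∀ A, pd i (ψ (Sum.inl A)) (fun x => T (c (spt ψ x)) (u (zpt ψ x))) x = T (c (spt ψ x)) (pd i A u (zpt ψ x))) ∧
    (∀ A, pd i (ψ (Sum.inr A)) (fun x => T (c (spt ψ x)) (u (zpt ψ x))) x = T (pd i A c (spt ψ x)) (u (zpt ψ x))) := by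
  have h1 : HasFDerivAt (fun x => c (spt ψ x)) ((fderiv ℝ c (spt ψ x)).comp (fubeS ψ)) x :=
    HasFDerivAt.comp (f := fun x => fubeS ψ x) x (hc (spt ψ x)).hasFDerivAt (fubeS ψ).hasFDerivAt
  have h2 : HasFDerivAt (fun x => u (zpt ψ x)) ((fderiv ℝ u (zpt ψ x)).comp (fubeZ ψ)) x :=
    HasFDerivAt.comp (f := fun x => fubeZ ψ x) x (hu (zpt ψ x)).hasFDerivAt (fubeZ ψ).hasFDerivAt
  have h3 := (T.bilinearRestrictScalars ℝ).hasFDerivAt_of_bilinear h1 h2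
  have h4 : ∀ A, pd i A (fun x => T (c (spt ψ x)) (u (zpt ψ x))) x =
      T (c (spt ψ x)) (fderiv ℝ u (zpt ψ x) (fubeZ ψ (EuclideanSpace.single (i, A) 1))) +
      T (fderiv ℝ c (spt ψ x) (fubeS ψ (EuclideanSpace.single (i, A) 1))) (u (zpt ψ x)) := by
    intro A
    have h5 : fderiv ℝ (fun x => T (c (spt ψ x)) (u (zpt ψ x))) x = _ := h3.fderiv
    unfold pd
    rw [h5]
    rfl
  constructor
  · intro A
    rw [h4, fubeZ_inl, fubeS_inl, map_zero, map_zero, _root_.zero_apply, add_zero]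
    rfl
  · intro A
    rw [h4, fubeZ_inr, fubeS_inr, map_zero, map_zero, zero_add]
    rfl

/-- the splitting data -/
structure FubeD (ψ : Spl d1 d2 d) (S : Setup d F) (S1 : Setup d1 F) (S2 : Setup d2 F) : Prop where
  ds : DSum ψ S.f S1.f S2.f
  k1 : S1.κ = S.κ
  k2 : S2.κ = S.κ
  g1 : S1.g = S.g
  g2 : S2.g = S.g
  t1 : ∀ α A, S1.th α A = S.th α (ψ (Sum.inl A))
  t2 : ∀ α A, S2.th α A = S.th α (ψ (Sum.inr A))

variable {ψ : Spl d1 d2 d} {S : Setup d F} {S1 : Setup d1 F} {S2 : Setup d2 F}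

theorem FubeD.lrl (h : FubeD ψ S S1 S2) (A B C) : S.f (ψ (Sum.inl A)) (ψ (Sum.inr B)) (ψ (Sum.inl C)) = 0 := by
  rw [S.f_cyc, S.f_cyc]
  exact h.ds.m1 _ _ _

theorem FubeD.lrr (h : FubeD ψ S S1 S2) (A B C) : S.f (ψ (Sum.inl A)) (ψ (Sum.inr B)) (ψ (Sum.inr C)) = 0 := by
  rw [S.f_cyc]
  exact h.ds.m2 _ _ _

theorem FubeD.rlr (h : FubeD ψ S S1 S2) (A B C) : S.f (ψ (Sum.inr A)) (ψ (Sum.inl B)) (ψ (Sum.inr C)) = 0 := by
  rw [S.f_cyc, S.f_cyc]
  exact h.ds.m2 _ _ _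

theorem FubeD.rll (h : FubeD ψ S S1 S2) (A B C) : S.f (ψ (Sum.inr A)) (ψ (Sum.inl B)) (ψ (Sum.inl C)) = 0 := by
  rw [S.f_cyc]
  exact h.ds.m1 _ _ _

theorem FubeD.vec1 (h : FubeD ψ S S1 S2) (N : Matrix (Fin 16) (Fin 16) ℂ) (A β) :
    S.vec N (ψ (Sum.inl A)) β = S1.vec N A β := by
  simp only [CS.vec, h.t1]

theorem FubeD.vec2 (h : FubeD ψ S S1 S2) (N : Matrix (Fin 16) (Fin 16) ℂ) (A β) :
    S.vec N (ψ (Sum.inr A)) β = S2.vec N A β := by
  simp only [CS.vec, h.t2]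

theorem FubeD.bil1 (h : FubeD ψ S S1 S2) (N : Matrix (Fin 16) (Fin 16) ℂ) (A B) :
    S.bil N (ψ (Sum.inl A)) (ψ (Sum.inl B)) = S1.bil N A B := by
  simp only [CS.bil, h.t1, h.vec1]

theorem FubeD.bil2 (h : FubeD ψ S S1 S2) (N : Matrix (Fin 16) (Fin 16) ℂ) (A B) :
    S.bil N (ψ (Sum.inr A)) (ψ (Sum.inr B)) = S2.bil N A B := by
  simp only [CS.bil, h.t2, h.vec2]

theorem fube_sum {M : Type*} [AddCommMonoid M] (ψ : Spl d1 d2 d) (a : Fin d → M) :
    ∑ A, a A = (∑ A, a (ψ (Sum.inl A))) + ∑ A, a (ψ (Sum.inr A)) := by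
  rw [← ψ.sum_comp, Fintype.sum_sum_type]

theorem FubeD.FF1 (h : FubeD ψ S S1 S2) (A i j) (x : Cfg d) :
    S.FF (ψ (Sum.inl A)) i j x = S1.FF A i j (zpt ψ x) := by
  unfold Setup.FF
  rw [fube_sum ψ, h.k1]
  simp only [fube_sum ψ (fun C => S.f (ψ (Sum.inl A)) _ C * _ * x (j, C)), h.ds.m1, h.lrl, h.lrr, h.ds.e1, zero_mul,
    Finset.sum_const_zero, add_zero]
  rfl

theorem FubeD.FF2 (h : FubeD ψ S S1 S2) (A i j) (x : Cfg d) :
    S.FF (ψ (Sum.inr A)) i j x = S2.FF A i j (spt ψ x) := by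
  unfold Setup.FF
  rw [fube_sum ψ, h.k2]
  simp only [fube_sum ψ (fun C => S.f (ψ (Sum.inr A)) _ C * _ * x (j, C)), h.ds.m2, h.rlr, h.rll, h.ds.e2, zero_mul,
    Finset.sum_const_zero, zero_add]
  rfl

theorem FubeD.W (h : FubeD ψ S S1 S2) (β) (x : Cfg d) :
    S.W β x = S1.W β (zpt ψ x) + S2.W β (spt ψ x) := by
  have hg1 : ∀ i j, S1.g2 i j = S.g2 i j := by
    intro i j
    unfold CS.g2
    rw [h.g1]
  have hg2 : ∀ i j, S2.g2 i j = S.g2 i j := by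
    intro i j
    unfold CS.g2
    rw [h.g2]
  unfold Setup.W
  rw [fube_sum ψ, smul_add]
  simp only [h.FF1, h.FF2, h.vec1, h.vec2, hg1, hg2]

theorem FubeD.Q (h : FubeD ψ S S1 S2) (β) (U : Cfg d → F) (x : Cfg d) :
    S.Q β U x = ((-Complex.I) • ∑ i, ∑ A, S1.vec (S1.g i) A β (pd i (ψ (Sum.inl A)) U x) + S1.W β (zpt ψ x) (U x)) +
      ((-Complex.I) • ∑ i, ∑ A, S2.vec (S2.g i) A β (pd i (ψ (Sum.inr A)) U x) + S2.W β (spt ψ x) (U x)) := by
  unfold Setup.Q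
  rw [h.W]
  simp only [fube_sum ψ (fun A => S.vec (S.g _) A β (pd _ A U x)), Finset.sum_add_distrib, smul_add, h.vec1, h.vec2,
    h.g1, h.g2, _root_.add_apply]
  abel

theorem FubeD.cS1 (h : FubeD ψ S S1 S2) (C) : S.cS (ψ (Sum.inl C)) = S1.cS C := by
  unfold Setup.cS
  rw [fube_sum ψ]
  simp only [fube_sum ψ (fun E => (S.f (ψ (Sum.inl C)) _ E : ℂ) • S.bil 1 _ E), h.ds.m1, h.lrl, h.lrr, h.ds.e1,
    Complex.ofReal_zero, zero_smul, Finset.sum_const_zero, add_zero, h.bil1]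

theorem FubeD.cS2 (h : FubeD ψ S S1 S2) (C) : S.cS (ψ (Sum.inr C)) = S2.cS C := by
  unfold Setup.cS
  rw [fube_sum ψ]
  simp only [fube_sum ψ (fun E => (S.f (ψ (Sum.inr C)) _ E : ℂ) • S.bil 1 _ E), h.ds.m2, h.rlr, h.rll, h.ds.e2,
    Complex.ofReal_zero, zero_smul, Finset.sum_const_zero, zero_add, h.bil2]

theorem FubeD.G1 (h : FubeD ψ S S1 S2) (C) (U : Cfg d → F) (x : Cfg d) :
    S.G (ψ (Sum.inl C)) U x = (-Complex.I) • ∑ i, ∑ A, ∑ B, ((S1.f C A B : ℂ) * (zpt ψ x (i, A) : ℂ)) •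
      pd i (ψ (Sum.inl B)) U x + S1.cS C (U x) := by
  unfold Setup.G
  rw [h.cS1]
  congr 2
  refine Finset.sum_congr rfl fun i _ => ?_
  rw [fube_sum ψ]
  have e1 : ∀ A : Fin d2, ∑ B, ((S.f (ψ (Sum.inl C)) (ψ (Sum.inr A)) B : ℂ) * (x (i, ψ (Sum.inr A)) : ℂ)) • pd i B U x = 0 := by
    intro A
    rw [fube_sum ψ]
    simp only [h.lrl, h.lrr, Complex.ofReal_zero, zero_mul, zero_smul, Finset.sum_const_zero, add_zero]
  simp only [e1, Finset.sum_const_zero, add_zero]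
  refine Finset.sum_congr rfl fun A _ => ?_
  rw [fube_sum ψ]
  simp only [h.ds.m1, h.ds.e1, Complex.ofReal_zero, zero_mul, zero_smul, Finset.sum_const_zero, add_zero]
  rfl

theorem FubeD.G2 (h : FubeD ψ S S1 S2) (C) (U : Cfg d → F) (x : Cfg d) :
    S.G (ψ (Sum.inr C)) U x = (-Complex.I) • ∑ i, ∑ A, ∑ B, ((S2.f C A B : ℂ) * (spt ψ x (i, A) : ℂ)) •
      pd i (ψ (Sum.inr B)) U x + S2.cS C (U x) := by
  unfold Setup.G
  rw [h.cS2]
  congr 2
  refine Finset.sum_congr rfl fun i _ => ?_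
  rw [fube_sum ψ]
  have e1 : ∀ A : Fin d1, ∑ B, ((S.f (ψ (Sum.inr C)) (ψ (Sum.inl A)) B : ℂ) * (x (i, ψ (Sum.inl A)) : ℂ)) • pd i B U x = 0 := by
    intro A
    rw [fube_sum ψ]
    simp only [h.rll, h.rlr, Complex.ofReal_zero, zero_mul, zero_smul, Finset.sum_const_zero, add_zero]
  simp only [e1, Finset.sum_const_zero, zero_add]
  refine Finset.sum_congr rfl fun A _ => ?_
  rw [fube_sum ψ]
  simp only [h.ds.m2, h.ds.e2, Complex.ofReal_zero, zero_mul, zero_smul, Finset.sum_const_zero, zero_add]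
  rfl

theorem FubeD.anti (h : FubeD ψ S S1 S2) (α A β B) (v : F) : S1.th α A (S2.th β B v) = -S2.th β B (S1.th α A v) := by
  have h1 := S.th_anti α (ψ (Sum.inl A)) β (ψ (Sum.inr B))
  rw [if_neg (by simp), ← h.t1, ← h.t2] at h1
  have h2 : (S1.th α A * S2.th β B + S2.th β B * S1.th α A) v = 0 := by
    rw [h1]
    rfl
  exact eq_neg_of_add_eq_zero_left h2

end Split

section Core

variable {d d1 d2 : ℕ} {F : Type*} [NormedAddCommGroup F] [InnerProductSpace ℂ F]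

theorem fube_inj (ψ : Spl d1 d2 d) : Function.Injective (fun x : Cfg d => (zpt ψ x, spt ψ x)) := by
  intro x y hxy
  have h1 : zpt ψ x = zpt ψ y := (Prod.ext_iff.1 hxy).1
  have h2 : spt ψ x = spt ψ y := (Prod.ext_iff.1 hxy).2
  ext ⟨i, A⟩
  obtain ⟨s, rfl⟩ := ψ.surjective A
  rcases s with A | A
  · exact congrArg (fun w : Cfg d1 => w (i, A)) h1
  · exact congrArg (fun w : Cfg d2 => w (i, A)) h2

theorem fube_emb (ψ : Spl d1 d2 d) : MeasurableEmbedding (fun x : Cfg d => (zpt ψ x, spt ψ x)) :=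
  (((AE.trf_zpt_c ψ).continuous.prodMk (AE.trf_spt_c ψ).continuous).measurable).measurableEmbedding (fube_inj ψ)

theorem fube_int (ψ : Spl d1 d2 d) (a : Cfg d1 → ℝ) (b : Cfg d2 → ℝ) :
    ∫ x : Cfg d, a (zpt ψ x) * b (spt ψ x) = (∫ y, a y) * ∫ z, b z := by
  have h1 := (AE.trf_mp ψ).integral_comp (fube_emb ψ) (fun p : Cfg d1 × Cfg d2 => a p.1 * b p.2)
  rw [← integral_prod_mul]
  exact h1

theorem fube_itg (ψ : Spl d1 d2 d) (a : Cfg d1 → ℝ) (b : Cfg d2 → ℝ) (ha : Integrable a) (hb : Integrable b) :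
    Integrable (fun x : Cfg d => a (zpt ψ x) * b (spt ψ x)) := by
  have h1 := (AE.trf_mp ψ).integrable_comp_emb (fube_emb ψ) (g := fun p : Cfg d1 × Cfg d2 => a p.1 * b p.2)
  exact h1.2 (ha.mul_prod hb)

theorem fube_ae1 (ψ : Spl d1 d2 d) {p : Cfg d1 → Prop} (h : ∀ᵐ y ∂(volume : Measure (Cfg d1)), p y) :
    ∀ᵐ x ∂(volume : Measure (Cfg d)), p (zpt ψ x) := by
  have h1 := (Measure.quasiMeasurePreserving_fst (μ := (volume : Measure (Cfg d1)))
    (ν := (volume : Measure (Cfg d2)))).comp (AE.trf_mp ψ).quasiMeasurePreserving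
  exact h1.ae h

theorem fube_lpi {m : ℕ} {E : Type*} [NormedAddCommGroup E] (k : Lp E 2 (volume : Measure (Cfg m))) :
    Integrable (fun x => ‖k x‖ ^ 2) :=
  (memLp_two_iff_integrable_sq_norm (Lp.memLp k).1).1 (Lp.memLp k)

theorem fube_lpz {m : ℕ} {E : Type*} [NormedAddCommGroup E] (k : Lp E 2 (volume : Measure (Cfg m)))
    (h : ∫ x, ‖k x‖ ^ 2 = 0) : k = 0 := by
  rw [integral_eq_zero_iff_of_nonneg (fun x => by positivity) (fube_lpi k)] at h
  rw [Lp.eq_zero_iff_ae_eq_zero]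
  filter_upwards [h] with x hx
  have h1 : ‖k x‖ ^ 2 = 0 := hx
  simpa using h1

/-- products of test functions -/
theorem fube_tst {Z : Type*} [NormedAddCommGroup Z] [InnerProductSpace ℂ Z] (ψ : Spl d1 d2 d) (T : Z →L[ℂ] F →L[ℂ] F)
    (u : Cfg d1 → F) (c : Cfg d2 → Z) (hu : Setup.Tst u) (hc : Setup.Tst c) :
    Setup.Tst (fun x : Cfg d => T (c (spt ψ x)) (u (zpt ψ x))) := by
  constructor
  · exact ((T.bilinearRestrictScalars ℝ).isBoundedBilinearMap.contDiff).comp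
      ((hc.1.comp (AE.trf_spt_c ψ)).prodMk (hu.1.comp (AE.trf_zpt_c ψ)))
  · obtain ⟨R1, hR1, h1⟩ := hu.2.exists_pos_le_norm
    obtain ⟨R2, hR2, h2⟩ := hc.2.exists_pos_le_norm
    refine HasCompactSupport.intro (isCompact_closedBall (0 : Cfg d) (R1 + R2)) fun x hx => ?_
    rw [mem_closedBall_zero_iff, not_le] at hx
    by_cases hz : R1 ≤ ‖zpt ψ x‖
    · rw [h1 _ hz, map_zero]
    · by_cases hs : R2 ≤ ‖spt ψ x‖
      · rw [h2 _ hs, map_zero]
        rfl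
      · exfalso
        push Not at hz hs
        have h3 := AE.trf_norm ψ x
        have h4 : ‖x‖ ^ 2 ≤ (R1 + R2) ^ 2 := by
          nlinarith [norm_nonneg (zpt ψ x), norm_nonneg (spt ψ x)]
        have h5 : ‖x‖ ≤ R1 + R2 := abs_le_of_sq_le_sq' h4 (by positivity) |>.2
        linarith

/-- data of the product -/
structure FubeT {Z : Type*} [NormedAddCommGroup Z] [InnerProductSpace ℂ Z] (S1 : Setup d1 F) (S2 : Setup d2 F)
    (SZ : Setup d2 Z) (V : Submodule ℂ F) (T T' : Z →L[ℂ] F →L[ℂ] F) : Prop where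
  g : S2.g = SZ.g
  f : S2.f = SZ.f
  κ : S2.κ = SZ.κ
  p1 : ∀ z α A v, S1.th α A (T z v) = T' z (S1.th α A v)
  p2 : ∀ z α A v, S1.th α A (T' z v) = T z (S1.th α A v)
  t : ∀ v ∈ V, ∀ α A z, S2.th α A (T z v) = T (SZ.th α A z) v
  n : ∀ v ∈ V, ∀ z, ‖T z v‖ = ‖z‖ * ‖v‖

variable {Z : Type*} [NormedAddCommGroup Z] [InnerProductSpace ℂ Z]
  {ψ : Spl d1 d2 d} {S : Setup d F} {S1 : Setup d1 F} {S2 : Setup d2 F} {SZ : Setup d2 Z} {V : Submodule ℂ F}
  {T T' : Z →L[ℂ] F →L[ℂ] F}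

/-- supercharge of a product -/
theorem fube_QT (hD : FubeD ψ S S1 S2) (hT : FubeT S1 S2 SZ V T T') (β : Fin 16) (u : Cfg d1 → F) (c : Cfg d2 → Z)
    (hu : Differentiable ℝ u) (hc : Differentiable ℝ c) (x : Cfg d) (hV : u (zpt ψ x) ∈ V) :
    S.Q β (fun x => T (c (spt ψ x)) (u (zpt ψ x))) x =
      T' (c (spt ψ x)) (S1.Q β u (zpt ψ x)) + T (SZ.Q β c (spt ψ x)) (u (zpt ψ x)) := by
  rw [hD.Q]
  have e1 : S1.Q β (fun y => T (c (spt ψ x)) (u y)) (zpt ψ x) = T' (c (spt ψ x)) (S1.Q β u (zpt ψ x)) :=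
    fube_Q S1 S1 rfl rfl rfl (T (c (spt ψ x))) (T' (c (spt ψ x))) (fun α A v => hT.p1 _ α A v) β u _ (hu _)
  have e2 : S2.Q β (fun y => T.flip (u (zpt ψ x)) (c y)) (spt ψ x) = T.flip (u (zpt ψ x)) (SZ.Q β c (spt ψ x)) :=
    fube_Q SZ S2 hT.g hT.f hT.κ (T.flip (u (zpt ψ x))) (T.flip (u (zpt ψ x))) (fun α A v => hT.t _ hV α A v) β c _ (hc _)
  have e3 : T.flip (u (zpt ψ x)) (SZ.Q β c (spt ψ x)) = T (SZ.Q β c (spt ψ x)) (u (zpt ψ x)) := rfl
  rw [← e1, ← e3, ← e2]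
  have hp1 := fun i => (fube_pdB ψ T u c hu hc x i).1
  have hp2 := fun i => (fube_pdB ψ T u c hu hc x i).2
  simp only [hp1, hp2]
  congr 1
  · unfold Setup.Q
    simp only [fube_pd (T (c (spt ψ x))) u (zpt ψ x) (hu _)]
  · unfold Setup.Q
    simp only [fube_pd (T.flip (u (zpt ψ x))) c (spt ψ x) (hc _)]
    simp only [ContinuousLinearMap.flip_apply]

/-- gauge invariance of a product -/
theorem fube_GT (hD : FubeD ψ S S1 S2) (hT : FubeT S1 S2 SZ V T T') (u : Cfg d1 → F) (c : Cfg d2 → Z)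
    (hu : Differentiable ℝ u) (hc : Differentiable ℝ c) (x : Cfg d) (hV : u (zpt ψ x) ∈ V)
    (gu : ∀ C y, S1.G C u y = 0) (gc : ∀ C y, SZ.G C c y = 0) (C : Fin d) :
    S.G C (fun x => T (c (spt ψ x)) (u (zpt ψ x))) x = 0 := by
  obtain ⟨s, rfl⟩ := ψ.surjective C
  have hp1 := fun i => (fube_pdB ψ T u c hu hc x i).1
  have hp2 := fun i => (fube_pdB ψ T u c hu hc x i).2
  rcases s with C | C
  · rw [hD.G1]
    have e1 : S1.G C (fun y => T (c (spt ψ x)) (u y)) (zpt ψ x) = T (c (spt ψ x)) (S1.G C u (zpt ψ x)) :=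
      fube_G S1 S1 rfl (T (c (spt ψ x))) (T' (c (spt ψ x))) (fun α A v => hT.p1 _ α A v)
        (fun α A v => hT.p2 _ α A v) C u _ (hu _)
    rw [gu, map_zero] at e1
    rw [← e1]
    simp only [hp1]
    unfold Setup.G
    simp only [fube_pd (T (c (spt ψ x))) u (zpt ψ x) (hu _)]
  · rw [hD.G2]
    have e2 : S2.G C (fun y => T.flip (u (zpt ψ x)) (c y)) (spt ψ x) = T.flip (u (zpt ψ x)) (SZ.G C c (spt ψ x)) :=
      fube_G SZ S2 hT.f (T.flip (u (zpt ψ x))) (T.flip (u (zpt ψ x))) (fun α A v => hT.t _ hV α A v)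
        (fun α A v => hT.t _ hV α A v) C c _ (hc _)
    rw [gc, map_zero] at e2
    rw [← e2]
    simp only [hp2]
    unfold Setup.G
    simp only [fube_pd (T.flip (u (zpt ψ x))) c (spt ψ x) (hc _)]
    simp only [ContinuousLinearMap.flip_apply]

theorem fube_sq (a b c : ℝ) (h0 : 0 ≤ a) (h : a ≤ b + c) : a ^ 2 ≤ 2 * b ^ 2 + 2 * c ^ 2 := by
  nlinarith [sq_nonneg (b - c)]

/-- the product of zero modes is a zero mode -/
theorem fube_core (hD : FubeD ψ S S1 S2) (hT : FubeT S1 S2 SZ V T T')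
    (k : Lp F 2 (volume : Measure (Cfg d1))) (hk : ∀ᵐ y ∂(volume : Measure (Cfg d1)), k y ∈ V) (hk0 : k ≠ 0)
    (u : ℕ → Cfg d1 → F) (hu : S1.Apx k u) (huV : ∀ n y, u n y ∈ V)
    (Φ : Lp Z 2 (volume : Measure (Cfg d2))) (hΦ0 : Φ ≠ 0) (c : ℕ → Cfg d2 → Z) (hc : SZ.Apx Φ c) :
    ∃ Ψ : Lp F 2 (volume : Measure (Cfg d)), S.IsZM Ψ ∧ Ψ ≠ 0 := by
  obtain ⟨hu1, hu2, hu3, hu4⟩ := hu
  obtain ⟨hc1, hc2, hc3, hc4⟩ := hc
  have hud : ∀ n, Differentiable ℝ (u n) := fun n => (hu1 n).1.differentiable (by simp)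
  have hcd : ∀ n, Differentiable ℝ (c n) := fun n => (hc1 n).1.differentiable (by simp)
  -- integrability of the squares
  have iu : ∀ n, Integrable (fun y => ‖u n y‖ ^ 2) := fun n =>
    AE.trf_int volume (u n) (hu1 n).1.continuous (hu1 n).2
  have ic : ∀ n, Integrable (fun y => ‖c n y‖ ^ 2) := fun n =>
    AE.trf_int volume (c n) (hc1 n).1.continuous (hc1 n).2
  have ik := fube_lpi k
  have iΦ := fube_lpi Φ
  have mu : ∀ n, MemLp (u n) 2 (volume : Measure (Cfg d1)) := fun n =>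
    (memLp_two_iff_integrable_sq_norm (hu1 n).1.continuous.aestronglyMeasurable).2 (iu n)
  have mc : ∀ n, MemLp (c n) 2 (volume : Measure (Cfg d2)) := fun n =>
    (memLp_two_iff_integrable_sq_norm (hc1 n).1.continuous.aestronglyMeasurable).2 (ic n)
  have iuk : ∀ n, Integrable (fun y => ‖u n y - k y‖ ^ 2) := fun n =>
    (memLp_two_iff_integrable_sq_norm ((mu n).sub (Lp.memLp k)).1).1 ((mu n).sub (Lp.memLp k))
  have icΦ : ∀ n, Integrable (fun y => ‖c n y - Φ y‖ ^ 2) := fun n =>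
    (memLp_two_iff_integrable_sq_norm ((mc n).sub (Lp.memLp Φ)).1).1 ((mc n).sub (Lp.memLp Φ))
  have iQu : ∀ β n, Integrable (fun y => ‖S1.Q β (u n) y‖ ^ 2) := fun β n =>
    AE.trf_int volume _ (Setup.Tst.Q S1 (hu1 n) β).1.continuous (Setup.Tst.Q S1 (hu1 n) β).2
  have iQc : ∀ β n, Integrable (fun y => ‖SZ.Q β (c n) y‖ ^ 2) := fun β n =>
    AE.trf_int volume _ (Setup.Tst.Q SZ (hc1 n) β).1.continuous (Setup.Tst.Q SZ (hc1 n) β).2
  -- bounds of the squares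
  have bu : ∀ n, ∫ y, ‖u n y‖ ^ 2 ≤ 2 * (∫ y, ‖u n y - k y‖ ^ 2) + 2 * ∫ y, ‖k y‖ ^ 2 := by
    intro n
    rw [← integral_const_mul, ← integral_const_mul, ← integral_add ((iuk n).const_mul 2) (ik.const_mul 2)]
    refine integral_mono (iu n) (((iuk n).const_mul 2).add (ik.const_mul 2)) fun y => ?_
    change ‖u n y‖ ^ 2 ≤ 2 * ‖u n y - k y‖ ^ 2 + 2 * ‖k y‖ ^ 2
    have h1 : ‖u n y‖ ≤ ‖u n y - k y‖ + ‖k y‖ := by
      simpa using norm_add_le (u n y - k y) (k y)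
    nlinarith [norm_nonneg (u n y), norm_nonneg (u n y - k y), norm_nonneg (k y),
      sq_nonneg (‖u n y - k y‖ - ‖k y‖)]
  have bc : ∀ n, ∫ y, ‖c n y‖ ^ 2 ≤ 2 * (∫ y, ‖c n y - Φ y‖ ^ 2) + 2 * ∫ y, ‖Φ y‖ ^ 2 := by
    intro n
    rw [← integral_const_mul, ← integral_const_mul, ← integral_add ((icΦ n).const_mul 2) (iΦ.const_mul 2)]
    refine integral_mono (ic n) (((icΦ n).const_mul 2).add (iΦ.const_mul 2)) fun y => ?_
    change ‖c n y‖ ^ 2 ≤ 2 * ‖c n y - Φ y‖ ^ 2 + 2 * ‖Φ y‖ ^ 2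
    have h1 : ‖c n y‖ ≤ ‖c n y - Φ y‖ + ‖Φ y‖ := by
      simpa using norm_add_le (c n y - Φ y) (Φ y)
    nlinarith [norm_nonneg (c n y), norm_nonneg (c n y - Φ y), norm_nonneg (Φ y),
      sq_nonneg (‖c n y - Φ y‖ - ‖Φ y‖)]
  -- the limit
  have q1 : Measure.QuasiMeasurePreserving (fun x : Cfg d => zpt ψ x) volume (volume : Measure (Cfg d1)) :=
    (Measure.quasiMeasurePreserving_fst (μ := (volume : Measure (Cfg d1)))
      (ν := (volume : Measure (Cfg d2)))).comp (AE.trf_mp ψ).quasiMeasurePreserving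
  have q2 : Measure.QuasiMeasurePreserving (fun x : Cfg d => spt ψ x) volume (volume : Measure (Cfg d2)) :=
    (Measure.quasiMeasurePreserving_snd (μ := (volume : Measure (Cfg d1)))
      (ν := (volume : Measure (Cfg d2)))).comp (AE.trf_mp ψ).quasiMeasurePreserving
  have m1 : AEStronglyMeasurable (fun x : Cfg d => k (zpt ψ x)) volume :=
    (Lp.aestronglyMeasurable k).comp_quasiMeasurePreserving q1
  have m2 : AEStronglyMeasurable (fun x : Cfg d => Φ (spt ψ x)) volume :=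
    (Lp.aestronglyMeasurable Φ).comp_quasiMeasurePreserving q2
  have m3 : AEStronglyMeasurable (fun x : Cfg d => T (Φ (spt ψ x)) (k (zpt ψ x))) volume :=
    T.aestronglyMeasurable_comp₂ m2 m1
  have hkV : ∀ᵐ x ∂(volume : Measure (Cfg d)), k (zpt ψ x) ∈ V := q1.ae hk
  have hP2 : ∀ᵐ x ∂(volume : Measure (Cfg d)), ‖T (Φ (spt ψ x)) (k (zpt ψ x))‖ ^ 2 =
      ‖k (zpt ψ x)‖ ^ 2 * ‖Φ (spt ψ x)‖ ^ 2 := by
    filter_upwards [hkV] with x hx
    rw [hT.n _ hx, mul_pow, mul_comm]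
  have hPm : MemLp (fun x : Cfg d => T (Φ (spt ψ x)) (k (zpt ψ x))) 2 volume := by
    rw [memLp_two_iff_integrable_sq_norm m3]
    exact (fube_itg ψ _ _ ik iΦ).congr (hP2.mono fun x hx => hx.symm)
  refine ⟨hPm.toLp _, ⟨fun n x => T (c n (spt ψ x)) (u n (zpt ψ x)), fun n => fube_tst ψ T (u n) (c n) (hu1 n) (hc1 n),
    fun n C x => fube_GT hD hT (u n) (c n) (hud n) (hcd n) x (huV n _) (hu2 n) (hc2 n) C, ?_, ?_⟩, ?_⟩
  · -- L² limit
    have hb : ∀ n, ∫ x, ‖T (c n (spt ψ x)) (u n (zpt ψ x)) - (hPm.toLp _ : Lp F 2 (volume : Measure (Cfg d))) x‖ ^ 2 ≤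
        2 * ‖T‖ ^ 2 * ((∫ y, ‖u n y - k y‖ ^ 2) * (2 * (∫ y, ‖c n y - Φ y‖ ^ 2) + 2 * ∫ y, ‖Φ y‖ ^ 2) +
          (∫ y, ‖k y‖ ^ 2) * ∫ y, ‖c n y - Φ y‖ ^ 2) := by
      intro n
      have j1 := fube_itg ψ _ _ (iuk n) (ic n)
      have j2 := fube_itg ψ _ _ ik (icΦ n)
      have h1 : ∫ x, ‖T (c n (spt ψ x)) (u n (zpt ψ x)) - (hPm.toLp _ : Lp F 2 (volume : Measure (Cfg d))) x‖ ^ 2 ≤
          ∫ x : Cfg d, 2 * ‖T‖ ^ 2 * (‖u n (zpt ψ x) - k (zpt ψ x)‖ ^ 2 * ‖c n (spt ψ x)‖ ^ 2 +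
            ‖k (zpt ψ x)‖ ^ 2 * ‖c n (spt ψ x) - Φ (spt ψ x)‖ ^ 2) := by
        refine integral_mono_of_nonneg (Eventually.of_forall fun x => by positivity) ((j1.add j2).const_mul _) ?_
        filter_upwards [hPm.coeFn_toLp] with x hx
        rw [hx]
        have e1 : T (c n (spt ψ x)) (u n (zpt ψ x)) - T (Φ (spt ψ x)) (k (zpt ψ x)) =
            T (c n (spt ψ x)) (u n (zpt ψ x) - k (zpt ψ x)) + T (c n (spt ψ x) - Φ (spt ψ x)) (k (zpt ψ x)) := by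
          rw [map_sub, map_sub, _root_.sub_apply]
          abel
        rw [e1]
        have e2 := T.le_opNorm₂ (c n (spt ψ x)) (u n (zpt ψ x) - k (zpt ψ x))
        have e3 := T.le_opNorm₂ (c n (spt ψ x) - Φ (spt ψ x)) (k (zpt ψ x))
        have e4 := norm_add_le (T (c n (spt ψ x)) (u n (zpt ψ x) - k (zpt ψ x)))
          (T (c n (spt ψ x) - Φ (spt ψ x)) (k (zpt ψ x)))
        have e5 : ‖T (c n (spt ψ x)) (u n (zpt ψ x) - k (zpt ψ x)) +
            T (c n (spt ψ x) - Φ (spt ψ x)) (k (zpt ψ x))‖ ^ 2 ≤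
            2 * (‖T‖ * ‖c n (spt ψ x)‖ * ‖u n (zpt ψ x) - k (zpt ψ x)‖) ^ 2 +
              2 * (‖T‖ * ‖c n (spt ψ x) - Φ (spt ψ x)‖ * ‖k (zpt ψ x)‖) ^ 2 :=
          fube_sq _ _ _ (norm_nonneg _) (by linarith)
        refine e5.trans (le_of_eq ?_)
        ring
      refine h1.trans ?_
      rw [integral_const_mul, integral_add j1 j2, fube_int ψ (fun y => ‖u n y - k y‖ ^ 2) (fun y => ‖c n y‖ ^ 2),
        fube_int ψ (fun y => ‖k y‖ ^ 2) (fun y => ‖c n y - Φ y‖ ^ 2)]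
      refine mul_le_mul_of_nonneg_left (add_le_add (mul_le_mul_of_nonneg_left (bc n) ?_) le_rfl) (by positivity)
      exact integral_nonneg fun y => by positivity
    refine squeeze_zero (fun n => integral_nonneg fun x => by positivity) hb ?_
    have h2 := ((hu3.mul ((hc3.const_mul 2).add_const (2 * ∫ y, ‖Φ y‖ ^ 2))).add (hc3.const_mul (∫ y, ‖k y‖ ^ 2))).const_mul
      (2 * ‖T‖ ^ 2)
    simpa using h2
  · intro β
    have hb : ∀ n, ∫ x, ‖S.Q β (fun x => T (c n (spt ψ x)) (u n (zpt ψ x))) x‖ ^ 2 ≤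
        2 * ‖T'‖ ^ 2 * ((∫ y, ‖S1.Q β (u n) y‖ ^ 2) * (2 * (∫ y, ‖c n y - Φ y‖ ^ 2) + 2 * ∫ y, ‖Φ y‖ ^ 2)) +
          2 * ‖T‖ ^ 2 * ((2 * (∫ y, ‖u n y - k y‖ ^ 2) + 2 * ∫ y, ‖k y‖ ^ 2) * ∫ y, ‖SZ.Q β (c n) y‖ ^ 2) := by
      intro n
      have j1 := fube_itg ψ _ _ (iQu β n) (ic n)
      have j2 := fube_itg ψ _ _ (iu n) (iQc β n)
      have h1 : ∫ x, ‖S.Q β (fun x => T (c n (spt ψ x)) (u n (zpt ψ x))) x‖ ^ 2 ≤
          ∫ x : Cfg d, (2 * ‖T'‖ ^ 2 * (‖S1.Q β (u n) (zpt ψ x)‖ ^ 2 * ‖c n (spt ψ x)‖ ^ 2) +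
            2 * ‖T‖ ^ 2 * (‖u n (zpt ψ x)‖ ^ 2 * ‖SZ.Q β (c n) (spt ψ x)‖ ^ 2)) := by
        refine integral_mono_of_nonneg (Eventually.of_forall fun x => by positivity)
          ((j1.const_mul _).add (j2.const_mul _)) (Eventually.of_forall fun x => ?_)
        change ‖S.Q β (fun x => T (c n (spt ψ x)) (u n (zpt ψ x))) x‖ ^ 2 ≤
          2 * ‖T'‖ ^ 2 * (‖S1.Q β (u n) (zpt ψ x)‖ ^ 2 * ‖c n (spt ψ x)‖ ^ 2) +
            2 * ‖T‖ ^ 2 * (‖u n (zpt ψ x)‖ ^ 2 * ‖SZ.Q β (c n) (spt ψ x)‖ ^ 2)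
        rw [fube_QT hD hT β (u n) (c n) (hud n) (hcd n) x (huV n _)]
        have e2 := T'.le_opNorm₂ (c n (spt ψ x)) (S1.Q β (u n) (zpt ψ x))
        have e3 := T.le_opNorm₂ (SZ.Q β (c n) (spt ψ x)) (u n (zpt ψ x))
        have e4 := norm_add_le (T' (c n (spt ψ x)) (S1.Q β (u n) (zpt ψ x)))
          (T (SZ.Q β (c n) (spt ψ x)) (u n (zpt ψ x)))
        refine (fube_sq _ _ _ (norm_nonneg _) (e4.trans (add_le_add e2 e3))).trans (le_of_eq ?_)
        ring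
      refine h1.trans ?_
      rw [integral_add (j1.const_mul _) (j2.const_mul _), integral_const_mul, integral_const_mul,
        fube_int ψ (fun y => ‖S1.Q β (u n) y‖ ^ 2) (fun y => ‖c n y‖ ^ 2),
        fube_int ψ (fun y => ‖u n y‖ ^ 2) (fun y => ‖SZ.Q β (c n) y‖ ^ 2)]
      refine add_le_add (mul_le_mul_of_nonneg_left (mul_le_mul_of_nonneg_left (bc n) ?_) (by positivity))
        (mul_le_mul_of_nonneg_left (mul_le_mul_of_nonneg_right (bu n) ?_) (by positivity))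
      · exact integral_nonneg fun y => by positivity
      · exact integral_nonneg fun y => by positivity
    refine squeeze_zero (fun n => integral_nonneg fun x => by positivity) hb ?_
    have h2 := (((hu4 β).mul ((hc3.const_mul 2).add_const (2 * ∫ y, ‖Φ y‖ ^ 2))).const_mul (2 * ‖T'‖ ^ 2)).add
      ((((hu3.const_mul 2).add_const (2 * ∫ y, ‖k y‖ ^ 2)).mul (hc4 β)).const_mul (2 * ‖T‖ ^ 2))
    simpa using h2
  · intro h0
    have h1 : ∀ᵐ x ∂(volume : Measure (Cfg d)), ‖k (zpt ψ x)‖ ^ 2 * ‖Φ (spt ψ x)‖ ^ 2 = 0 := by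
      have h2 : (hPm.toLp _ : Lp F 2 (volume : Measure (Cfg d))) =ᵐ[volume] 0 := by
        rw [h0]
        exact Lp.coeFn_zero F 2 volume
      filter_upwards [hP2, hPm.coeFn_toLp, h2] with x e1 e2 e3
      rw [← e1, ← e2, e3]
      simp
    have h3 : ∫ x : Cfg d, ‖k (zpt ψ x)‖ ^ 2 * ‖Φ (spt ψ x)‖ ^ 2 = 0 := integral_eq_zero_of_ae h1
    rw [fube_int ψ (fun y => ‖k y‖ ^ 2) (fun y => ‖Φ y‖ ^ 2)] at h3
    rcases mul_eq_zero.1 h3 with h4 | h4
    · exact hk0 (fube_lpz k h4)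
    · exact hΦ0 (fube_lpz Φ h4)

end Core

section Fin

variable {d1 d2 : ℕ} {F : Type*} [NormedAddCommGroup F] [InnerProductSpace ℂ F]

/-- the words generate -/
theorem fube_sur {Z : Type*} [NormedAddCommGroup Z] [InnerProductSpace ℂ Z] (SZ : Setup d2 Z) (hI : SZ.Irr) (k : Z)
    (hk : k ≠ 0) (z : Z) : ∃ X : FreeAlgebra ℂ (Fin 16 × Fin d2), SZ.rep X k = z := by
  let W : Submodule ℂ Z :=
    { carrier := {z | ∃ X : FreeAlgebra ℂ (Fin 16 × Fin d2), SZ.rep X k = z}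
      add_mem' := by
        rintro a b ⟨X, hX⟩ ⟨Y, hY⟩
        exact ⟨X + Y, by rw [map_add, _root_.add_apply, hX, hY]⟩
      zero_mem' := ⟨0, by rw [map_zero]; rfl⟩
      smul_mem' := by
        rintro r a ⟨X, hX⟩
        exact ⟨r • X, by rw [map_smul, _root_.smul_apply, hX]⟩ }
  have hW : ∀ α A, ∀ v ∈ W, SZ.th α A v ∈ W := by
    rintro α A v ⟨X, hX⟩
    refine ⟨FreeAlgebra.ι ℂ (α, A) * X, ?_⟩
    rw [map_mul, mul_apply_eq_comp, hX]
    simp [Setup.rep]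
  have hkW : k ∈ W := ⟨1, by rw [map_one]; rfl⟩
  rcases hI W hW with h | h
  · rw [h, Submodule.mem_bot] at hkW
    exact absurd hkW hk
  · have hz : z ∈ W := by
      rw [h]
      exact Submodule.mem_top
    exact hz

/-- the vacuum space of the second system is invariant under the first one -/
theorem fube_inv (S1 : Setup d1 F) (S2 : Setup d2 F)
    (ha : ∀ α A β B v, S1.th α A (S2.th β B v) = -S2.th β B (S1.th α A v)) (α : Fin 16) (A : Fin d1) :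
    ∀ v ∈ vca S2 ⊤, S1.th α A v ∈ vca S2 ⊤ := by
  intro v hv
  refine ⟨Submodule.mem_top, fun B β => ?_⟩
  have h1 : ∀ β B v, S2.th β B (S1.th α A v) = (-S1.th α A) (S2.th β B v) := by
    intro β B v
    change _ = -(S1.th α A (S2.th β B v))
    rw [ha, neg_neg]
  have h2 := fube_vec S2 S2 (S1.th α A) (-S1.th α A) h1 S2.Gam B β v
  have h3 := hv.2 B β
  unfold Setup.amF at h3 ⊢
  rw [_root_.sub_apply, _root_.smul_apply, h1, h2, ← map_smul, ← map_sub]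
  rw [_root_.sub_apply, _root_.smul_apply] at h3
  rw [h3, map_zero]

/-- approximants with values in an invariant subspace -/
theorem fube_apx (S1 : Setup d1 F) (V : Submodule ℂ F) (hV : ∀ α A, ∀ v ∈ V, S1.th α A v ∈ V)
    (k' : Lp V 2 (volume : Measure (Cfg d1))) (k : Lp F 2 (volume : Measure (Cfg d1)))
    (hk : k = V.subtypeL.compLpL 2 volume k') (u : ℕ → Cfg d1 → V) (hu : (S1.rst V hV).Apx k' u) :
    S1.Apx k (fun n y => (u n y : F)) := by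
  obtain ⟨hu1, hu2, hu3, hu4⟩ := hu
  have hud : ∀ n, Differentiable ℝ (u n) := fun n => (hu1 n).1.differentiable (by simp)
  have h0 : ∀ α A (v : V), S1.th α A (V.subtypeL v) = V.subtypeL ((S1.rst V hV).th α A v) := fun _ _ _ => rfl
  refine ⟨fun n => ⟨?_, ?_⟩, fun n C x => ?_, ?_, fun β => ?_⟩
  · exact (V.subtypeL.restrictScalars ℝ).contDiff.comp (hu1 n).1
  · exact (hu1 n).2.comp_left (g := fun v : V => (v : F)) rfl
  · have h1 : S1.G C (fun y => V.subtypeL (u n y)) x = V.subtypeL ((S1.rst V hV).G C (u n) x) :=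
      fube_G (S1.rst V hV) S1 rfl V.subtypeL V.subtypeL h0 h0 C (u n) x (hud n x)
    rw [hu2, map_zero] at h1
    exact h1
  · refine hu3.congr fun n => ?_
    refine integral_congr_ae ?_
    have h2 : k =ᵐ[volume] fun x => V.subtypeL (k' x) := by
      rw [hk]
      exact V.subtypeL.coeFn_compLpL k'
    filter_upwards [h2] with x hx
    rw [hx]
    rfl
  · refine (hu4 β).congr fun n => ?_
    refine integral_congr_ae (Eventually.of_forall fun x => ?_)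
    have h1 : S1.Q β (fun y => V.subtypeL (u n y)) x = V.subtypeL ((S1.rst V hV).Q β (u n) x) :=
      fube_Q (S1.rst V hV) S1 rfl rfl rfl V.subtypeL V.subtypeL h0 β (u n) x (hud n x)
    change ‖(S1.rst V hV).Q β (u n) x‖ ^ 2 = ‖S1.Q β (fun y => V.subtypeL (u n y)) x‖ ^ 2
    rw [h1]
    rfl

end Fin

/-- construction of the product map -/
theorem fube_mk {d1 d2 : ℕ} {F Z : Type*} [NormedAddCommGroup F] [InnerProductSpace ℂ F] [NormedAddCommGroup Z]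
    [InnerProductSpace ℂ Z] [FiniteDimensional ℂ Z] (S1 : Setup d1 F) (S2 : Setup d2 F) (SZ : Setup d2 Z)
    (hg : S2.g = SZ.g) (hf : S2.f = SZ.f) (hκ : S2.κ = SZ.κ)
    (ha : ∀ α A β B v, S1.th α A (S2.th β B v) = -S2.th β B (S1.th α A v)) (hI : SZ.Irr) (k : Z) (hk : ‖k‖ = 1)
    (V : Submodule ℂ F) (hW : ∀ v ∈ V, ∀ X, ‖S2.rep X v‖ * ‖k‖ = ‖SZ.rep X k‖ * ‖v‖) :
    ∃ T T' : Z →L[ℂ] F →L[ℂ] F, FubeT S1 S2 SZ V T T' := by
  have hk0 : k ≠ 0 := by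
    rintro rfl
    simp at hk
  choose w hw using fube_sur SZ hI k hk0
  choose X' hX1 hX2 using fun z => fube_par S1 S2 ha (w z)
  let b := Module.finBasis ℂ Z
  let T : Z →L[ℂ] F →L[ℂ] F := LinearMap.toContinuousLinearMap (b.constr ℂ fun j => S2.rep (w (b j)))
  let T' : Z →L[ℂ] F →L[ℂ] F := LinearMap.toContinuousLinearMap (b.constr ℂ fun j => X' (b j))
  have eT : ∀ z v, T z v = ∑ j, b.equivFun z j • S2.rep (w (b j)) v := by
    intro z v
    change (b.constr ℂ (fun j => S2.rep (w (b j))) z) v = _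
    rw [Module.Basis.constr_apply_fintype, _root_.sum_apply]
    rfl
  have eT' : ∀ z v, T' z v = ∑ j, b.equivFun z j • X' (b j) v := by
    intro z v
    change (b.constr ℂ (fun j => X' (b j)) z) v = _
    rw [Module.Basis.constr_apply_fintype, _root_.sum_apply]
    rfl
  have key : ∀ v ∈ V, ∀ (X : FreeAlgebra ℂ (Fin 16 × Fin d2)) (z : Z), SZ.rep X k = z → T z v = S2.rep X v := by
    intro v hv X z hz
    have hw2 := hW v hv ((∑ j, b.equivFun z j • w (b j)) - X)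
    have h1 : SZ.rep ((∑ j, b.equivFun z j • w (b j)) - X) k = 0 := by
      rw [map_sub, map_sum, _root_.sub_apply, _root_.sum_apply, hz]
      simp only [map_smul, _root_.smul_apply, hw]
      rw [b.sum_equivFun, sub_self]
    rw [h1, norm_zero, zero_mul, hk, mul_one, norm_eq_zero, map_sub, map_sum, _root_.sub_apply, _root_.sum_apply,
      sub_eq_zero] at hw2
    rw [← hw2, eT]
    simp only [map_smul, _root_.smul_apply]
  refine ⟨T, T', hg, hf, hκ, fun z α A v => ?_, fun z α A v => ?_, fun v hv α A z => ?_, fun v hv z => ?_⟩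
  · rw [eT, eT', map_sum]
    simp only [map_smul, hX1]
  · rw [eT, eT', map_sum]
    simp only [map_smul, hX2]
  · rw [key v hv (w z) z (hw z), key v hv (FreeAlgebra.ι ℂ (α, A) * w z) (SZ.th α A z)]
    · rw [map_mul, mul_apply_eq_comp]
      simp [Setup.rep]
    · rw [map_mul, mul_apply_eq_comp, hw]
      simp [Setup.rep]
  · rw [key v hv (w z) z (hw z)]
    have hw2 := hW v hv (w z)
    rw [hk, mul_one, hw] at hw2
    exact hw2

/-- **X2-FubE** -/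
theorem fube (hW : WickStmt.{u})
    (hZms : ∀ (d : ℕ) (F : Type u) [NormedAddCommGroup F] [InnerProductSpace ℂ F] (S : Setup d F), ZmsStmt S)
    (hRst : ∀ (d : ℕ) (F : Type u) [NormedAddCommGroup F] [InnerProductSpace ℂ F] (S : Setup d F), RstStmt S)
    (hZvc : ∀ (d1 d2 : ℕ) (F : Type u) [NormedAddCommGroup F] [InnerProductSpace ℂ F] (S1 : Setup d1 F)
      (S2 : Setup d2 F), ZvcStmt S1 S2) : FubEStmt.{u} := by
  intro d d1 d2 F _ _ hfin S S1 S2 ψ hI hne ds k1 k2 g1 g2 t1 t2 hZ hO hex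
  obtain ⟨Φ, ⟨c, hc⟩, hΦ0⟩ := hex
  have hD : FubeD ψ S S1 S2 := ⟨ds, k1, k2, g1, g2, t1, t2⟩
  obtain ⟨k, hk1, hkv, -⟩ := hO.vac
  have hk0 : k ≠ 0 := by
    rintro rfl
    simp at hk1
  have := hO.fin
  obtain ⟨T, T', hT⟩ := fube_mk S1 S2 (S2.lft (S1.zms ⊤) hZ) rfl rfl rfl hD.anti hO.irr k hk1 (vca S2 ⊤)
    fun v hv => (hW d2 F (S1.zms ⊤) S2 (S2.lft (S1.zms ⊤) hZ) rfl v k hv.2 hkv).2
  have hkz := (hZvc d1 d2 F S1 S2 (hZms d1 F S1) ⊤ hZ k).1 hkv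
  obtain ⟨hkm, hkV⟩ := (hZms d1 F S1 (vca S2 ⊤) k).1 hkz
  have hV : ∀ α A, ∀ v ∈ vca S2 ⊤, S1.th α A v ∈ vca S2 ⊤ := fube_inv S1 S2 hD.anti
  obtain ⟨R1, R2⟩ := hRst d1 F S1 hfin (vca S2 ⊤) hV
  obtain ⟨k', hk'⟩ := R2 k hkV
  rw [hk'] at hkm
  obtain ⟨u', hu'⟩ := (R1 k').2 hkm
  refine fube_core hD hT (k : Lp F 2 (volume : Measure (Cfg d1))) hkV ?_ (fun n y => (u' n y : F))
    (fube_apx S1 (vca S2 ⊤) hV k' k hk' u' hu') (fun n y => (u' n y).2) Φ hΦ0 c hc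
  intro h
  exact hk0 (Subtype.ext h)

end Vale.Agent.P353.Z.AX2
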