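import Vale.Agent.P353.AN.X2.Stmt
import Vale.Agent.P353.AN.D.Cmb
import Vale.Agent.P353.AN.D.SplitQ

/-! # P353, all `N`, block X2, X2-Fub, part A: splitting of coordinates and of the energy -/

open MeasureTheory Filter Topology Matrix
open scoped ContDiff

namespace Vale.Agent.P353.Z.AX2


variable {d d1 d2 : ℕ} {F : Type*} [NormedAddCommGroup F] [InnerProductSpace ℂ F]

/-- `S1` is the restriction of `S` to the first summand of `ψ` -/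
structure FuS (S : Setup d F) (S1 : Setup d1 F) (ψ : Spl d1 d2 d) : Prop where
  κ : S1.κ = S.κ
  g : S1.g = S.g
  th : ∀ α A, S1.th α A = S.th α (ψ (Sum.inl A))
  f : ∀ A B C, S.f (ψ (Sum.inl A)) (ψ (Sum.inl B)) (ψ (Sum.inl C)) = S1.f A B C
  m1 : ∀ A B C, S.f (ψ (Sum.inl A)) (ψ (Sum.inl B)) (ψ (Sum.inr C)) = 0
  m2 : ∀ A B C, S.f (ψ (Sum.inr A)) (ψ (Sum.inr B)) (ψ (Sum.inl C)) = 0

variable {S : Setup d F} {S1 : Setup d1 F} {S2 : Setup d2 F} {ψ : Spl d1 d2 d}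

lemma FuS.m3 (h : FuS S S1 ψ) (A : Fin d1) (B : Fin d2) (C : Fin d1) :
    S.f (ψ (Sum.inl A)) (ψ (Sum.inr B)) (ψ (Sum.inl C)) = 0 := by
  rw [S.f_cyc, S.f_cyc]
  exact h.m1 _ _ _

lemma FuS.m4 (h : FuS S S1 ψ) (A : Fin d1) (B C : Fin d2) :
    S.f (ψ (Sum.inl A)) (ψ (Sum.inr B)) (ψ (Sum.inr C)) = 0 := by
  rw [S.f_cyc]
  exact h.m2 _ _ _

lemma FuS.m5 (h : FuS S S1 ψ) (A : Fin d1) (B : Fin d2) (C : Fin d) :
    S.f (ψ (Sum.inl A)) (ψ (Sum.inr B)) C = 0 := by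
  obtain ⟨C, rfl⟩ := ψ.surjective C
  rcases C with C | C
  · exact h.m3 A B C
  · exact h.m4 A B C

lemma fu_cmb_sw (ψ : Spl d1 d2 d) (x1 : Cfg d1) (x2 : Cfg d2) : AD.cmb (spsw ψ) x2 x1 = AD.cmb ψ x1 x2 := by
  refine AD.cmb_ext ψ (fun i A => ?_) (fun i B => ?_)
  · exact (AD.cmb_inr (spsw ψ) x2 x1 i A).trans (AD.cmb_inl ψ x1 x2 i A).symm
  · exact (AD.cmb_inl (spsw ψ) x2 x1 i B).trans (AD.cmb_inr ψ x1 x2 i B).symm

lemma fu_sp_sw (ψ : Spl d1 d2 d) (x : Cfg d) : AD.sp (spsw ψ) x = AD.zp ψ x := rfl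

lemma fu_zp_sw (ψ : Spl d1 d2 d) (x : Cfg d) : AD.zp (spsw ψ) x = AD.sp ψ x := rfl

lemma fu_FF (h : FuS S S1 ψ) (A : Fin d1) (i j : Fin 9) (x1 : Cfg d1) (x2 : Cfg d2) :
    S.FF (ψ (Sum.inl A)) i j (AD.cmb ψ x1 x2) = S1.FF A i j x1 := by
  unfold Setup.FF
  rw [h.κ, AD.sq873_sum ψ]
  · refine congrArg _ (Finset.sum_congr rfl fun B _ => ?_)
    rw [AD.sq873_sum ψ]
    · refine Finset.sum_congr rfl fun C _ => ?_
      rw [h.f, AD.cmb_inl, AD.cmb_inl]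
    · intro C
      rw [h.m1, zero_mul, zero_mul]
  · intro B
    refine Finset.sum_eq_zero fun C _ => ?_
    rw [h.m5, zero_mul, zero_mul]

lemma fu_FF' (h : FuS S S2 (spsw ψ)) (A : Fin d2) (i j : Fin 9) (x1 : Cfg d1) (x2 : Cfg d2) :
    S.FF (ψ (Sum.inr A)) i j (AD.cmb ψ x1 x2) = S2.FF A i j x2 := by
  rw [← fu_cmb_sw ψ x1 x2]
  exact fu_FF h A i j x2 x1

lemma fu_V (h1 : FuS S S1 ψ) (h2 : FuS S S2 (spsw ψ)) (x1 : Cfg d1) (x2 : Cfg d2) :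
    S.V (AD.cmb ψ x1 x2) = S1.V x1 + S2.V x2 := by
  unfold Setup.V
  rw [AD.sq873_split ψ, mul_add]
  simp only [fu_FF h1, fu_FF' h2]

lemma fu_vec (h : FuS S S1 ψ) (N : Matrix (Fin 16) (Fin 16) ℂ) (A : Fin d1) (β : Fin 16) :
    S1.vec N A β = S.vec N (ψ (Sum.inl A)) β := by
  unfold CS.vec
  simp only [h.th]

lemma fu_bil (h : FuS S S1 ψ) (N : Matrix (Fin 16) (Fin 16) ℂ) (A B : Fin d1) :
    S1.bil N A B = S.bil N (ψ (Sum.inl A)) (ψ (Sum.inl B)) := by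
  unfold CS.bil
  simp only [h.th, fu_vec h]

lemma fu_FxA (h : FuS S S1 ψ) (q : Fin 9) (A : Fin d1) (x1 : Cfg d1) (x2 : Cfg d2) :
    (∑ B, ∑ C, ((S.f (ψ (Sum.inl A)) B C : ℂ) * (AD.cmb ψ x1 x2 (q, C) : ℂ)) • S.bil (S.g q) (ψ (Sum.inl A)) B) =
      ∑ B, ∑ C, ((S1.f A B C : ℂ) * (x1 (q, C) : ℂ)) • S1.bil (S1.g q) A B := by
  rw [AD.sq873_sum ψ]
  · refine Finset.sum_congr rfl fun B _ => ?_
    rw [AD.sq873_sum ψ]
    · refine Finset.sum_congr rfl fun C _ => ?_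
      rw [h.f, AD.cmb_inl, fu_bil h, h.g]
    · intro C
      rw [h.m1, Complex.ofReal_zero, zero_mul, zero_smul]
  · intro B
    refine Finset.sum_eq_zero fun C _ => ?_
    rw [h.m5, Complex.ofReal_zero, zero_mul, zero_smul]

lemma fu_Fx (h1 : FuS S S1 ψ) (h2 : FuS S S2 (spsw ψ)) (x1 : Cfg d1) (x2 : Cfg d2) :
    S.Fx (AD.cmb ψ x1 x2) = S1.Fx x1 + S2.Fx x2 := by
  have e2 : ∀ (q : Fin 9) (A : Fin d2),
      (∑ B, ∑ C, ((S.f (ψ (Sum.inr A)) B C : ℂ) * (AD.cmb ψ x1 x2 (q, C) : ℂ)) • S.bil (S.g q) (ψ (Sum.inr A)) B) =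
      ∑ B, ∑ C, ((S2.f A B C : ℂ) * (x2 (q, C) : ℂ)) • S2.bil (S2.g q) A B := by
    intro q A
    rw [← fu_cmb_sw ψ x1 x2]
    exact fu_FxA h2 q A x2 x1
  unfold Setup.Fx
  rw [h1.κ, h2.κ, ← smul_add, ← Finset.sum_add_distrib]
  congr 1
  refine Finset.sum_congr rfl fun q _ => ?_
  rw [AD.sq873_split ψ]
  simp only [fu_FxA h1, e2]

lemma fu_cS (h : FuS S S1 ψ) (C : Fin d1) : S.cS (ψ (Sum.inl C)) = S1.cS C := by
  unfold Setup.cS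
  congr 1
  rw [AD.sq873_sum ψ]
  · refine Finset.sum_congr rfl fun B _ => ?_
    rw [AD.sq873_sum ψ]
    · refine Finset.sum_congr rfl fun D _ => ?_
      rw [h.f, fu_bil h]
    · intro D
      rw [h.m1, Complex.ofReal_zero, zero_smul]
  · intro B
    refine Finset.sum_eq_zero fun D _ => ?_
    rw [h.m5, Complex.ofReal_zero, zero_smul]

lemma fu_G (h : FuS S S1 ψ) (C : Fin d1) {u : Cfg d → F} (hu : ContDiff ℝ ∞ u) (x1 : Cfg d1) (x2 : Cfg d2) :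
    S.G (ψ (Sum.inl C)) u (AD.cmb ψ x1 x2) = S1.G C (fun y => u (AD.cmb ψ y x2)) x1 := by
  unfold Setup.G
  rw [fu_cS h]
  congr 2
  refine Finset.sum_congr rfl fun i _ => ?_
  rw [AD.sq873_sum ψ]
  · refine Finset.sum_congr rfl fun A _ => ?_
    rw [AD.sq873_sum ψ]
    · refine Finset.sum_congr rfl fun B _ => ?_
      rw [h.f, AD.cmb_inl, AD.sq873_pd ψ hu]
    · intro B
      rw [h.m1, Complex.ofReal_zero, zero_mul, zero_smul]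
  · intro A
    refine Finset.sum_eq_zero fun B _ => ?_
    rw [h.m5, Complex.ofReal_zero, zero_mul, zero_smul]

lemma fu_G' (h : FuS S S2 (spsw ψ)) (C : Fin d2) {u : Cfg d → F} (hu : ContDiff ℝ ∞ u) (x1 : Cfg d1)
    (x2 : Cfg d2) : S.G (ψ (Sum.inr C)) u (AD.cmb ψ x1 x2) = S2.G C (fun y => u (AD.cmb ψ x1 y)) x2 := by
  have h1 := fu_G h C hu x2 x1
  simp only [fu_cmb_sw] at h1
  exact h1

/-! ### product integrals -/

/-- the coordinates as a continuous linear map -/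
noncomputable def fuE (ψ : Spl d1 d2 d) : Cfg d1 × Cfg d2 →L[ℝ] Cfg d :=
  (AD.sq873_inc ψ).coprod (AD.sq873_inc (spsw ψ))

lemma fuE_apply (ψ : Spl d1 d2 d) (p : Cfg d1 × Cfg d2) : fuE ψ p = AD.cmb ψ p.1 p.2 := by
  rw [AD.sq873_cmb_eq ψ p.2 p.1, ← fu_cmb_sw ψ 0 p.2]
  rfl

lemma fu_contDiff (ψ : Spl d1 d2 d) : ContDiff ℝ ∞ (fun p : Cfg d1 × Cfg d2 => AD.cmb ψ p.1 p.2) := by
  have : (fun p : Cfg d1 × Cfg d2 => AD.cmb ψ p.1 p.2) = fuE ψ := funext fun p => (fuE_apply ψ p).symm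
  rw [this]
  exact (fuE ψ).contDiff

lemma fu_continuous (ψ : Spl d1 d2 d) : Continuous (fun p : Cfg d1 × Cfg d2 => AD.cmb ψ p.1 p.2) :=
  (fu_contDiff ψ).continuous

lemma fu_inj (ψ : Spl d1 d2 d) : Function.Injective (fun p : Cfg d1 × Cfg d2 => AD.cmb ψ p.1 p.2) := by
  intro p q h
  have h1 : AD.sp ψ (AD.cmb ψ p.1 p.2) = AD.sp ψ (AD.cmb ψ q.1 q.2) := congrArg (AD.sp ψ) h
  have h2 : AD.zp ψ (AD.cmb ψ p.1 p.2) = AD.zp ψ (AD.cmb ψ q.1 q.2) := congrArg (AD.zp ψ) h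
  rw [AD.sq873_sp, AD.sq873_sp] at h1
  rw [AD.sq873_zp, AD.sq873_zp] at h2
  exact Prod.ext h1 h2

lemma fu_me (ψ : Spl d1 d2 d) : MeasurableEmbedding (fun p : Cfg d1 × Cfg d2 => AD.cmb ψ p.1 p.2) :=
  (fu_continuous ψ).measurableEmbedding (fu_inj ψ)

section int

variable {G : Type*} [NormedAddCommGroup G]

lemma fu_intg (ψ : Spl d1 d2 d) {h : Cfg d → G} (hh : Integrable h) :
    Integrable (fun p : Cfg d1 × Cfg d2 => h (AD.cmb ψ p.1 p.2)) (volume.prod volume) :=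
  ((AD.cmb_mp ψ).integrable_comp_emb (fu_me ψ)).2 hh

variable [NormedSpace ℝ G]

lemma fu_int1 (ψ : Spl d1 d2 d) {h : Cfg d → G} (hh : Integrable h) :
    ∫ x, h x = ∫ x2, ∫ x1, h (AD.cmb ψ x1 x2) := by
  rw [← (AD.cmb_mp ψ).integral_comp (fu_me ψ), integral_prod_symm _ (fu_intg ψ hh)]

lemma fu_intr (ψ : Spl d1 d2 d) {h : Cfg d → G} (hh : Integrable h) :
    Integrable (fun x2 => ∫ x1, h (AD.cmb ψ x1 x2)) := (fu_intg ψ hh).integral_prod_right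

end int

/-! ### the supercharge of the first summand -/

/-- the supercharge of the first summand on functions on `Cfg d` -/
noncomputable def fuQ (S1 : Setup d1 F) (ψ : Spl d1 d2 d) (β : Fin 16) (u : Cfg d → F) (x : Cfg d) : F :=
  S1.Q β (fun y => u (AD.cmb ψ y (AD.zp ψ x))) (AD.sp ψ x)

lemma fuQ_cmb (S1 : Setup d1 F) (ψ : Spl d1 d2 d) (β : Fin 16) (u : Cfg d → F) (x1 : Cfg d1) (x2 : Cfg d2) :
    fuQ S1 ψ β u (AD.cmb ψ x1 x2) = S1.Q β (fun y => u (AD.cmb ψ y x2)) x1 := by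
  unfold fuQ
  rw [AD.sq873_sp, AD.sq873_zp]

lemma fuQ_eq (S1 : Setup d1 F) (ψ : Spl d1 d2 d) (β : Fin 16) {u : Cfg d → F} (hu : ContDiff ℝ ∞ u) (x : Cfg d) :
    fuQ S1 ψ β u x = (-Complex.I) • ∑ i, ∑ A, S1.vec (S1.g i) A β (pd i (ψ (Sum.inl A)) u x) +
      S1.W β (AD.sp ψ x) (u x) := by
  unfold fuQ Setup.Q
  simp only [AD.sq873_pd ψ hu, AD.sq873_cmb]

lemma fu_contDiff_sp (ψ : Spl d1 d2 d) : ContDiff ℝ ∞ (AD.sp ψ : Cfg d → Cfg d1) := by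
  rw [contDiff_euclidean]
  intro p
  exact Setup.contDiff_coord (p.1, ψ (Sum.inl p.2))

lemma fuQ_tst (S1 : Setup d1 F) (ψ : Spl d1 d2 d) (β : Fin 16) {u : Cfg d → F} (hu : Setup.Tst u) :
    Setup.Tst (fuQ S1 ψ β u) := by
  have h1 : fuQ S1 ψ β u = fun x => (-Complex.I) • ∑ i, ∑ A, S1.vec (S1.g i) A β (pd i (ψ (Sum.inl A)) u x) +
      S1.W β (AD.sp ψ x) (u x) := funext fun x => fuQ_eq S1 ψ β hu.1 x
  constructor
  · rw [h1]
    refine ContDiff.add (ContDiff.const_smul _ (ContDiff.sum fun i _ => ContDiff.sum fun A _ => ?_)) ?_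
    · exact Setup.contDiff_clm_apply' contDiff_const (contDiff_pd hu.1)
    · exact Setup.contDiff_clm_apply' ((S1.contDiff_W β).comp (fu_contDiff_sp ψ)) hu.1
  · refine HasCompactSupport.intro' hu.2.isCompact (isClosed_tsupport u) fun x hx => ?_
    have hp0 : fderiv ℝ u x = 0 := by
      by_contra h
      exact hx (support_fderiv_subset ℝ h)
    have hp : ∀ i A, pd i A u x = 0 := by
      intro i A
      unfold pd
      rw [hp0]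
      rfl
    rw [h1]
    simp only [hp, map_zero, Finset.sum_const_zero, smul_zero, zero_add]
    rw [image_eq_zero_of_notMem_tsupport hx, map_zero]

/-! ### slices -/

lemma fu_sl (ψ : Spl d1 d2 d) {u : Cfg d → F} (hu : Setup.Tst u) (x2 : Cfg d2) :
    Setup.Tst (fun y : Cfg d1 => u (AD.cmb ψ y x2)) := by
  refine ⟨hu.1.comp (AD.sq873_contDiff ψ x2), ?_⟩
  refine HasCompactSupport.intro (K := AD.sp ψ '' tsupport u)
    (hu.2.isCompact.image (fu_contDiff_sp (d1 := d1) (d2 := d2) ψ).continuous) fun y hy => ?_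
  refine image_eq_zero_of_notMem_tsupport fun h => hy ⟨_, h, ?_⟩
  rw [AD.sq873_sp]

lemma fu_sl' (ψ : Spl d1 d2 d) {u : Cfg d → F} (hu : Setup.Tst u) (x1 : Cfg d1) :
    Setup.Tst (fun y : Cfg d2 => u (AD.cmb ψ x1 y)) := by
  have h := fu_sl (spsw ψ) hu x1
  simp only [fu_cmb_sw] at h
  exact h

/-! ### the energy -/

/-- one half of the energy -/
lemma fu_half (S1 : Setup d1 F) (ψ : Spl d1 d2 d) {u : Cfg d → F} (hu : Setup.Tst u) :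
    (1 / 16 : ℝ) * ∑ β, ∫ x, ‖fuQ S1 ψ β u x‖ ^ 2 =
      (1 / 2) * (∑ i, ∑ A, ∫ x, ‖pd i (ψ (Sum.inl A)) u x‖ ^ 2) + (∫ x, S1.V (AD.sp ψ x) * ‖u x‖ ^ 2)
        + (∫ x, (inner ℂ (u x) (S1.Fx (AD.sp ψ x) (u x))).re) := by
  have hsp := fu_contDiff_sp (d1 := d1) (d2 := d2) ψ
  have i1 : ∀ β, Integrable (fun x => ‖fuQ S1 ψ β u x‖ ^ 2) := fun β => (fuQ_tst S1 ψ β hu).norm_sq_int
  have i2 : ∀ i A, Integrable (fun x => ‖pd i (ψ (Sum.inl A)) u x‖ ^ 2) := fun i A =>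
    (hu.pd i _).norm_sq_int
  have i3 : Integrable (fun x => S1.V (AD.sp ψ x) * ‖u x‖ ^ 2) :=
    hu.mul_norm_sq_int ((contDiff_V S1).comp hsp).continuous
  have hF : Setup.Tst (fun x => S1.Fx (AD.sp ψ x) (u x)) := hu.clm ((contDiff_Fx S1).comp hsp)
  have i4 : Integrable (fun x => (inner ℂ (u x) (S1.Fx (AD.sp ψ x) (u x))).re) :=
    (hu.inner_int hF.1.continuous).re
  have e : ∀ x2 : Cfg d2, (1 / 16 : ℝ) * ∑ β, ∫ x1, ‖fuQ S1 ψ β u (AD.cmb ψ x1 x2)‖ ^ 2 =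
      (1 / 2) * (∑ i, ∑ A, ∫ x1, ‖pd i (ψ (Sum.inl A)) u (AD.cmb ψ x1 x2)‖ ^ 2) +
        (∫ x1, S1.V (AD.sp ψ (AD.cmb ψ x1 x2)) * ‖u (AD.cmb ψ x1 x2)‖ ^ 2) +
        (∫ x1, (inner ℂ (u (AD.cmb ψ x1 x2)) (S1.Fx (AD.sp ψ (AD.cmb ψ x1 x2)) (u (AD.cmb ψ x1 x2)))).re) := by
    intro x2
    have := energy_formula S1 _ (fu_sl ψ hu x2)
    simp only [fuQ_cmb, AD.sq873_sp]
    rw [this]
    simp only [AD.sq873_pd ψ hu.1]
  rw [fu_int1 ψ i3, fu_int1 ψ i4]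
  have e1 : ∀ β, ∫ x, ‖fuQ S1 ψ β u x‖ ^ 2 = ∫ x2, ∫ x1, ‖fuQ S1 ψ β u (AD.cmb ψ x1 x2)‖ ^ 2 :=
    fun β => fu_int1 ψ (i1 β)
  have e2 : ∀ i A, ∫ x, ‖pd i (ψ (Sum.inl A)) u x‖ ^ 2 =
      ∫ x2, ∫ x1, ‖pd i (ψ (Sum.inl A)) u (AD.cmb ψ x1 x2)‖ ^ 2 := fun i A => fu_int1 ψ (i2 i A)
  simp only [e1, e2]
  have j2 : ∀ i : Fin 9, Integrable (fun x2 : Cfg d2 => ∑ A, ∫ x1, ‖pd i (ψ (Sum.inl A)) u (AD.cmb ψ x1 x2)‖ ^ 2) :=
    fun i => integrable_finsetSum _ fun A _ => fu_intr ψ (i2 i A)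
  rw [← integral_finsetSum _ fun β _ => fu_intr ψ (i1 β), ← integral_const_mul]
  simp only [← integral_finsetSum _ fun A _ => fu_intr ψ (i2 _ A)]
  rw [← integral_finsetSum _ fun i _ => j2 i, ← integral_const_mul, ← integral_add, ← integral_add]
  · exact integral_congr_ae (Eventually.of_forall e)
  · exact ((integrable_finsetSum _ fun i _ => j2 i).const_mul _).add (fu_intr ψ i3)
  · exact fu_intr ψ i4
  · exact (integrable_finsetSum _ fun i _ => j2 i).const_mul _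
  · exact fu_intr ψ i3

/-- the energy splits -/
theorem fu_energy (h1 : FuS S S1 ψ) (h2 : FuS S S2 (spsw ψ)) {u : Cfg d → F} (hu : Setup.Tst u) :
    ∑ β, ∫ x, ‖S.Q β u x‖ ^ 2 =
      (∑ β, ∫ x, ‖fuQ S1 ψ β u x‖ ^ 2) + ∑ β, ∫ x, ‖fuQ S2 (spsw ψ) β u x‖ ^ 2 := by
  have a := energy_formula S u hu
  have b := fu_half S1 ψ hu
  have c := fu_half S2 (spsw ψ) hu
  have hsp := fu_contDiff_sp (d1 := d1) (d2 := d2) ψ
  have hzp := fu_contDiff_sp (d1 := d2) (d2 := d1) (spsw ψ)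
  have e1 : ∑ i, ∑ A, ∫ x, ‖pd i A u x‖ ^ 2 = (∑ i, ∑ A, ∫ x, ‖pd i (ψ (Sum.inl A)) u x‖ ^ 2) +
      ∑ i, ∑ A, ∫ x, ‖pd i (spsw ψ (Sum.inl A)) u x‖ ^ 2 := by
    rw [← Finset.sum_add_distrib]
    refine Finset.sum_congr rfl fun i _ => ?_
    rw [AD.sq873_split ψ]
    rfl
  have hx : ∀ x : Cfg d, x = AD.cmb ψ (AD.sp ψ x) (AD.zp ψ x) := fun x => (AD.sq873_cmb ψ x).symm
  have eV : ∀ x : Cfg d, S.V x = S1.V (AD.sp ψ x) + S2.V (AD.sp (spsw ψ) x) := by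
    intro x
    conv_lhs => rw [hx x]
    exact fu_V h1 h2 _ _
  have eF : ∀ x : Cfg d, S.Fx x = S1.Fx (AD.sp ψ x) + S2.Fx (AD.sp (spsw ψ) x) := by
    intro x
    conv_lhs => rw [hx x]
    exact fu_Fx h1 h2 _ _
  have e2 : ∫ x, S.V x * ‖u x‖ ^ 2 = (∫ x, S1.V (AD.sp ψ x) * ‖u x‖ ^ 2) +
      ∫ x, S2.V (AD.sp (spsw ψ) x) * ‖u x‖ ^ 2 := by
    have q1 : Integrable (fun x => S1.V (AD.sp ψ x) * ‖u x‖ ^ 2) :=
      hu.mul_norm_sq_int ((contDiff_V S1).comp hsp).continuous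
    have q2 : Integrable (fun x => S2.V (AD.sp (spsw ψ) x) * ‖u x‖ ^ 2) :=
      hu.mul_norm_sq_int ((contDiff_V S2).comp hzp).continuous
    rw [← integral_add q1 q2]
    refine integral_congr_ae (Eventually.of_forall fun x => ?_)
    simp only [eV, add_mul]
  have hF1 : Setup.Tst (fun x => S1.Fx (AD.sp ψ x) (u x)) := hu.clm ((contDiff_Fx S1).comp hsp)
  have hF2 : Setup.Tst (fun x => S2.Fx (AD.sp (spsw ψ) x) (u x)) := hu.clm ((contDiff_Fx S2).comp hzp)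
  have e3 : ∫ x, (inner ℂ (u x) (S.Fx x (u x))).re = (∫ x, (inner ℂ (u x) (S1.Fx (AD.sp ψ x) (u x))).re) +
      ∫ x, (inner ℂ (u x) (S2.Fx (AD.sp (spsw ψ) x) (u x))).re := by
    have q1 : Integrable (fun x => (inner ℂ (u x) (S1.Fx (AD.sp ψ x) (u x))).re) :=
      (hu.inner_int hF1.1.continuous).re
    have q2 : Integrable (fun x => (inner ℂ (u x) (S2.Fx (AD.sp (spsw ψ) x) (u x))).re) :=
      (hu.inner_int hF2.1.continuous).re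
    rw [← integral_add q1 q2]
    refine integral_congr_ae (Eventually.of_forall fun x => ?_)
    simp only [eF, _root_.add_apply, inner_add_right, Complex.add_re]
  rw [e1, e2, e3] at a
  linarith

end Vale.Agent.P353.Z.AX2
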