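import Vale.Agent.P353.AN.X2.Stmt

/-! # P353, all `N`, block X2: direct sums -/

open MeasureTheory Filter Topology Matrix
open scoped ContDiff

namespace Vale.Agent.P353.Z.AX2

universe u

/-- irreducibility of the restriction -/
theorem pz775_irr {d : ℕ} {F : Type u} [NormedAddCommGroup F] [InnerProductSpace ℂ F] (S : Setup d F) (V : Submodule ℂ F)
    (h : IrrOn S V) : (S.rst V h.inv).Irr := by
  intro W hW
  have h1 : W.map V.subtype ≤ V := by
    rintro _ ⟨v, -, rfl⟩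
    exact v.2
  have h2 : ∀ α A, ∀ v ∈ W.map V.subtype, S.th α A v ∈ W.map V.subtype := by
    rintro α A _ ⟨v, hv, rfl⟩
    exact ⟨(S.rst V h.inv).th α A v, hW α A v hv, rfl⟩
  rcases h.irr _ h1 h2 with h3 | h3
  · left
    rw [eq_bot_iff]
    intro v hv
    have h4 : (v : F) ∈ W.map V.subtype := ⟨v, hv, rfl⟩
    rw [h3, Submodule.mem_bot] at h4
    exact Subtype.ext h4
  · right
    rw [eq_top_iff]
    intro v _
    have h4 : (v : F) ∈ W.map V.subtype := by rw [h3]; exact v.2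
    obtain ⟨w, hw, hwv⟩ := h4
    have : w = v := Subtype.ext hwv
    rwa [← this]

theorem prod_stmt
    (hVI : ∀ (d1 d2 : ℕ) (F : Type u) [NormedAddCommGroup F] [InnerProductSpace ℂ F] (S1 : Setup d1 F) (S2 : Setup d2 F),
      VcaIrrStmt S1 S2)
    (hZI : ∀ (d1 d2 : ℕ) (F : Type u) [NormedAddCommGroup F] [InnerProductSpace ℂ F] (S1 : Setup d1 F) (S2 : Setup d2 F),
      ZInvStmt S1 S2)
    (hZr : ∀ (d1 d2 : ℕ) (F : Type u) [NormedAddCommGroup F] [InnerProductSpace ℂ F] (S1 : Setup d1 F) (S2 : Setup d2 F),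
      ZirrStmt S1 S2) : FubStmt.{u} → ProdStmt.{u} := by
  intro hF d d1 d2 κ f f1 f2 ψ hD h1 h2 E _ _ hE S hf hκ hIrr hne
  have hs1 : S.IsSub ψ := by
    intro A B C
    rw [hf]
    exact hD.m1 A B C
  have hs2 : S.IsSub (spsw ψ) := by
    intro A B C
    rw [hf]
    exact hD.m2 A B C
  have f1' : (S.sub ψ hs1).f = f1 := by
    funext A B C
    change S.f _ _ _ = _
    rw [hf]
    exact hD.e1 A B C
  have f2' : (S.sub (spsw ψ) hs2).f = f2 := by
    funext A B C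
    change S.f _ _ _ = _
    rw [hf]
    exact hD.e2 A B C
  have hAnt : Ant (S.sub ψ hs1) (S.sub (spsw ψ) hs2) := by
    refine ⟨rfl, fun α A β B => ?_⟩
    have h := S.th_anti α (ψ (Sum.inl A)) β (ψ (Sum.inr B))
    have hne' : ¬(α = β ∧ ψ (Sum.inl A) = ψ (Sum.inr B)) := by
      rintro ⟨-, h⟩
      exact absurd (ψ.injective h) (by simp)
    rw [if_neg hne'] at h
    exact h
  obtain ⟨v₀, hv₀⟩ := hne
  have hI2 : IrrOn2 (S.sub ψ hs1) (S.sub (spsw ψ) hs2) (⊤ : Submodule ℂ E) := by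
    refine ⟨fun _ _ _ _ => Submodule.mem_top, fun _ _ _ _ => Submodule.mem_top, ?_, ?_⟩
    · intro h
      have : v₀ ∈ (⊤ : Submodule ℂ E) := Submodule.mem_top
      rw [h, Submodule.mem_bot] at this
      exact hv₀ this
    · intro W _ hW1 hW2
      refine hIrr W fun α A v hv => ?_
      obtain ⟨p, rfl⟩ := ψ.surjective A
      rcases p with a | b
      · exact hW1 α a v hv
      · exact hW2 α b v hv
  obtain ⟨hIrrV, -⟩ := hVI d1 d2 E (S.sub ψ hs1) (S.sub (spsw ψ) hs2) hE hAnt ⊤ hI2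
  have hOne : OneD ((S.sub ψ hs1).rst (vca (S.sub (spsw ψ) hs2) ⊤) hIrrV.inv) := by
    refine h1 (vca (S.sub (spsw ψ) hs2) ⊤) inferInstance _ f1' hκ (pz775_irr _ _ hIrrV) ?_
    obtain ⟨v, hv, hv0⟩ := (Submodule.ne_bot_iff _).1 hIrrV.ne
    exact ⟨⟨v, hv⟩, fun h => hv0 (congrArg Subtype.val h)⟩
  have hZ := hZI d1 d2 E (S.sub ψ hs1) (S.sub (spsw ψ) hs2) hAnt ⊤ (fun _ _ _ _ => Submodule.mem_top)
  have hOut := hZr d1 d2 E (S.sub ψ hs1) (S.sub (spsw ψ) hs2) hE hAnt ⊤ hI2 hIrrV.inv hOne hZ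
  have hOne2 : OneD ((S.sub (spsw ψ) hs2).lft ((S.sub ψ hs1).zms ⊤) hZ) := by
    refine h2 ((S.sub ψ hs1).zms ⊤) hOut.fin _ f2' hκ hOut.irr ?_
    obtain ⟨k, hk, -⟩ := hOut.vac
    refine ⟨k, fun h => ?_⟩
    rw [h, norm_zero] at hk
    exact zero_ne_one hk
  refine hF d d1 d2 E hE S (S.sub ψ hs1) (S.sub (spsw ψ) hs2) ψ hIrr ⟨v₀, hv₀⟩ ?_ rfl rfl rfl rfl (fun _ _ => rfl)
    (fun _ _ => rfl) hZ hOut hOne2
  rw [f1', f2', hf]
  exact hD

end Vale.Agent.P353.Z.AX2
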