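import Vale.Agent.P353.AN.X2.FubD

/-! # P353, all `N`, block X2, X2-Fub, part F: the projected test functions and the lifted system -/

open MeasureTheory Filter Topology Matrix
open scoped ContDiff

namespace Vale.Agent.P353.Z.AX2

variable {d d1 d2 : ℕ} {F : Type*} [NormedAddCommGroup F] [InnerProductSpace ℂ F]

section

variable (Z : Submodule ℂ (Lp F 2 (volume : Measure (Cfg d1)))) [FiniteDimensional ℂ Z] (ψ : Spl d1 d2 d)

/-- the operator `T` on values corresponds to the operator `L` on `Z` -/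
def FfC (T : F →L[ℂ] F) (L : Z →L[ℂ] Z) : Prop :=
  ∀ (u : Cfg d → F), Setup.Tst u → ∀ x2, fdc Z ψ (fun x => T (u x)) x2 = L (fdc Z ψ u x2)

variable {Z} {ψ} {T T' : F →L[ℂ] F} {L L' : Z →L[ℂ] Z} {u : Cfg d → F}

lemma ff_tst (hu : Setup.Tst u) : Setup.Tst (fun x => T (u x)) := hu.clm (T := fun _ => T) contDiff_const

lemma FfC.add (h : FfC Z ψ T L) (h' : FfC Z ψ T' L') : FfC Z ψ (T + T') (L + L') := by
  intro u hu x2
  rw [_root_.add_apply, ← h u hu, ← h' u hu, ← fdc_add Z ψ (ff_tst hu) (ff_tst hu)]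
  rfl

lemma FfC.smul (h : FfC Z ψ T L) (c : ℂ) : FfC Z ψ (c • T) (c • L) := by
  intro u hu x2
  rw [_root_.smul_apply, ← h u hu, ← fdc_smul]
  rfl

lemma FfC.mul (h : FfC Z ψ T L) (h' : FfC Z ψ T' L') : FfC Z ψ (T * T') (L * L') := by
  intro u hu x2
  have e1 : (L * L') (fdc Z ψ u x2) = L (L' (fdc Z ψ u x2)) := rfl
  rw [e1, ← h' u hu, ← h _ (ff_tst hu)]
  rfl

lemma FfC.zero : FfC Z ψ (0 : F →L[ℂ] F) (0 : Z →L[ℂ] Z) := by
  intro u hu x2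
  exact fdc_zero Z ψ x2

lemma FfC.sum {ι : Type*} (s : Finset ι) {T : ι → F →L[ℂ] F} {L : ι → Z →L[ℂ] Z} (h : ∀ i ∈ s, FfC Z ψ (T i) (L i)) :
    FfC Z ψ (∑ i ∈ s, T i) (∑ i ∈ s, L i) := by
  classical
  induction s using Finset.induction_on with
  | empty => simpa using FfC.zero
  | insert i s hi ih =>
    rw [Finset.sum_insert hi, Finset.sum_insert hi]
    exact (h i (Finset.mem_insert_self _ _)).add (ih fun j hj => h j (Finset.mem_insert_of_mem hj))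

/-- self-adjoint operators which preserve `Z` -/
lemma ff_opR (hT : ∀ v w : F, inner ℂ (T v) w = inner ℂ v (T w)) (hZ : ∀ z ∈ Z, Setup.pwa d1 T z ∈ Z) :
    FfC Z ψ T (opR Z (Setup.pwa d1 T) hZ) := by
  intro u hu x2
  refine ext_inner_left ℂ fun z => ?_
  have h1 := (fu_sl ψ hu x2).memLp
  have h2 : MemLp (fun x1 => T (u (AD.cmb ψ x1 x2))) 2 (volume : Measure (Cfg d1)) :=
    (fu_sl ψ (ff_tst (T := T) hu) x2).memLp
  rw [fdc_inner Z ψ (u := fun x => T (u x)) h2]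
  -- symmetry on `Z`
  have hsym : ∀ a b : Z, inner ℂ a (opR Z (Setup.pwa d1 T) hZ b) = inner ℂ (opR Z (Setup.pwa d1 T) hZ a) b := by
    intro a b
    change inner ℂ (a : Lp F 2 (volume : Measure (Cfg d1))) (Setup.pwa d1 T (b : Lp F 2 (volume : Measure (Cfg d1)))) =
      inner ℂ (Setup.pwa d1 T (a : Lp F 2 (volume : Measure (Cfg d1)))) (b : Lp F 2 (volume : Measure (Cfg d1)))
    rw [MeasureTheory.L2.inner_def, MeasureTheory.L2.inner_def]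
    refine integral_congr_ae ?_
    filter_upwards [Setup.pwa_ae T (a : Lp F 2 (volume : Measure (Cfg d1))),
      Setup.pwa_ae T (b : Lp F 2 (volume : Measure (Cfg d1)))] with x e1 e2
    rw [e1, e2, hT]
  rw [hsym, fdc_inner Z ψ h1]
  refine integral_congr_ae ?_
  filter_upwards [Setup.pwa_ae T (z : Lp F 2 (volume : Measure (Cfg d1)))] with x e1
  have e2 : ((opR Z (Setup.pwa d1 T) hZ z : Z) : Lp F 2 (volume : Measure (Cfg d1))) =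
    Setup.pwa d1 T (z : Lp F 2 (volume : Measure (Cfg d1))) := rfl
  rw [e2, e1, hT]

variable {S2 : Setup d2 F} (hZ : ∀ α A, ∀ Ψ ∈ Z, Setup.pwa d1 (S2.th α A) Ψ ∈ Z)

lemma ff_th (α : Fin 16) (A : Fin d2) : FfC Z ψ (S2.th α A) ((S2.lft Z hZ).th α A) :=
  ff_opR (S2.th_sa α A) (hZ α A)

lemma ff_vec (N : Matrix (Fin 16) (Fin 16) ℂ) (A : Fin d2) (β : Fin 16) :
    FfC Z ψ (S2.vec N A β) ((S2.lft Z hZ).vec N A β) := by
  unfold CS.vec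
  exact FfC.sum _ fun γ _ => (ff_th hZ γ A).smul _

lemma ff_bil (N : Matrix (Fin 16) (Fin 16) ℂ) (A B : Fin d2) :
    FfC Z ψ (S2.bil N A B) ((S2.lft Z hZ).bil N A B) := by
  unfold CS.bil
  exact FfC.sum _ fun γ _ => (ff_th hZ γ A).mul (ff_vec hZ N B γ)

lemma ff_cS (C : Fin d2) : FfC Z ψ (S2.cS C) ((S2.lft Z hZ).cS C) := by
  unfold Setup.cS
  exact (FfC.sum _ fun D _ => FfC.sum _ fun E _ => (ff_bil hZ _ D E).smul _).smul _

lemma ff_W (β : Fin 16) (y : Cfg d2) : FfC Z ψ (S2.W β y) ((S2.lft Z hZ).W β y) := by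
  unfold Setup.W
  exact (FfC.sum _ fun A _ => FfC.sum _ fun i _ => FfC.sum _ fun j _ => (ff_vec hZ _ A β).smul _).smul _

lemma ff_Qe1 (β : Fin 16) (hu : Setup.Tst u) (x2 : Cfg d2) :
    fdc Z ψ (fuQ S2 (spsw ψ) β u) x2 = fdc Z ψ (fun x => (-Complex.I) • (∑ i, ∑ A,
      S2.vec (S2.g i) A β (pd i (ψ (Sum.inr A)) u x)) + S2.W β x2 (u x)) x2 := by
  refine fdc_congr Z ψ fun x1 => ?_
  rw [fuQ_eq S2 (spsw ψ) β hu.1]
  have h1 : AD.sp (spsw ψ) (AD.cmb ψ x1 x2) = x2 := AD.sq873_zp ψ x1 x2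
  rw [h1]
  rfl

omit [FiniteDimensional ℂ Z] in
lemma ff_Qe2 (β : Fin 16) (w : Cfg d2 → Z) (x2 : Cfg d2) : (S2.lft Z hZ).Q β w x2 = (-Complex.I) • (∑ i, ∑ A,
      (S2.lft Z hZ).vec (S2.g i) A β (pd i A w x2)) + (S2.lft Z hZ).W β x2 (w x2) := rfl

lemma ff_Qe3a (β : Fin 16) (hu : Setup.Tst u) (x2 : Cfg d2) (i : Fin 9) (A : Fin d2) :
    (S2.lft Z hZ).vec (S2.g i) A β (pd i A (fdc Z ψ u) x2) = (S2.lft Z hZ).vec (S2.g i) A β (fdc Z ψ (pd i (ψ (Sum.inr A)) u) x2) :=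
  congrArg _ (fdc_pd Z ψ hu i A x2)

lemma ff_Qe3b (M : Matrix (Fin 16) (Fin 16) ℂ) (β : Fin 16) (w : Cfg d → F) (hw : Setup.Tst w) (x2 : Cfg d2) (A : Fin d2) :
    fdc Z ψ (fun x => S2.vec M A β (w x)) x2 =
      (S2.lft Z hZ).vec M A β (fdc Z ψ w x2) := 
  ff_vec hZ M A β w hw x2


lemma ff_Qe3c (β : Fin 16) (hu : Setup.Tst u) (x2 : Cfg d2) (i : Fin 9) (A : Fin d2) :
    fdc Z ψ (fun x => S2.vec (S2.g i) A β (pd i (ψ (Sum.inr A)) u x)) x2 =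
      (S2.lft Z hZ).vec (S2.g i) A β (fdc Z ψ (pd i (ψ (Sum.inr A)) u) x2) :=
  ff_Qe3b hZ (S2.g i) β (pd i (ψ (Sum.inr A)) u) (hu.pd i (ψ (Sum.inr A))) x2 A

lemma ff_Qe3 (β : Fin 16) (hu : Setup.Tst u) (x2 : Cfg d2) (i : Fin 9) (A : Fin d2) :
    fdc Z ψ (fun x => S2.vec (S2.g i) A β (pd i (ψ (Sum.inr A)) u x)) x2 =
      (S2.lft Z hZ).vec (S2.g i) A β (pd i A (fdc Z ψ u) x2) :=
  (ff_Qe3c hZ β hu x2 i A).trans (ff_Qe3a hZ β hu x2 i A).symm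

lemma ff_Qe4 (β : Fin 16) (hu : Setup.Tst u) (x2 : Cfg d2) :
    fdc Z ψ (fun x => (-Complex.I) • (∑ i, ∑ A,
      S2.vec (S2.g i) A β (pd i (ψ (Sum.inr A)) u x)) + S2.W β x2 (u x)) x2 = (-Complex.I) • (∑ i, ∑ A,
      fdc Z ψ (fun x => S2.vec (S2.g i) A β (pd i (ψ (Sum.inr A)) u x)) x2) +
      fdc Z ψ (fun x => S2.W β x2 (u x)) x2 := by
  have t1 : ∀ i A, Setup.Tst (fun x => S2.vec (S2.g i) A β (pd i (ψ (Sum.inr A)) u x)) := fun i A =>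
    ff_tst (hu.pd i _)
  have t2 : ∀ i, Setup.Tst (fun x => ∑ A, S2.vec (S2.g i) A β (pd i (ψ (Sum.inr A)) u x)) := fun i =>
    fd_tst_sum _ fun A => t1 i A
  have t3 : Setup.Tst (fun x => ∑ i, ∑ A, S2.vec (S2.g i) A β (pd i (ψ (Sum.inr A)) u x)) :=
    fd_tst_sum _ fun i => t2 i
  refine (fdc_add Z ψ (fd_tst_smul _ t3) (ff_tst hu) x2).trans ?_
  refine congrArg (fun z => z + fdc Z ψ (fun x => S2.W β x2 (u x)) x2) ?_
  refine (fdc_smul Z ψ _ _ x2).trans ?_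
  refine congrArg (fun z => (-Complex.I) • z) ?_
  refine (fdc_sum Z ψ _ t2 x2).trans ?_
  exact Finset.sum_congr rfl fun i _ => fdc_sum Z ψ _ (fun A => t1 i A) x2

/-- the supercharge -/
lemma ff_Q (β : Fin 16) (hu : Setup.Tst u) (x2 : Cfg d2) :
    (S2.lft Z hZ).Q β (fdc Z ψ u) x2 = fdc Z ψ (fuQ S2 (spsw ψ) β u) x2 := by
  refine (ff_Qe2 hZ β _ x2).trans ?_
  refine Eq.trans ?_ ((ff_Qe1 (S2 := S2) β hu x2).trans (ff_Qe4 β hu x2)).symm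
  refine congrArg₂ (fun a b => a + b) (congrArg (fun z => (-Complex.I) • z) ?_) ?_
  · exact Finset.sum_congr rfl fun i _ => Finset.sum_congr rfl fun A _ => (ff_Qe3 hZ β hu x2 i A).symm
  · exact (ff_W hZ β x2 u hu x2).symm

/-! ### the gauge generators -/

lemma ff_Ge1 {S : Setup d F} (h2 : FuS S S2 (spsw ψ)) (C : Fin d2) (hu : Setup.Tst u) (x2 : Cfg d2) :
    fdc Z ψ (S.G (ψ (Sum.inr C)) u) x2 = fdc Z ψ (fun x => (-Complex.I) • (∑ i, ∑ A, ∑ B,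
      ((S2.f C A B : ℂ) * (x2 (i, A) : ℂ)) • pd i (ψ (Sum.inr B)) u x) + S2.cS C (u x)) x2 := by
  refine fdc_congr Z ψ fun x1 => ?_
  rw [fu_G' h2 C hu.1]
  unfold Setup.G
  congr 2
  refine Finset.sum_congr rfl fun i _ => Finset.sum_congr rfl fun A _ => Finset.sum_congr rfl fun B _ => ?_
  congr 1
  have h3 := AD.sq873_pd (spsw ψ) hu.1 i B x1 x2
  simp only [fu_cmb_sw] at h3
  exact h3

omit [FiniteDimensional ℂ Z] in
lemma ff_Ge2 (C : Fin d2) (w : Cfg d2 → Z) (x2 : Cfg d2) : (S2.lft Z hZ).G C w x2 = (-Complex.I) • (∑ i, ∑ A, ∑ B,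
      ((S2.f C A B : ℂ) * (x2 (i, A) : ℂ)) • pd i B w x2) + (S2.lft Z hZ).cS C (w x2) := rfl

lemma ff_Ge4 (C : Fin d2) (hu : Setup.Tst u) (x2 : Cfg d2) :
    fdc Z ψ (fun x => (-Complex.I) • (∑ i, ∑ A, ∑ B,
      ((S2.f C A B : ℂ) * (x2 (i, A) : ℂ)) • pd i (ψ (Sum.inr B)) u x) + S2.cS C (u x)) x2 =
    (-Complex.I) • (∑ i, ∑ A, ∑ B,
      ((S2.f C A B : ℂ) * (x2 (i, A) : ℂ)) • fdc Z ψ (pd i (ψ (Sum.inr B)) u) x2) + fdc Z ψ (fun x => S2.cS C (u x)) x2 := by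
  have t0 : ∀ (i : Fin 9) (A B : Fin d2), Setup.Tst (fun x => ((S2.f C A B : ℂ) * (x2 (i, A) : ℂ)) • pd i (ψ (Sum.inr B)) u x) :=
    fun i A B => fd_tst_smul _ (hu.pd i _)
  have t1 : ∀ (i : Fin 9) (A : Fin d2), Setup.Tst (fun x => ∑ B, ((S2.f C A B : ℂ) * (x2 (i, A) : ℂ)) • pd i (ψ (Sum.inr B)) u x) :=
    fun i A => fd_tst_sum _ fun B => t0 i A B
  have t2 : ∀ i : Fin 9, Setup.Tst (fun x => ∑ A, ∑ B, ((S2.f C A B : ℂ) * (x2 (i, A) : ℂ)) • pd i (ψ (Sum.inr B)) u x) :=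
    fun i => fd_tst_sum _ fun A => t1 i A
  have t3 : Setup.Tst (fun x => ∑ i, ∑ A, ∑ B, ((S2.f C A B : ℂ) * (x2 (i, A) : ℂ)) • pd i (ψ (Sum.inr B)) u x) :=
    fd_tst_sum _ fun i => t2 i
  refine (fdc_add Z ψ (fd_tst_smul _ t3) (ff_tst hu) x2).trans ?_
  refine congrArg (fun z => z + fdc Z ψ (fun x => S2.cS C (u x)) x2) ?_
  refine (fdc_smul Z ψ _ _ x2).trans ?_
  refine congrArg (fun z => (-Complex.I) • z) ?_
  refine (fdc_sum Z ψ _ t2 x2).trans ?_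
  refine Finset.sum_congr rfl fun i _ => (fdc_sum Z ψ _ (fun A => t1 i A) x2).trans ?_
  refine Finset.sum_congr rfl fun A _ => (fdc_sum Z ψ _ (fun B => t0 i A B) x2).trans ?_
  exact Finset.sum_congr rfl fun B _ => fdc_smul Z ψ _ _ x2

/-- the gauge generators -/
lemma ff_G {S : Setup d F} (h2 : FuS S S2 (spsw ψ)) (C : Fin d2) (hu : Setup.Tst u) (x2 : Cfg d2) :
    (S2.lft Z hZ).G C (fdc Z ψ u) x2 = fdc Z ψ (S.G (ψ (Sum.inr C)) u) x2 := by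
  refine (ff_Ge2 hZ C _ x2).trans ?_
  refine Eq.trans ?_ ((ff_Ge1 h2 C hu x2).trans (ff_Ge4 C hu x2)).symm
  refine congrArg₂ (fun a b => a + b) (congrArg (fun z => (-Complex.I) • z) ?_) ?_
  · refine Finset.sum_congr rfl fun i _ => Finset.sum_congr rfl fun A _ => Finset.sum_congr rfl fun B _ => ?_
    rw [fdc_pd Z ψ hu]
  · exact (ff_cS hZ C u hu x2).symm

end

end Vale.Agent.P353.Z.AX2
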