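import Vale.Agent.P353.AN.X2.FubC
import Vale.Agent.P353.AN.X2.FubE
import Vale.Agent.P353.AN.X2.FubF
import Vale.Agent.P353.AN.X2.Zms

/-! # P353, all `N`, block X2: `FubStmt` (helper126; parts by helper775, helper314)

Uniqueness: the projection of the slices onto the zero modes of the first summand is a zero mode of the lifted second system. -/

open MeasureTheory Filter Topology Matrix
open scoped ContDiff

namespace Vale.Agent.P353.Z.AX2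

universe u

section gen

variable {d : ℕ} {E : Type*} [NormedAddCommGroup E] [InnerProductSpace ℂ E]

/-- explicit approximants of a sum -/
lemma fg_add (S : Setup d E) {Ψ Φ : Lp E 2 (volume : Measure (Cfg d))} {u v : ℕ → Cfg d → E} (h1 : S.Apx Ψ u)
    (h2 : S.Apx Φ v) : S.Apx (Ψ + Φ) (fun n x => u n x + v n x) := by
  obtain ⟨hu1, hu2, hu3, hu4⟩ := h1
  obtain ⟨hv1, hv2, hv3, hv4⟩ := h2
  refine ⟨fun n => (hu1 n).add (hv1 n), fun n C x => ?_, ?_, fun β => ?_⟩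
  · rw [zmsx_G_add S ((hu1 n).diff x) ((hv1 n).diff x), hu2, hv2, add_zero]
  · have h := ((Lp_L2t hu1 hu3).add (Lp_L2t hv1 hv3)).lim
    refine h.congr fun n => integral_congr_ae ?_
    filter_upwards [Lp.coeFn_add Ψ Φ] with x hx
    rw [hx, Pi.add_apply]
  · have h := ((zero_L2t (fun n => (hu1 n).Q S β) (hu4 β)).add (zero_L2t (fun n => (hv1 n).Q S β) (hv4 β))).lim
    refine h.congr fun n => integral_congr_ae (Filter.Eventually.of_forall fun x => ?_)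
    simp only [zmsx_Q_add S ((hu1 n).diff x) ((hv1 n).diff x), add_zero, sub_zero]

/-- explicit approximants of a multiple -/
lemma fg_smul (S : Setup d E) {Ψ : Lp E 2 (volume : Measure (Cfg d))} {u : ℕ → Cfg d → E} (c : ℂ) (h1 : S.Apx Ψ u) :
    S.Apx (c • Ψ) (fun n x => c • u n x) := by
  obtain ⟨hu1, hu2, hu3, hu4⟩ := h1
  refine ⟨fun n => zmsx_tst_smul c (hu1 n), fun n C x => ?_, ?_, fun β => ?_⟩
  · rw [zmsx_G_smul S c ((hu1 n).diff x), hu2, smul_zero]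
  · have h : Tendsto (fun n => ‖c‖ ^ 2 * ∫ x, ‖u n x - Ψ x‖ ^ 2) atTop (𝓝 0) := by
      simpa using hu3.const_mul (‖c‖ ^ 2)
    refine h.congr fun n => ?_
    rw [← integral_const_mul]
    refine integral_congr_ae ?_
    filter_upwards [Lp.coeFn_smul c Ψ] with x hx
    rw [hx, Pi.smul_apply, ← smul_sub, norm_smul, mul_pow]
  · have h : Tendsto (fun n => ‖c‖ ^ 2 * ∫ x, ‖S.Q β (u n) x‖ ^ 2) atTop (𝓝 0) := by
      simpa using (hu4 β).const_mul (‖c‖ ^ 2)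
    refine h.congr fun n => ?_
    rw [← integral_const_mul]
    refine integral_congr_ae (Filter.Eventually.of_forall fun x => ?_)
    simp only [zmsx_Q_smul S c ((hu1 n).diff x), norm_smul, mul_pow]

lemma fg_norm {c : Cfg d → E} (hc : MemLp c 2 (volume : Measure (Cfg d))) (Φ : Lp E 2 (volume : Measure (Cfg d))) :
    ∫ x, ‖c x - Φ x‖ ^ 2 = ‖hc.toLp c - Φ‖ ^ 2 := by
  have h1 : MemLp (fun x => c x - Φ x) 2 (volume : Measure (Cfg d)) := hc.sub (Lp.memLp Φ)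
  rw [← fd_norm_sq h1]
  have h2 : h1.toLp _ = hc.toLp c - Φ := by
    have h3 := MemLp.toLp_sub hc (Lp.memLp Φ)
    rw [Lp.toLp_coeFn] at h3
    exact h3
  rw [h2]

/-- test functions which are Cauchy in `L²` have a limit -/
lemma fg_cauchy [CompleteSpace E] {c : ℕ → Cfg d → E} (hc : ∀ n, Setup.Tst (c n)) (a : ℕ → ℝ)
    (hb : ∀ n m, ∫ x, ‖c n x - c m x‖ ^ 2 ≤ 2 * a n + 2 * a m) (ha : Tendsto a atTop (𝓝 0)) :
    ∃ Φ : Lp E 2 (volume : Measure (Cfg d)), Tendsto (fun n => ∫ x, ‖c n x - Φ x‖ ^ 2) atTop (𝓝 0) := by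
  have hm : ∀ n, MemLp (c n) 2 (volume : Measure (Cfg d)) := fun n => (hc n).memLp
  have h1 : ∀ n m, ‖(hm n).toLp (c n) - (hm m).toLp (c m)‖ ^ 2 ≤ 2 * a n + 2 * a m := by
    intro n m
    rw [← fg_norm (hm n) ((hm m).toLp (c m))]
    refine le_trans (le_of_eq (integral_congr_ae ?_)) (hb n m)
    filter_upwards [(hm m).coeFn_toLp] with x hx
    rw [hx]
  have h2 : CauchySeq (fun n => (hm n).toLp (c n)) := by
    refine Metric.cauchySeq_iff.2 fun ε hε => ?_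
    have h3 : ∀ᶠ n in atTop, a n < ε ^ 2 / 8 := ha.eventually_lt_const (by positivity)
    obtain ⟨N, hN⟩ := eventually_atTop.1 h3
    refine ⟨N, fun m hm' n hn' => ?_⟩
    rw [dist_eq_norm]
    have h4 := h1 m n
    have h5 := hN m hm'
    have h6 := hN n hn'
    refine lt_of_pow_lt_pow_left₀ 2 hε.le ?_
    nlinarith [sq_nonneg ε, pow_pos hε 2]
  obtain ⟨Φ, hΦ⟩ := cauchySeq_tendsto_of_complete h2
  refine ⟨Φ, ?_⟩
  have h3 := tendsto_iff_norm_sub_tendsto_zero.1 hΦ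
  have h4 := h3.pow 2
  rw [zero_pow two_ne_zero] at h4
  refine h4.congr fun n => ?_
  exact (fg_norm (hm n) Φ).symm

/-- approximants of zero -/
lemma fg_lin0 (S : Setup d E) {Φ : Lp E 2 (volume : Measure (Cfg d))} {b : ℕ → Cfg d → E} (h0 : Φ = 0)
    (hb : S.Apx Φ b) : Tendsto (fun n => ∫ x, ‖b n x‖ ^ 2) atTop (𝓝 0) := by
  subst h0
  refine hb.2.2.1.congr fun n => integral_congr_ae ?_
  filter_upwards [Lp.coeFn_zero E 2 (volume : Measure (Cfg d))] with x hx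
  rw [hx, Pi.zero_apply, sub_zero]

lemma fg_lin1 (S : Setup d E) {Φ₀ Φ : Lp E 2 (volume : Measure (Cfg d))} {c : ℂ} {b : ℕ → Cfg d → E} (hc : Φ = c • Φ₀)
    (h0 : c = 0) (hb : S.Apx Φ b) : Tendsto (fun n => ∫ x, ‖b n x‖ ^ 2) atTop (𝓝 0) :=
  fg_lin0 S (by rw [hc, h0, zero_smul]) hb

lemma fg_lin2 (S : Setup d E) {Φ₀ Φ Φ' : Lp E 2 (volume : Measure (Cfg d))} {c c' : ℂ} {a b : ℕ → Cfg d → E}
    (hc : Φ = c • Φ₀) (hc' : Φ' = c' • Φ₀) (h0 : c' ≠ 0) (ha : S.Apx Φ a) (hb : S.Apx Φ' b) :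
    Tendsto (fun n => ∫ x, ‖a n x + (-(c / c')) • b n x‖ ^ 2) atTop (𝓝 0) := by
  refine fg_lin0 S ?_ (fg_add S ha (fg_smul S (-(c / c')) hb))
  rw [hc, hc', smul_smul, ← add_smul]
  have : c + -(c / c') * c' = 0 := by
    field_simp
    ring
  rw [this, zero_smul]

end gen

section slices

variable {d d1 d2 : ℕ} {F : Type*} [NormedAddCommGroup F] [InnerProductSpace ℂ F]
variable {S : Setup d F} {S1 : Setup d1 F} {S2 : Setup d2 F} {ψ : Spl d1 d2 d}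
variable {Z : Submodule ℂ (Lp F 2 (volume : Measure (Cfg d1)))} [FiniteDimensional ℂ Z]

/-- the projection is a contraction -/
lemma fg_contr (ψ : Spl d1 d2 d) {u : Cfg d → F} (hu : Setup.Tst u) :
    ∫ x2, ‖fdc Z ψ u x2‖ ^ 2 ≤ ∫ x, ‖u x‖ ^ 2 := by
  have hi : Integrable (fun x => ‖u x‖ ^ 2) := hu.norm_sq_int
  rw [fu_int1 ψ hi]
  exact integral_mono (fdc_tst Z ψ hu).norm_sq_int (fu_intr ψ hi) fun x2 => fdc_norm Z ψ (fu_sl ψ hu x2).memLp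

/-- the projections of the approximants converge -/
lemma fg_lim (ψ : Spl d1 d2 d) {Ψ : Lp F 2 (volume : Measure (Cfg d))} {u : ℕ → Cfg d → F}
    (hu1 : ∀ n, Setup.Tst (u n)) (hu3 : Tendsto (fun n => ∫ x, ‖u n x - Ψ x‖ ^ 2) atTop (𝓝 0)) :
    ∃ Φ : Lp Z 2 (volume : Measure (Cfg d2)), Tendsto (fun n => ∫ x, ‖fdc Z ψ (u n) x - Φ x‖ ^ 2) atTop (𝓝 0) := by
  have : CompleteSpace Z := FiniteDimensional.complete ℂ Z
  refine fg_cauchy (fun n => fdc_tst Z ψ (hu1 n)) (fun n => ∫ x, ‖u n x - Ψ x‖ ^ 2) (fun n m => ?_) hu3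
  have e1 : ∀ x2, fdc Z ψ (u n) x2 - fdc Z ψ (u m) x2 = fdc Z ψ (fun x => u n x - u m x) x2 := fun x2 =>
    (fdc_sub Z ψ (hu1 n) (hu1 m) x2).symm
  simp only [e1]
  refine (fg_contr ψ ((hu1 n).sub (hu1 m))).trans ?_
  have h1 : MemLp (fun x => u n x - Ψ x) 2 (volume : Measure (Cfg d)) := (hu1 n).memLp.sub (Lp.memLp Ψ)
  have h2 : MemLp (fun x => Ψ x - u m x) 2 (volume : Measure (Cfg d)) := (Lp.memLp Ψ).sub (hu1 m).memLp
  have h3 := nsq_add_le h1 h2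
  unfold nsq at h3
  refine le_trans (le_of_eq ?_) (h3.trans (le_of_eq ?_))
  · refine integral_congr_ae (Filter.Eventually.of_forall fun x => ?_)
    simp only [sub_add_sub_cancel]
  · simp only [norm_sub_rev (Ψ _) (u m _)]

/-- the projected approximants are approximants of a zero mode of the lifted system -/
lemma fg_apx (h1 : FuS S S1 ψ) (h2 : FuS S S2 (spsw ψ)) (hZ : ∀ α A, ∀ Ψ ∈ Z, Setup.pwa d1 (S2.th α A) Ψ ∈ Z)
    {Ψ : Lp F 2 (volume : Measure (Cfg d))} {u : ℕ → Cfg d → F} (hu : S.Apx Ψ u) :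
    ∃ Φ : Lp Z 2 (volume : Measure (Cfg d2)), (S2.lft Z hZ).Apx Φ (fun n => fdc Z ψ (u n)) := by
  obtain ⟨hT, hG, hL, hQ⟩ := hu
  obtain ⟨Φ, hΦ⟩ := fg_lim (Z := Z) ψ hT hL
  refine ⟨Φ, fun n => fdc_tst Z ψ (hT n), fun n C x2 => ?_, hΦ, fun β => ?_⟩
  · refine (ff_G hZ h2 C (hT n) x2).trans ?_
    have e : S.G (ψ (Sum.inr C)) (u n) = fun _ => 0 := funext fun x => hG n _ x
    rw [e]
    exact fdc_zero Z ψ x2
  · have e1 : ∀ n, ∫ x2, ‖(S2.lft Z hZ).Q β (fdc Z ψ (u n)) x2‖ ^ 2 = ∫ x2, ‖fdc Z ψ (fuQ S2 (spsw ψ) β (u n)) x2‖ ^ 2 :=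
      fun n => integral_congr_ae (Filter.Eventually.of_forall fun x2 =>
        congrArg (fun z : Z => ‖z‖ ^ 2) (ff_Q hZ β (hT n) x2))
    have e2 : Tendsto (fun n => ∑ β, ∫ x, ‖S.Q β (u n) x‖ ^ 2) atTop (𝓝 0) := by
      have := tendsto_finsetSum (Finset.univ : Finset (Fin 16)) fun β _ => hQ β
      simpa using this
    refine squeeze_zero (fun n => integral_nonneg fun _ => by positivity) (fun n => ?_) e2
    rw [e1 n]
    refine (fg_contr ψ (fuQ_tst S2 (spsw ψ) β (hT n))).trans ?_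
    rw [fu_energy h1 h2 (hT n)]
    have k1 : 0 ≤ ∑ β, ∫ x, ‖fuQ S1 ψ β (u n) x‖ ^ 2 :=
      Finset.sum_nonneg fun β _ => integral_nonneg fun _ => by positivity
    have k2 : ∫ x, ‖fuQ S2 (spsw ψ) β (u n) x‖ ^ 2 ≤ ∑ β, ∫ x, ‖fuQ S2 (spsw ψ) β (u n) x‖ ^ 2 :=
      Finset.single_le_sum (f := fun β => ∫ x, ‖fuQ S2 (spsw ψ) β (u n) x‖ ^ 2)
        (fun β _ => integral_nonneg fun _ => by positivity) (Finset.mem_univ β)
    linarith

/-- if the projections tend to zero, the zero mode is zero -/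
lemma fg_zero (h1 : FuS S S1 ψ) (h2 : FuS S S2 (spsw ψ)) [FiniteDimensional ℂ (S1.zms ⊤)]
    {Ψ : Lp F 2 (volume : Measure (Cfg d))} {u : ℕ → Cfg d → F} (hu : S.Apx Ψ u)
    (hc : Tendsto (fun n => ∫ x2 : Cfg d2, ‖fdc (S1.zms ⊤) ψ (u n) x2‖ ^ 2) atTop (𝓝 0)) : Ψ = 0 := by
  obtain ⟨l, hl, hae⟩ := fu_slice h1 h2 hu (fun n x2 => ‖fdc (S1.zms ⊤) ψ (u n) x2‖ ^ 2) (fun n x2 => by positivity)
    (fun n => (fdc_tst (S1.zms ⊤) ψ (hu.1 n)).norm_sq_int) hc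
  have iΨ : Integrable (fun x => ‖Ψ x‖ ^ 2) := (Lp.memLp Ψ).integrable_norm_pow (by norm_num)
  have key : ∀ᵐ x2 : Cfg d2, ∫ x1, ‖Ψ (AD.cmb ψ x1 x2)‖ ^ 2 = 0 := by
    filter_upwards [hae] with x2 hx2
    obtain ⟨hm, hz, ha, hg⟩ := hx2
    have hzm : hm.toLp _ ∈ S1.zms ⊤ := Submodule.subset_span ⟨hz, Filter.Eventually.of_forall fun _ => trivial⟩
    -- `⟨z, c_n⟩ → ‖z‖²` and `→ 0`
    have t1 : Tendsto (fun n => (inner ℂ (⟨hm.toLp _, hzm⟩ : S1.zms ⊤) (fdc (S1.zms ⊤) ψ (u (l n)) x2) : ℂ)) atTop (𝓝 0) := by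
      have h3 : Tendsto (fun n => ‖fdc (S1.zms ⊤) ψ (u (l n)) x2‖) atTop (𝓝 0) := by
        have := (Real.continuous_sqrt.tendsto 0).comp hg
        rw [Real.sqrt_zero] at this
        refine this.congr fun n => ?_
        simp only [Function.comp]
        exact Real.sqrt_sq (norm_nonneg _)
      have h4 : Tendsto (fun n => fdc (S1.zms ⊤) ψ (u (l n)) x2) atTop (𝓝 0) := tendsto_zero_iff_norm_tendsto_zero.2 h3
      have h5 := (tendsto_const_nhds (x := (⟨hm.toLp _, hzm⟩ : S1.zms ⊤))).inner h4 (𝕜 := ℂ)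
      rwa [inner_zero_right] at h5
    have hsl : ∀ n, MemLp (fun x1 => u (l n) (AD.cmb ψ x1 x2)) 2 (volume : Measure (Cfg d1)) := fun n =>
      (fu_sl ψ (hu.1 (l n)) x2).memLp
    have t2 : Tendsto (fun n => (inner ℂ (⟨hm.toLp _, hzm⟩ : S1.zms ⊤) (fdc (S1.zms ⊤) ψ (u (l n)) x2) : ℂ)) atTop
        (𝓝 (inner ℂ (hm.toLp _) (hm.toLp _))) := by
      have h3 : Tendsto (fun n => (hsl n).toLp _) atTop (𝓝 (hm.toLp (fun x1 => Ψ (AD.cmb ψ x1 x2)))) := by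
        refine tendsto_iff_norm_sub_tendsto_zero.2 ?_
        have := (Real.continuous_sqrt.tendsto 0).comp ha
        rw [Real.sqrt_zero] at this
        refine this.congr fun n => ?_
        simp only [Function.comp]
        have h5 : ∫ x1, ‖u (l n) (AD.cmb ψ x1 x2) - Ψ (AD.cmb ψ x1 x2)‖ ^ 2 =
            ‖(hsl n).toLp _ - hm.toLp (fun x1 => Ψ (AD.cmb ψ x1 x2))‖ ^ 2 := by
          rw [← fg_norm (hsl n)]
          refine integral_congr_ae ?_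
          filter_upwards [hm.coeFn_toLp] with x hx
          rw [hx]
        rw [h5]
        exact Real.sqrt_sq (norm_nonneg _)
      have h4 := (tendsto_const_nhds (x := hm.toLp (fun x1 => Ψ (AD.cmb ψ x1 x2)))).inner h3 (𝕜 := ℂ)
      refine h4.congr fun n => ?_
      rw [fdc_inner (S1.zms ⊤) ψ (hsl n)]
      exact (fd_inner_toLp _ (hsl n)).symm
    have h6 := tendsto_nhds_unique t2 t1
    have h7 : hm.toLp (fun x1 => Ψ (AD.cmb ψ x1 x2)) = 0 := inner_self_eq_zero.1 h6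
    rw [← fd_norm_sq hm, h7]
    simp
  have h3 : ∫ x, ‖Ψ x‖ ^ 2 = 0 := by
    rw [fu_int1 ψ iΨ]
    rw [integral_congr_ae key, integral_zero]
  have h4 := fd_norm_sq (Lp.memLp Ψ)
  rw [Lp.toLp_coeFn, h3] at h4
  exact norm_eq_zero.1 (pow_eq_zero_iff two_ne_zero |>.1 h4)

lemma fg_comb (Z : Submodule ℂ (Lp F 2 (volume : Measure (Cfg d1)))) [FiniteDimensional ℂ Z] (ψ : Spl d1 d2 d)
    {u v : Cfg d → F} (hu : Setup.Tst u) (hv : Setup.Tst v) (t : ℂ) (x2 : Cfg d2) :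
    fdc Z ψ u x2 + t • fdc Z ψ v x2 = fdc Z ψ (fun x => u x + t • v x) x2 := by
  rw [fdc_add Z ψ hu (fd_tst_smul _ hv), fdc_smul]

/-- uniqueness of the zero mode of the direct sum -/
lemma fg_uniq (h1 : FuS S S1 ψ) (h2 : FuS S S2 (spsw ψ)) [FiniteDimensional ℂ (S1.zms ⊤)]
    (hZ : ∀ α A, ∀ Ψ ∈ S1.zms ⊤, Setup.pwa d1 (S2.th α A) Ψ ∈ S1.zms ⊤) {Φ₀ : Lp (S1.zms ⊤) 2 (volume : Measure (Cfg d2))}
    (hu : ∀ Φ : Lp (S1.zms ⊤) 2 (volume : Measure (Cfg d2)), (S2.lft (S1.zms ⊤) hZ).IsZM Φ → ∃ c : ℂ, Φ = c • Φ₀)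
    {Ψ₀ : Lp F 2 (volume : Measure (Cfg d))} (hΨ₀ : S.IsZM Ψ₀) (hne : Ψ₀ ≠ 0) {Ψ : Lp F 2 (volume : Measure (Cfg d))}
    (hΨ : S.IsZM Ψ) : ∃ c : ℂ, Ψ = c • Ψ₀ := by
  obtain ⟨u, hu'⟩ := hΨ
  obtain ⟨v, hv⟩ := hΨ₀
  obtain ⟨Φ, hΦ⟩ := fg_apx h1 h2 hZ hu'
  obtain ⟨Φ', hΦ'⟩ := fg_apx h1 h2 hZ hv
  obtain ⟨c, hc⟩ := hu Φ ⟨_, hΦ⟩
  obtain ⟨c', hc'⟩ := hu Φ' ⟨_, hΦ'⟩
  have hc0 : c' ≠ 0 := fun h0 => hne (fg_zero h1 h2 hv (fg_lin1 _ hc' h0 hΦ'))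
  refine ⟨c / c', ?_⟩
  have h6 : Ψ + (-(c / c')) • Ψ₀ = 0 := by
    refine fg_zero h1 h2 (fg_add S hu' (fg_smul S (-(c / c')) hv)) ?_
    refine (fg_lin2 _ hc hc' hc0 hΦ hΦ').congr fun n => integral_congr_ae (Filter.Eventually.of_forall fun x2 => ?_)
    exact congrArg (fun z : S1.zms ⊤ => ‖z‖ ^ 2) (fg_comb (S1.zms ⊤) ψ (hu'.1 n) (hv.1 n) (-(c / c')) x2)
  rw [neg_smul, ← sub_eq_add_neg, sub_eq_zero] at h6
  exact h6

end slices

/-- **X2-Fub** -/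
theorem fub_stmt (hE : FubEStmt.{u}) : FubStmt.{u} := by
  intro d d1 d2 F _ _ hF S S1 S2 ψ hirr hv hD k1 k2 g1 g2 t1 t2 hZ hO hOne
  obtain ⟨Φ₀, z1, z2, z3⟩ := hOne
  obtain ⟨Ψ₀, y1, y2⟩ := hE d d1 d2 F hF S S1 S2 ψ hirr hv hD k1 k2 g1 g2 t1 t2 hZ hO ⟨Φ₀, z1, z2⟩
  have := hO.fin
  have f1 : FuS S S1 ψ := ⟨k1, g1, t1, hD.e1, hD.m1, hD.m2⟩
  have f2 : FuS S S2 (spsw ψ) := ⟨k2, g2, t2, hD.e2, hD.m2, hD.m1⟩
  exact ⟨Ψ₀, y1, y2, fun Ψ hΨ => fg_uniq f1 f2 hZ z3 y1 y2 hΨ⟩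

end Vale.Agent.P353.Z.AX2
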