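import Vale.Agent.P353.AN.X2.AllA
import Vale.Agent.P353.AN.X2.Fub
import Vale.Agent.P353.AN.X2.FubE
import Vale.Agent.P353.AN.X2.Prod

/-! # P353, all `N`, block X2: assembly, second part (direct sums, unconditional) -/

namespace Vale.Agent.P353.Z.AX2

universe u

/-- **X2-Fub**, unconditional -/
theorem fubAll : FubStmt.{u} :=
  fub_stmt (fube wick_stmt (fun _ _ _ _ S => zms_stmt S) (fun _ _ _ _ S => rst_stmt S) fun _ _ _ _ _ S1 S2 => zvc_stmt S1 S2)

/-- **X2-Prod**, unconditional -/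
theorem prodAll : ProdStmt.{u} :=
  prod_stmt (fun _ _ _ _ _ S1 S2 => vci_main S1 S2) (fun _ _ _ _ _ S1 S2 => zInvAll S1 S2)
    (fun _ _ _ _ _ S1 S2 => zirrAll S1 S2) fubAll

/-- **X2-Zero**, unconditional -/
theorem zeroAll : ZeroStmt.{u} := zero_stmt

end Vale.Agent.P353.Z.AX2
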