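import Vale.Agent.P353.AN.X.Bri
import Vale.Agent.P353.AN.E.Defs

/-! # P353, all `N`, block X2: zero modes with values in a module — definitions (architect helper679)

`Irr` modules, restriction of a setup to an invariant subspace, the space of zero modes of a setup as a Clifford module of the
remaining fermions. -/

open MeasureTheory Filter Topology Matrix
open scoped ContDiff

namespace Vale.Agent.P353.Z

variable {d d1 d2 : ℕ} {F : Type*} [NormedAddCommGroup F] [InnerProductSpace ℂ F]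

/-- restriction of an operator to an invariant subspace -/
noncomputable def opR {E : Type*} [NormedAddCommGroup E] [InnerProductSpace ℂ E] (V : Submodule ℂ E) (T : E →L[ℂ] E)
    (hT : ∀ v ∈ V, T v ∈ V) : V →L[ℂ] V :=
  (T.comp V.subtypeL).codRestrict V fun v => hT v v.2

@[simp] lemma opR_coe {E : Type*} [NormedAddCommGroup E] [InnerProductSpace ℂ E] (V : Submodule ℂ E) (T : E →L[ℂ] E)
    (hT : ∀ v ∈ V, T v ∈ V) (v : V) : ((opR V T hT v : V) : E) = T v := rfl

lemma opR_anti {E : Type*} [NormedAddCommGroup E] [InnerProductSpace ℂ E] (V : Submodule ℂ E) (T T' : E →L[ℂ] E)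
    (hT : ∀ v ∈ V, T v ∈ V) (hT' : ∀ v ∈ V, T' v ∈ V) (p : Prop) [Decidable p]
    (h : ∀ v ∈ V, T (T' v) + T' (T v) = if p then v else 0) :
    opR V T hT * opR V T' hT' + opR V T' hT' * opR V T hT = if p then 1 else 0 := by
  ext1 v
  apply Subtype.ext
  have h1 := h v v.2
  have h2 : (((opR V T hT * opR V T' hT' + opR V T' hT' * opR V T hT) v : V) : E) = T (T' v) + T' (T v) := rfl
  rw [h2, h1]
  by_cases hp : p
  · simp only [if_pos hp]
    rfl
  · simp only [if_neg hp]
    rfl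

namespace Setup

/-- restriction of a setup to an invariant subspace of the fermion space -/
noncomputable def rst (S : Setup d F) (V : Submodule ℂ F) (hV : ∀ α A, ∀ v ∈ V, S.th α A v ∈ V) : Setup d V where
  g := S.g
  g_symm := S.g_symm
  g_anti := S.g_anti
  th := fun α A => opR V (S.th α A) (hV α A)
  th_anti := by
    intro α A β B
    refine opR_anti V _ _ (hV α A) (hV β B) _ fun v _ => ?_
    have h : (S.th α A * S.th β B + S.th β B * S.th α A) v = (if α = β ∧ A = B then (1 : F →L[ℂ] F) else 0) v := by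
      rw [S.th_anti]
    have h2 : (S.th α A * S.th β B + S.th β B * S.th α A) v = S.th α A (S.th β B v) + S.th β B (S.th α A v) := rfl
    rw [← h2, h]
    by_cases hab : α = β ∧ A = B
    · simp [hab]
    · simp [hab]
  κ := S.κ
  κ_pos := S.κ_pos
  f := S.f
  f_swap := S.f_swap
  f_cyc := S.f_cyc
  f_jac := S.f_jac
  g_real := S.g_real
  th_sa := fun α A v w => S.th_sa α A v w

/-- the zero modes with values in `K0`, as a subspace of `L²` -/
noncomputable def zms (S : Setup d F) (K0 : Submodule ℂ F) : Submodule ℂ (Lp F 2 (volume : Measure (Cfg d))) :=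
  Submodule.span ℂ {Ψ | S.IsZM Ψ ∧ ∀ᵐ x ∂(volume : Measure (Cfg d)), Ψ x ∈ K0}

/-- pointwise action of an operator on `L²` functions -/
noncomputable def pwa (d : ℕ) (T : F →L[ℂ] F) :
    Lp F 2 (volume : Measure (Cfg d)) →L[ℂ] Lp F 2 (volume : Measure (Cfg d)) := T.compLpL 2 volume

lemma pwa_ae (T : F →L[ℂ] F) (Ψ : Lp F 2 (volume : Measure (Cfg d))) :
    ∀ᵐ x ∂(volume : Measure (Cfg d)), pwa d T Ψ x = T (Ψ x) := T.coeFn_compLpL Ψ

lemma pwa_anti (S2 : Setup d2 F) (α : Fin 16) (A : Fin d2) (β : Fin 16) (B : Fin d2)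
    (v : Lp F 2 (volume : Measure (Cfg d1))) :
    pwa d1 (S2.th α A) (pwa d1 (S2.th β B) v) + pwa d1 (S2.th β B) (pwa d1 (S2.th α A) v) =
      if α = β ∧ A = B then v else 0 := by
  apply Lp.ext
  have h0 : ∀ᵐ x ∂(volume : Measure (Cfg d1)),
      (if α = β ∧ A = B then v else 0 : Lp F 2 (volume : Measure (Cfg d1))) x = if α = β ∧ A = B then v x else 0 := by
    by_cases hab : α = β ∧ A = B
    · simp [hab]
    · simp only [if_neg hab]
      exact Lp.coeFn_zero F 2 volume
  filter_upwards [Lp.coeFn_add (pwa d1 (S2.th α A) (pwa d1 (S2.th β B) v)) (pwa d1 (S2.th β B) (pwa d1 (S2.th α A) v)),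
    pwa_ae (S2.th α A) (pwa d1 (S2.th β B) v), pwa_ae (S2.th β B) (pwa d1 (S2.th α A) v), pwa_ae (S2.th β B) v,
    pwa_ae (S2.th α A) v, h0] with x e1 e2 e3 e4 e5 e6
  rw [e1, Pi.add_apply, e2, e3, e4, e5, e6]
  have h : (S2.th α A * S2.th β B + S2.th β B * S2.th α A) (v x) =
      (if α = β ∧ A = B then (1 : F →L[ℂ] F) else 0) (v x) := by
    rw [S2.th_anti]
  have h2 : (S2.th α A * S2.th β B + S2.th β B * S2.th α A) (v x) =
      S2.th α A (S2.th β B (v x)) + S2.th β B (S2.th α A (v x)) := rfl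
  rw [← h2, h]
  by_cases hab : α = β ∧ A = B
  · simp [hab]
  · simp [hab]

lemma pwa_sa (S2 : Setup d2 F) (α : Fin 16) (A : Fin d2) (v w : Lp F 2 (volume : Measure (Cfg d1))) :
    inner ℂ (pwa d1 (S2.th α A) v) w = inner ℂ v (pwa d1 (S2.th α A) w) := by
  rw [MeasureTheory.L2.inner_def, MeasureTheory.L2.inner_def]
  refine integral_congr_ae ?_
  filter_upwards [pwa_ae (S2.th α A) v, pwa_ae (S2.th α A) w] with x e1 e2
  rw [e1, e2, S2.th_sa]

/-- the Clifford system of `S2` acting pointwise on `L²` functions on `Cfg d1` -/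
noncomputable def lfa (d1 : ℕ) (S2 : Setup d2 F) : Setup d2 (Lp F 2 (volume : Measure (Cfg d1))) where
  g := S2.g
  g_symm := S2.g_symm
  g_anti := S2.g_anti
  th := fun α A => pwa d1 (S2.th α A)
  th_anti := by
    intro α A β B
    ext1 v
    have h := pwa_anti S2 α A β B v
    have h2 : (pwa d1 (S2.th α A) * pwa d1 (S2.th β B) + pwa d1 (S2.th β B) * pwa d1 (S2.th α A)) v =
      pwa d1 (S2.th α A) (pwa d1 (S2.th β B) v) + pwa d1 (S2.th β B) (pwa d1 (S2.th α A) v) := rfl
    rw [h2, h]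
    by_cases hab : α = β ∧ A = B
    · simp only [if_pos hab]
      rfl
    · simp only [if_neg hab]
      rfl
  κ := S2.κ
  κ_pos := S2.κ_pos
  f := S2.f
  f_swap := S2.f_swap
  f_cyc := S2.f_cyc
  f_jac := S2.f_jac
  g_real := S2.g_real
  th_sa := fun α A v w => pwa_sa S2 α A v w

/-- the Clifford system of `S2` acting pointwise on a space `Z` of `L²` functions on `Cfg d1` -/
noncomputable def lft (S2 : Setup d2 F) (Z : Submodule ℂ (Lp F 2 (volume : Measure (Cfg d1))))
    (hZ : ∀ α A, ∀ Ψ ∈ Z, pwa d1 (S2.th α A) Ψ ∈ Z) : Setup d2 Z := (lfa d1 S2).rst Z hZ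

end Setup

/-- the zero mode of `S` exists and is unique up to a factor -/
def OneD (S : Setup d F) : Prop := ∃ Ψ₀ : Lp F 2 (volume : Measure (Cfg d)), S.IsZM Ψ₀ ∧ Ψ₀ ≠ 0 ∧
  ∀ Ψ : Lp F 2 (volume : Measure (Cfg d)), S.IsZM Ψ → ∃ c : ℂ, Ψ = c • Ψ₀

/-- `OneD` for all irreducible modules of the Lie algebra with structure constants `f` -/
def OneA.{u} (κ : ℝ) (f : Fin d → Fin d → Fin d → ℝ) : Prop :=
  ∀ (E : Type u) [NormedAddCommGroup E] [InnerProductSpace ℂ E] (_ : FiniteDimensional ℂ E) (S : Setup d E),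
    S.f = f → S.κ = κ → S.Irr → (∃ v : E, v ≠ 0) → OneD S

/-- vectors of `K0` annihilated by the `Γ`-annihilators of all colours of `S` -/
def vca (S : Setup d F) (K0 : Submodule ℂ F) : Submodule ℂ F where
  carrier := {v | v ∈ K0 ∧ ∀ A α, S.amF A α v = 0}
  add_mem' := fun {a b} ha hb => ⟨K0.add_mem ha.1 hb.1, fun A α => by rw [map_add, ha.2, hb.2, add_zero]⟩
  zero_mem' := ⟨K0.zero_mem, fun A α => map_zero _⟩
  smul_mem' := fun c a ha => ⟨K0.smul_mem c ha.1, fun A α => by rw [map_smul, ha.2, smul_zero]⟩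

/-- `K0` is an irreducible module of the fermions of `S` -/
structure IrrOn (S : Setup d F) (K0 : Submodule ℂ F) : Prop where
  inv : ∀ α A, ∀ v ∈ K0, S.th α A v ∈ K0
  ne : K0 ≠ ⊥
  irr : ∀ W : Submodule ℂ F, W ≤ K0 → (∀ α A, ∀ v ∈ W, S.th α A v ∈ W) → W = ⊥ ∨ W = K0

/-- two Clifford systems on the same space: all fermions anticommute, same gamma matrices -/
structure Ant (S1 : Setup d1 F) (S2 : Setup d2 F) : Prop where
  g : S1.g = S2.g
  anti : ∀ α A β B, S1.th α A * S2.th β B + S2.th β B * S1.th α A = 0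

/-- the two Clifford systems act irreducibly on `K0` together -/
structure IrrOn2 (S1 : Setup d1 F) (S2 : Setup d2 F) (K0 : Submodule ℂ F) : Prop where
  inv1 : ∀ α A, ∀ v ∈ K0, S1.th α A v ∈ K0
  inv2 : ∀ α A, ∀ v ∈ K0, S2.th α A v ∈ K0
  ne : K0 ≠ ⊥
  irr : ∀ W : Submodule ℂ F, W ≤ K0 → (∀ α A, ∀ v ∈ W, S1.th α A v ∈ W) → (∀ α A, ∀ v ∈ W, S2.th α A v ∈ W) →
    W = ⊥ ∨ W = K0

end Vale.Agent.P353.Z
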