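import Vale.Agent.P353.AN.X2.FubA
import Vale.Agent.P353.Z.Tools
import Vale.Agent.P353.AN.D.SecP

/-! # P353, all `N`, block X2, X2-Fub, part B: coefficients of test functions in a finite dimensional space of `L²` functions -/

open MeasureTheory Filter Topology Matrix
open scoped ContDiff

namespace Vale.Agent.P353.Z.AX2

/-! ### parametric integrals with a locally integrable kernel -/

section wpar

set_option linter.unusedSectionVars false

universe u v

variable {P W : Type} [NormedAddCommGroup P] [NormedSpace ℝ P]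
  [NormedAddCommGroup W] [NormedSpace ℝ W] [FiniteDimensional ℝ W] [SecondCountableTopology W] [MeasurableSpace W] [BorelSpace W]
  {μ : Measure W}

lemma fb_int {E : Type u} {E' : Type v} [NormedAddCommGroup E] [NormedSpace ℝ E] [NormedAddCommGroup E']
    [NormedSpace ℝ E'] {k : W → E →L[ℝ] E'} (hk : LocallyIntegrable k μ) {Φ : P × W → E} (hΦ : Continuous Φ)
    (hc : HasCompactSupport Φ) (p : P) : Integrable (fun w => k w (Φ (p, w))) μ := by
  set K₂ : Set W := Prod.snd '' tsupport Φ with hK₂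
  have hK : IsCompact K₂ := hc.isCompact.image continuous_snd
  obtain ⟨M, hM⟩ := hc.exists_bound_of_continuous hΦ
  have hz : ∀ w, w ∉ K₂ → Φ (p, w) = 0 := fun w hw =>
    image_eq_zero_of_notMem_tsupport fun h => hw ⟨(p, w), h, rfl⟩
  have h1 : IntegrableOn k K₂ μ := hk.integrableOn_isCompact hK
  have h2 : IntegrableOn (fun w => k w (Φ (p, w))) K₂ μ := by
    refine Integrable.mono' (h1.norm.mul_const M) ?_ (Eventually.of_forall fun w => ?_)
    · exact (ContinuousLinearMap.id ℝ (E →L[ℝ] E')).aestronglyMeasurable_comp₂ h1.aestronglyMeasurable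
        (hΦ.comp (continuous_const.prodMk continuous_id)).aestronglyMeasurable
    · exact ((k w).le_opNorm _).trans (mul_le_mul_of_nonneg_left (hM _) (norm_nonneg _))
  refine (integrableOn_iff_integrable_of_support_subset fun w hw => ?_).1 h2
  by_contra h
  exact hw (by simp only [hz w h, map_zero])

lemma fb_cint {E : Type u} {E' : Type v} [NormedAddCommGroup E] [NormedSpace ℝ E] [NormedAddCommGroup E']
    [NormedSpace ℝ E'] {k : W → E →L[ℝ] E'} (hk : LocallyIntegrable k μ) {Φ : P × W → P →L[ℝ] E} (hΦ : Continuous Φ)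
    (hc : HasCompactSupport Φ) (p : P) : Integrable (fun w => (k w).comp (Φ (p, w))) μ := by
  set K₂ : Set W := Prod.snd '' tsupport Φ with hK₂
  have hK : IsCompact K₂ := hc.isCompact.image continuous_snd
  obtain ⟨M, hM⟩ := hc.exists_bound_of_continuous hΦ
  have hz : ∀ w, w ∉ K₂ → Φ (p, w) = 0 := fun w hw =>
    image_eq_zero_of_notMem_tsupport fun h => hw ⟨(p, w), h, rfl⟩
  have h1 : Integrable (K₂.indicator fun w => ‖k w‖ * M) μ := by
    rw [integrable_indicator_iff hK.measurableSet]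
    exact (hk.integrableOn_isCompact hK).norm.mul_const M
  refine Integrable.mono' h1 ?_ (Eventually.of_forall fun w => ?_)
  · exact (ContinuousLinearMap.compL ℝ P E E').aestronglyMeasurable_comp₂ hk.aestronglyMeasurable
      (hΦ.comp (continuous_const.prodMk continuous_id)).aestronglyMeasurable
  · by_cases hw : w ∈ K₂
    · rw [Set.indicator_of_mem hw]
      exact (ContinuousLinearMap.opNorm_comp_le _ _).trans (mul_le_mul_of_nonneg_left (hM _) (norm_nonneg _))
    · rw [Set.indicator_of_notMem hw, hz w hw, ContinuousLinearMap.comp_zero, norm_zero]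

lemma fb_hasFDerivAt {E : Type u} {E' : Type v} [NormedAddCommGroup E] [NormedSpace ℝ E] [NormedAddCommGroup E']
    [NormedSpace ℝ E'] {k : W → E →L[ℝ] E'} (hk : LocallyIntegrable k μ) {Φ : P × W → E} (hΦ : ContDiff ℝ ∞ Φ)
    (hc : HasCompactSupport Φ) (p₀ : P) :
    HasFDerivAt (fun p => ∫ w, k w (Φ (p, w)) ∂μ)
      (∫ w, (k w).comp ((fderiv ℝ Φ (p₀, w)).comp (ContinuousLinearMap.inl ℝ P W)) ∂μ) p₀ := by
  set Φ' : P × W → P →L[ℝ] E := fun q => (fderiv ℝ Φ q).comp (ContinuousLinearMap.inl ℝ P W) with hΦ'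
  have hs : ContDiff ℝ ∞ Φ' := AD.par_smooth hΦ
  have hc' : HasCompactSupport Φ' := AD.par_supp hc
  obtain ⟨M, hM⟩ := hc'.exists_bound_of_continuous hs.continuous
  set K₂ : Set W := Prod.snd '' tsupport Φ' with hK₂
  have hK : IsCompact K₂ := hc'.isCompact.image continuous_snd
  refine hasFDerivAt_integral_of_dominated_of_fderiv_le (F := fun p w => k w (Φ (p, w)))
    (F' := fun p w => (k w).comp (Φ' (p, w))) (s := Set.univ) (bound := K₂.indicator fun w => ‖k w‖ * M) univ_mem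
    (Eventually.of_forall fun p => ?_) (fb_int hk hΦ.continuous hc p₀)
    ?_ (Eventually.of_forall fun w p _ => ?_) ?_ (Eventually.of_forall fun w p _ => ?_)
  · exact (fb_int hk hΦ.continuous hc p).aestronglyMeasurable
  · exact (fb_cint hk hs.continuous hc' p₀).aestronglyMeasurable
  · by_cases hw : w ∈ K₂
    · rw [Set.indicator_of_mem hw]
      exact (ContinuousLinearMap.opNorm_comp_le _ _).trans (mul_le_mul_of_nonneg_left (hM _) (norm_nonneg _))
    · rw [Set.indicator_of_notMem hw]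
      have : Φ' (p, w) = 0 := image_eq_zero_of_notMem_tsupport fun h => hw ⟨(p, w), h, rfl⟩
      rw [this, ContinuousLinearMap.comp_zero, norm_zero]
  · rw [integrable_indicator_iff hK.measurableSet]
    exact (hk.integrableOn_isCompact hK).norm.mul_const M
  · have h1 : HasFDerivAt Φ (fderiv ℝ Φ (p, w)) (p, w) :=
      (hΦ.differentiable (by simp) _).hasFDerivAt
    have h2 : HasFDerivAt (fun p : P => (p, w)) (ContinuousLinearMap.inl ℝ P W) p :=
      (hasFDerivAt_id p).prodMk (hasFDerivAt_const w p)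
    exact (k w).hasFDerivAt.comp p (h1.comp p h2)

end wpar

/-! ### the coefficients -/

variable {d d1 d2 : ℕ} {F : Type*} [NormedAddCommGroup F] [InnerProductSpace ℂ F]

/-- the coefficient of `u` along `o` -/
noncomputable def fbc (ψ : Spl d1 d2 d) (o : Lp F 2 (volume : Measure (Cfg d1))) (u : Cfg d → F) (x2 : Cfg d2) : ℂ :=
  ∫ x1, inner ℂ (o x1) (u (AD.cmb ψ x1 x2))

/-- the kernel of the coefficient -/
noncomputable def fbk (v : F) : F →L[ℝ] ℂ := (innerSL ℂ v).restrictScalars ℝ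

lemma fbk_cont : Continuous (fbk : F → F →L[ℝ] ℂ) :=
  (ContinuousLinearMap.continuous_restrictScalars ℝ).comp (innerSL ℂ).continuous

lemma fbk_norm (v : F) : ‖fbk v‖ ≤ ‖v‖ := by
  refine ContinuousLinearMap.opNorm_le_bound _ (norm_nonneg _) fun w => ?_
  exact norm_inner_le_norm v w

lemma fbk_loc (o : Lp F 2 (volume : Measure (Cfg d1))) : LocallyIntegrable (fun x1 => fbk (o x1)) volume := by
  have h := (Lp.memLp o).locallyIntegrable (by norm_num)
  intro x
  obtain ⟨s, hs, h1⟩ := h x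
  refine ⟨s, hs, Integrable.mono' h1.norm ?_ (Eventually.of_forall fun y => fbk_norm _)⟩
  exact fbk_cont.comp_aestronglyMeasurable h1.aestronglyMeasurable

/-- `u` in the coordinates `(x2, x1)` -/
noncomputable def fbU (ψ : Spl d1 d2 d) (u : Cfg d → F) (q : Cfg d2 × Cfg d1) : F := u (fuE (spsw ψ) q)

omit [NormedAddCommGroup F] [InnerProductSpace ℂ F] in
lemma fbU_apply (ψ : Spl d1 d2 d) (u : Cfg d → F) (x2 : Cfg d2) (x1 : Cfg d1) :
    fbU ψ u (x2, x1) = u (AD.cmb ψ x1 x2) := by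
  unfold fbU
  rw [fuE_apply, fu_cmb_sw]

lemma fbU_smooth (ψ : Spl d1 d2 d) {u : Cfg d → F} (hu : Setup.Tst u) : ContDiff ℝ ∞ (fbU ψ u) :=
  hu.1.comp (fuE (spsw ψ)).contDiff

lemma fbU_hcs (ψ : Spl d1 d2 d) {u : Cfg d → F} (hu : Setup.Tst u) : HasCompactSupport (fbU ψ u) := by
  have hcont : Continuous fun x : Cfg d => (AD.zp ψ x, AD.sp ψ x) :=
    (fu_contDiff_sp (spsw ψ)).continuous.prodMk (fu_contDiff_sp ψ).continuous
  refine HasCompactSupport.intro (K := (fun x : Cfg d => (AD.zp ψ x, AD.sp ψ x)) '' tsupport u)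
    (hu.2.isCompact.image hcont) ?_
  rintro ⟨x2, x1⟩ hq
  rw [fbU_apply]
  refine image_eq_zero_of_notMem_tsupport fun h => hq ⟨_, h, ?_⟩
  simp only [AD.sq873_zp, AD.sq873_sp]

lemma fbc_eq (ψ : Spl d1 d2 d) (o : Lp F 2 (volume : Measure (Cfg d1))) (u : Cfg d → F) :
    fbc ψ o u = fun x2 => ∫ x1, fbk (o x1) (fbU ψ u (x2, x1)) := by
  funext x2
  unfold fbc
  refine integral_congr_ae (Eventually.of_forall fun x1 => ?_)
  simp only [fbU_apply]
  rfl

lemma fbc_hcs (ψ : Spl d1 d2 d) (o : Lp F 2 (volume : Measure (Cfg d1))) {u : Cfg d → F} (hu : Setup.Tst u) :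
    HasCompactSupport (fbc ψ o u) := by
  have hcont : Continuous fun x : Cfg d => AD.zp ψ x := (fu_contDiff_sp (spsw ψ)).continuous
  refine HasCompactSupport.intro (K := AD.zp ψ '' tsupport u) (hu.2.isCompact.image hcont) fun x2 hx => ?_
  unfold fbc
  have : ∀ x1, u (AD.cmb ψ x1 x2) = 0 := fun x1 =>
    image_eq_zero_of_notMem_tsupport fun h => hx ⟨_, h, AD.sq873_zp ψ x1 x2⟩
  simp only [this, inner_zero_right, integral_zero]

lemma fbU_fderiv (ψ : Spl d1 d2 d) {u : Cfg d → F} (hu : Setup.Tst u) (x2 : Cfg d2) (x1 : Cfg d1) (i : Fin 9)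
    (A : Fin d2) : fderiv ℝ (fbU ψ u) (x2, x1) (EuclideanSpace.single (i, A) 1, 0) =
      pd i (ψ (Sum.inr A)) u (AD.cmb ψ x1 x2) := by
  have h1 : HasFDerivAt u (fderiv ℝ u (fuE (spsw ψ) (x2, x1))) (fuE (spsw ψ) (x2, x1)) :=
    (hu.1.differentiable (by simp) _).hasFDerivAt
  have h2 : HasFDerivAt (fbU ψ u) ((fderiv ℝ u (fuE (spsw ψ) (x2, x1))).comp (fuE (spsw ψ))) (x2, x1) :=
    h1.comp _ (fuE (spsw ψ)).hasFDerivAt
  rw [h2.fderiv, ContinuousLinearMap.comp_apply, fuE_apply, fu_cmb_sw]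
  have h3 : fuE (spsw ψ) (EuclideanSpace.single (i, A) 1, 0) = EuclideanSpace.single (i, ψ (Sum.inr A)) 1 := by
    change AD.sq873_inc (spsw ψ) (EuclideanSpace.single (i, A) 1) + AD.sq873_inc (spsw (spsw ψ)) 0 = _
    rw [map_zero, add_zero, AD.sq873_inc_single]
    rfl
  rw [h3]
  rfl

lemma fbc_fderiv (ψ : Spl d1 d2 d) (o : Lp F 2 (volume : Measure (Cfg d1))) {u : Cfg d → F} (hu : Setup.Tst u)
    (x2 : Cfg d2) (i : Fin 9) (A : Fin d2) :
    fderiv ℝ (fbc ψ o u) x2 (EuclideanSpace.single (i, A) 1) = fbc ψ o (pd i (ψ (Sum.inr A)) u) x2 := by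
  rw [fbc_eq, (fb_hasFDerivAt (fbk_loc o) (fbU_smooth ψ hu) (fbU_hcs ψ hu) x2).fderiv]
  have hi := fb_cint (fbk_loc o) (AD.par_smooth (fbU_smooth ψ hu)).continuous (AD.par_supp (fbU_hcs ψ hu)) x2
  rw [ContinuousLinearMap.integral_apply hi]
  unfold fbc
  refine integral_congr_ae (Eventually.of_forall fun x1 => ?_)
  change fbk (o x1) (fderiv ℝ (fbU ψ u) (x2, x1) (EuclideanSpace.single (i, A) 1, 0)) = _
  rw [fbU_fderiv ψ hu]
  rfl

lemma fbc_diff (ψ : Spl d1 d2 d) (o : Lp F 2 (volume : Measure (Cfg d1))) {u : Cfg d → F} (hu : Setup.Tst u)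
    (x2 : Cfg d2) : DifferentiableAt ℝ (fbc ψ o u) x2 := by
  rw [fbc_eq]
  exact (fb_hasFDerivAt (fbk_loc o) (fbU_smooth ψ hu) (fbU_hcs ψ hu) x2).differentiableAt

lemma fb_clm_sum {n : ℕ} (L : Cfg n →L[ℝ] ℂ) :
    L = ∑ p, ((EuclideanSpace.proj p : Cfg n →L[ℝ] ℝ).smulRight (L (EuclideanSpace.single p 1))) := by
  ext x
  have hx : x = ∑ p, x p • (EuclideanSpace.single p (1 : ℝ) : Cfg n) := by
    ext q
    simp [Pi.single_apply]
  conv_lhs => rw [hx]
  rw [map_sum]
  simp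

lemma fbc_smooth_aux (ψ : Spl d1 d2 d) (o : Lp F 2 (volume : Measure (Cfg d1))) (n : ℕ) :
    ∀ u : Cfg d → F, Setup.Tst u → ContDiff ℝ n (fbc ψ o u) := by
  induction n with
  | zero =>
    intro u hu
    rw [Nat.cast_zero, contDiff_zero, continuous_iff_continuousAt]
    exact fun p => (fbc_diff ψ o hu p).continuousAt
  | succ n ih =>
    intro u hu
    rw [show ((n + 1 : ℕ) : WithTop ℕ∞) = (n : WithTop ℕ∞) + 1 by push_cast; rfl,
      contDiff_succ_iff_fderiv]
    refine ⟨fun p => fbc_diff ψ o hu p, by simp, ?_⟩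
    have h : fderiv ℝ (fbc ψ o u) = fun x2 => ∑ p : Fin 9 × Fin d2,
        ((EuclideanSpace.proj p : Cfg d2 →L[ℝ] ℝ).smulRight (fbc ψ o (pd p.1 (ψ (Sum.inr p.2)) u) x2)) := by
      funext x2
      rw [fb_clm_sum (fderiv ℝ (fbc ψ o u) x2)]
      refine Finset.sum_congr rfl fun p _ => ?_
      rw [← fbc_fderiv ψ o hu]
    rw [h]
    refine ContDiff.sum fun p _ => ?_
    exact ((ContinuousLinearMap.smulRightL ℝ (Cfg d2) ℂ (EuclideanSpace.proj p)).contDiff).comp
      (ih _ (hu.pd _ _))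

lemma fbc_smooth (ψ : Spl d1 d2 d) (o : Lp F 2 (volume : Measure (Cfg d1))) {u : Cfg d → F} (hu : Setup.Tst u) :
    ContDiff ℝ ∞ (fbc ψ o u) := by
  rw [contDiff_infty]
  exact fun n => fbc_smooth_aux ψ o n u hu

end Vale.Agent.P353.Z.AX2
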