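import Vale.Agent.P353.AN.X2.FubA

/-! # P353, all `N`, block X2, X2-Fub, part C: slices of zero modes of a direct sum -/

open MeasureTheory Filter Topology Matrix
open scoped ContDiff

namespace Vale.Agent.P353.Z.AX2

variable {d d1 d2 : ℕ} {F : Type*} [NormedAddCommGroup F] [InnerProductSpace ℂ F]
variable {S : Setup d F} {S1 : Setup d1 F} {S2 : Setup d2 F} {ψ : Spl d1 d2 d}

/-- a nonnegative sequence with integrals tending to zero has a subsequence tending to zero a.e. -/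
theorem fc775_sub {α : Type*} [MeasurableSpace α] {μ : Measure α} (f : ℕ → α → ℝ) (h0 : ∀ n x, 0 ≤ f n x)
    (hi : ∀ n, Integrable (f n) μ) (hl : Tendsto (fun n => ∫ x, f n x ∂μ) atTop (𝓝 0)) :
    ∃ l : ℕ → ℕ, StrictMono l ∧ ∀ᵐ x ∂μ, Tendsto (fun n => f (l n) x) atTop (𝓝 0) := by
  have h1 : TendstoInMeasure μ f atTop (fun _ => (0 : ℝ)) := by
    refine tendstoInMeasure_of_tendsto_eLpNorm (p := 1) one_ne_zero (fun n => (hi n).1) aestronglyMeasurable_const ?_
    have h2 : ∀ n, eLpNorm (f n - fun _ => (0 : ℝ)) 1 μ = ENNReal.ofReal (∫ x, f n x ∂μ) := by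
      intro n
      rw [eLpNorm_one_eq_lintegral_enorm, ofReal_integral_eq_lintegral_ofReal (hi n) (ae_of_all _ (h0 n))]
      refine lintegral_congr fun x => ?_
      rw [Pi.sub_apply, sub_zero, Real.enorm_of_nonneg (h0 n x)]
    simp only [h2]
    have h3 := (ENNReal.continuous_ofReal.tendsto 0).comp hl
    rwa [ENNReal.ofReal_zero] at h3
  exact h1.exists_seq_tendsto_ae

theorem fu_slice (h1 : FuS S S1 ψ) (h2 : FuS S S2 (spsw ψ)) {Ψ : Lp F 2 (volume : Measure (Cfg d))}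
    {u : ℕ → Cfg d → F} (hu : S.Apx Ψ u) (g : ℕ → Cfg d2 → ℝ) (hg0 : ∀ n x, 0 ≤ g n x) (hgi : ∀ n, Integrable (g n))
    (hg : Tendsto (fun n => ∫ x, g n x) atTop (𝓝 0)) :
    ∃ l : ℕ → ℕ, StrictMono l ∧ ∀ᵐ x2 : Cfg d2, ∃ hm : MemLp (fun x1 : Cfg d1 => Ψ (AD.cmb ψ x1 x2)) 2 volume,
      S1.IsZM (hm.toLp _) ∧
      Tendsto (fun n => ∫ x1 : Cfg d1, ‖u (l n) (AD.cmb ψ x1 x2) - Ψ (AD.cmb ψ x1 x2)‖ ^ 2) atTop (𝓝 0) ∧
      Tendsto (fun n => g (l n) x2) atTop (𝓝 0) := by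
  obtain ⟨hT, hG, hL, hQ⟩ := hu
  -- the three parts
  have iA : ∀ n, Integrable (fun x => ‖u n x - Ψ x‖ ^ 2) := by
    intro n
    have m1 : MemLp (u n) 2 (volume : Measure (Cfg d)) := (hT n).1.continuous.memLp_of_hasCompactSupport (hT n).2
    have m2 : MemLp (fun x => u n x - Ψ x) 2 (volume : Measure (Cfg d)) := m1.sub (Lp.memLp Ψ)
    exact m2.integrable_norm_pow (by norm_num)
  have iB : ∀ n β, Integrable (fun x => ‖fuQ S1 ψ β (u n) x‖ ^ 2) := fun n β => (fuQ_tst S1 ψ β (hT n)).norm_sq_int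
  obtain ⟨a, ha⟩ : ∃ a : ℕ → Cfg d2 → ℝ, a = fun n x2 => ∫ x1, ‖u n (AD.cmb ψ x1 x2) - Ψ (AD.cmb ψ x1 x2)‖ ^ 2 := ⟨_, rfl⟩
  obtain ⟨b, hb⟩ : ∃ b : ℕ → Cfg d2 → ℝ, b = fun n x2 => ∑ β, ∫ x1, ‖fuQ S1 ψ β (u n) (AD.cmb ψ x1 x2)‖ ^ 2 := ⟨_, rfl⟩
  have a0 : ∀ n x, 0 ≤ a n x := by
    intro n x
    rw [ha]
    exact integral_nonneg fun _ => by positivity
  have b0 : ∀ n x, 0 ≤ b n x := by
    intro n x
    rw [hb]
    exact Finset.sum_nonneg fun β _ => integral_nonneg fun _ => by positivity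
  have ai : ∀ n, Integrable (a n) := by
    intro n
    rw [ha]
    exact fu_intr ψ (iA n)
  have bi : ∀ n, Integrable (b n) := by
    intro n
    rw [hb]
    exact integrable_finsetSum _ fun β _ => fu_intr ψ (iB n β)
  have al : Tendsto (fun n => ∫ x, a n x) atTop (𝓝 0) := by
    have : ∀ n, ∫ x, a n x = ∫ x, ‖u n x - Ψ x‖ ^ 2 := by
      intro n
      rw [ha, fu_int1 ψ (iA n)]
    simp only [this]
    exact hL
  have bl : Tendsto (fun n => ∫ x, b n x) atTop (𝓝 0) := by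
    have e1 : ∀ n, ∫ x, b n x = ∑ β, ∫ x, ‖fuQ S1 ψ β (u n) x‖ ^ 2 := by
      intro n
      rw [hb]
      simp only
      rw [integral_finsetSum _ fun β _ => fu_intr ψ (iB n β)]
      exact Finset.sum_congr rfl fun β _ => (fu_int1 ψ (iB n β)).symm
    have e2 : ∀ n, ∫ x, b n x ≤ ∑ β, ∫ x, ‖S.Q β (u n) x‖ ^ 2 := by
      intro n
      rw [e1, fu_energy h1 h2 (hT n)]
      have : 0 ≤ ∑ β, ∫ x, ‖fuQ S2 (spsw ψ) β (u n) x‖ ^ 2 :=
        Finset.sum_nonneg fun β _ => integral_nonneg fun _ => by positivity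
      linarith
    have e3 : Tendsto (fun n => ∑ β, ∫ x, ‖S.Q β (u n) x‖ ^ 2) atTop (𝓝 0) := by
      have := tendsto_finsetSum (Finset.univ : Finset (Fin 16)) fun β _ => hQ β
      simpa using this
    exact squeeze_zero (fun n => integral_nonneg (b0 n)) e2 e3
  obtain ⟨l, hl, hae⟩ := fc775_sub (fun n x => a n x + b n x + g n x)
    (fun n x => add_nonneg (add_nonneg (a0 n x) (b0 n x)) (hg0 n x)) (fun n => ((ai n).add (bi n)).add (hgi n)) (by
      have e1 : ∀ n, ∫ x, (a n x + b n x + g n x) = (∫ x, a n x) + (∫ x, b n x) + ∫ x, g n x := by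
        intro n
        have k1 : Integrable (fun x => a n x + b n x) := (ai n).add (bi n)
        rw [integral_add k1 (hgi n), integral_add (ai n) (bi n)]
      simp only [e1]
      simpa using (al.add bl).add hg)
  refine ⟨l, hl, ?_⟩
  have iΨ : Integrable (fun x => ‖Ψ x‖ ^ 2) := (Lp.memLp Ψ).integrable_norm_pow (by norm_num)
  have hs := (fu_intg ψ iΨ).prod_left_ae
  filter_upwards [hae, hs] with x2 hx2 hs2
  have hsm : StronglyMeasurable (fun x1 : Cfg d1 => Ψ (AD.cmb ψ x1 x2)) :=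
    (Lp.stronglyMeasurable Ψ).comp_measurable (AD.sq873_contDiff ψ x2).continuous.measurable
  have hm : MemLp (fun x1 : Cfg d1 => Ψ (AD.cmb ψ x1 x2)) 2 volume :=
    (memLp_two_iff_integrable_sq_norm hsm.aestronglyMeasurable).2 hs2
  have ta : Tendsto (fun n => a (l n) x2) atTop (𝓝 0) :=
    squeeze_zero (fun n => a0 _ _) (fun n => by
      have := b0 (l n) x2
      have := hg0 (l n) x2
      linarith) hx2
  have tb : Tendsto (fun n => b (l n) x2) atTop (𝓝 0) :=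
    squeeze_zero (fun n => b0 _ _) (fun n => by
      have := a0 (l n) x2
      have := hg0 (l n) x2
      linarith) hx2
  have tg : Tendsto (fun n => g (l n) x2) atTop (𝓝 0) :=
    squeeze_zero (fun n => hg0 _ _) (fun n => by
      have := a0 (l n) x2
      have := b0 (l n) x2
      linarith) hx2
  rw [ha] at ta
  refine ⟨hm, ⟨fun n y => u (l n) (AD.cmb ψ y x2), fun n => fu_sl ψ (hT (l n)) x2, fun n C x => ?_, ?_, fun β => ?_⟩,
    ta, tg⟩
  · rw [← fu_G h1 C (hT (l n)).1]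
    exact hG _ _ _
  · refine ta.congr fun n => integral_congr_ae ?_
    filter_upwards [hm.coeFn_toLp] with x hx
    rw [hx]
  · refine squeeze_zero (fun n => integral_nonneg fun _ => by positivity) (fun n => ?_) tb
    rw [hb]
    simp only [fuQ_cmb]
    exact Finset.single_le_sum (f := fun β => ∫ x1, ‖S1.Q β (fun y => u (l n) (AD.cmb ψ y x2)) x1‖ ^ 2)
      (fun β _ => integral_nonneg fun _ => by positivity) (Finset.mem_univ β)

end Vale.Agent.P353.Z.AX2
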