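import Vale.Agent.P353.AN.X2.FubB

/-! # P353, all `N`, block X2, X2-Fub, part D: projection of test functions onto a finite dimensional space of `L²` functions -/

open MeasureTheory Filter Topology Matrix
open scoped ContDiff

namespace Vale.Agent.P353.Z.AX2

variable {d d1 d2 : ℕ} {F : Type*} [NormedAddCommGroup F] [InnerProductSpace ℂ F]

/-- the projection of `u` onto `Z`, as a function of `x2` -/
noncomputable def fdc (Z : Submodule ℂ (Lp F 2 (volume : Measure (Cfg d1)))) [FiniteDimensional ℂ Z] (ψ : Spl d1 d2 d)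
    (u : Cfg d → F) (x2 : Cfg d2) : Z :=
  ∑ j, fbc ψ (stdOrthonormalBasis ℂ Z j : Z) u x2 • stdOrthonormalBasis ℂ Z j

lemma fd_inner_toLp (o : Lp F 2 (volume : Measure (Cfg d1))) {s : Cfg d1 → F} (hs : MemLp s 2 volume) :
    ∫ x1, inner ℂ (o x1) (s x1) = inner ℂ o (hs.toLp s) := by
  rw [MeasureTheory.L2.inner_def]
  refine integral_congr_ae ?_
  filter_upwards [hs.coeFn_toLp] with x hx
  rw [hx]

section Zs

variable (Z : Submodule ℂ (Lp F 2 (volume : Measure (Cfg d1)))) [FiniteDimensional ℂ Z] (ψ : Spl d1 d2 d)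

/-- `fdc` is the orthogonal projection of the slice -/
lemma fdc_eq {u : Cfg d → F} {x2 : Cfg d2} (hs : MemLp (fun x1 => u (AD.cmb ψ x1 x2)) 2 volume) :
    fdc Z ψ u x2 = Z.orthogonalProjectionOnto (hs.toLp _) := by
  obtain ⟨p, hp⟩ : ∃ p : Z, p = Z.orthogonalProjectionOnto (hs.toLp _) := ⟨_, rfl⟩
  have hq : ∀ z : Z, inner ℂ z p = inner ℂ (z : Lp F 2 (volume : Measure (Cfg d1))) (hs.toLp _) := by
    intro z
    rw [hp]
    exact Submodule.inner_orthogonalProjectionOnto_eq_of_mem_left z _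
  rw [← hp]
  have h : ∀ z : Z, fbc ψ (z : Lp F 2 (volume : Measure (Cfg d1))) u x2 = inner ℂ z p := by
    intro z
    rw [hq]
    exact fd_inner_toLp _ hs
  unfold fdc
  refine (Finset.sum_congr rfl fun j _ => ?_).trans ((stdOrthonormalBasis ℂ Z).sum_repr' p)
  exact congrArg (fun c : ℂ => c • stdOrthonormalBasis ℂ Z j) (h _)

lemma fdc_inner {u : Cfg d → F} {x2 : Cfg d2} (hs : MemLp (fun x1 => u (AD.cmb ψ x1 x2)) 2 volume) (z : Z) :
    inner ℂ z (fdc Z ψ u x2) = ∫ x1, inner ℂ ((z : Lp F 2 (volume : Measure (Cfg d1))) x1) (u (AD.cmb ψ x1 x2)) := by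
  rw [fdc_eq Z ψ hs, Submodule.inner_orthogonalProjectionOnto_eq_of_mem_left, fd_inner_toLp _ hs]

lemma fd_norm_sq {s : Cfg d1 → F} (hs : MemLp s 2 (volume : Measure (Cfg d1))) :
    ‖hs.toLp s‖ ^ 2 = ∫ x1, ‖s x1‖ ^ 2 := by
  have h1 : ((‖hs.toLp s‖ ^ 2 : ℝ) : ℂ) = ((∫ x1, ‖s x1‖ ^ 2 : ℝ) : ℂ) := by
    rw [← integral_complex_ofReal]
    have h2 := inner_self_eq_norm_sq_to_K (𝕜 := ℂ) (hs.toLp s)
    rw [MeasureTheory.L2.inner_def] at h2
    push_cast
    refine h2.symm.trans (integral_congr_ae ?_)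
    filter_upwards [hs.coeFn_toLp] with x hx
    rw [hx, inner_self_eq_norm_sq_to_K]
    norm_cast
  exact Complex.ofReal_injective h1

/-- Bessel -/
lemma fdc_norm {u : Cfg d → F} {x2 : Cfg d2} (hs : MemLp (fun x1 => u (AD.cmb ψ x1 x2)) 2 volume) :
    ‖fdc Z ψ u x2‖ ^ 2 ≤ ∫ x1, ‖u (AD.cmb ψ x1 x2)‖ ^ 2 := by
  rw [← fd_norm_sq hs, fdc_eq Z ψ hs]
  exact pow_le_pow_left₀ (norm_nonneg _) (Submodule.norm_orthogonalProjectionOnto_apply_le _ _) 2

/-- `fdc` depends only on the slice -/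
lemma fdc_congr {u v : Cfg d → F} {x2 : Cfg d2} (h : ∀ x1, u (AD.cmb ψ x1 x2) = v (AD.cmb ψ x1 x2)) :
    fdc Z ψ u x2 = fdc Z ψ v x2 := by
  unfold fdc fbc
  simp only [h]

variable {u v : Cfg d → F}

lemma fdc_add (hu : Setup.Tst u) (hv : Setup.Tst v) (x2 : Cfg d2) :
    fdc Z ψ (fun x => u x + v x) x2 = fdc Z ψ u x2 + fdc Z ψ v x2 := by
  refine ext_inner_left ℂ fun z => ?_
  have h1 := (fu_sl ψ hu x2).memLp
  have h2 := (fu_sl ψ hv x2).memLp
  rw [inner_add_right, fdc_inner Z ψ h1, fdc_inner Z ψ h2,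
    fdc_inner Z ψ (u := fun x => u x + v x) (fu_sl ψ (hu.add hv) x2).memLp,
    ← integral_add (integrable_inner_memLp (Lp.memLp _) h1) (integrable_inner_memLp (Lp.memLp _) h2)]
  refine integral_congr_ae (Eventually.of_forall fun x1 => ?_)
  simp only [inner_add_right]

lemma fdc_smul (c : ℂ) (u : Cfg d → F) (x2 : Cfg d2) :
    fdc Z ψ (fun x => c • u x) x2 = c • fdc Z ψ u x2 := by
  unfold fdc fbc
  simp only [inner_smul_right, integral_const_mul, Finset.smul_sum, smul_smul]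

lemma fdc_zero (x2 : Cfg d2) : fdc Z ψ (fun _ => (0 : F)) x2 = 0 := by
  unfold fdc fbc
  simp

lemma fd_tst_smul (c : ℂ) (hu : Setup.Tst u) : Setup.Tst (fun x => c • u x) :=
  ⟨hu.1.const_smul c, hu.2.comp_left (g := fun w => c • w) (smul_zero c)⟩

lemma fd_tst_zero : Setup.Tst (fun _ : Cfg d => (0 : F)) :=
  ⟨contDiff_const, HasCompactSupport.zero⟩

lemma fd_tst_sum {ι : Type*} (s : Finset ι) {w : ι → Cfg d → F} (hw : ∀ i, Setup.Tst (w i)) :
    Setup.Tst (fun x => ∑ i ∈ s, w i x) := by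
  classical
  induction s using Finset.induction_on with
  | empty => simpa using fd_tst_zero
  | insert i s hi ih =>
    simp only [Finset.sum_insert hi]
    exact (hw i).add ih

lemma fdc_sum {ι : Type*} (s : Finset ι) {w : ι → Cfg d → F} (hw : ∀ i, Setup.Tst (w i)) (x2 : Cfg d2) :
    fdc Z ψ (fun x => ∑ i ∈ s, w i x) x2 = ∑ i ∈ s, fdc Z ψ (w i) x2 := by
  classical
  induction s using Finset.induction_on with
  | empty => simpa using fdc_zero Z ψ x2
  | insert i s hi ih =>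
    simp only [Finset.sum_insert hi]
    rw [fdc_add Z ψ (hw i) (fd_tst_sum s hw), ih]

lemma fdc_sub (hu : Setup.Tst u) (hv : Setup.Tst v) (x2 : Cfg d2) :
    fdc Z ψ (fun x => u x - v x) x2 = fdc Z ψ u x2 - fdc Z ψ v x2 := by
  have h1 : (fun x => u x - v x) = fun x => u x + (-1 : ℂ) • v x := by
    funext x
    rw [neg_one_smul, sub_eq_add_neg]
  rw [h1, fdc_add Z ψ hu (fd_tst_smul _ hv), fdc_smul, neg_one_smul, sub_eq_add_neg]

/-! ### smoothness -/

/-- sums of smooth coefficients times vectors -/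
lemma fd_coef {H : Type*} [NormedAddCommGroup H] [InnerProductSpace ℂ H] {ι : Type*} [Fintype ι] (c : ι → Cfg d2 → ℂ)
    (b : ι → H) (hc : ∀ j, ContDiff ℝ ∞ (c j)) (hs : ∀ j, HasCompactSupport (c j)) :
    Setup.Tst (fun x => ∑ j, c j x • b j) ∧ ∀ i A x, pd i A (fun x => ∑ j, c j x • b j) x =
      ∑ j, fderiv ℝ (c j) x (EuclideanSpace.single (i, A) 1) • b j := by
  have h1 : ∀ j, Setup.Tst (fun x => c j x • b j) := fun j =>
    ⟨(hc j).smul contDiff_const, (hs j).comp_left (g := fun z : ℂ => z • b j) (zero_smul ℂ (b j))⟩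
  refine ⟨fd_tst_sum _ h1, fun i A x => ?_⟩
  rw [pd_sum Finset.univ fun j _ => (h1 j).diff x]
  refine Finset.sum_congr rfl fun j _ => ?_
  rw [pd_csmul ((hc j).differentiable (by simp) x) (differentiableAt_const _)]
  simp [pd]

lemma fdc_tst (hu : Setup.Tst u) : Setup.Tst (fdc Z ψ u) :=
  (fd_coef _ _ (fun _ => fbc_smooth ψ _ hu) fun _ => fbc_hcs ψ _ hu).1

lemma fdc_pd (hu : Setup.Tst u) (i : Fin 9) (A : Fin d2) (x2 : Cfg d2) :
    pd i A (fdc Z ψ u) x2 = fdc Z ψ (pd i (ψ (Sum.inr A)) u) x2 := by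
  have h := (fd_coef (fun j => fbc ψ (stdOrthonormalBasis ℂ Z j : Z) u) (fun j => stdOrthonormalBasis ℂ Z j)
    (fun _ => fbc_smooth ψ _ hu) fun _ => fbc_hcs ψ _ hu).2 i A x2
  refine h.trans ?_
  unfold fdc
  simp only [fbc_fderiv ψ _ hu]

end Zs

end Vale.Agent.P353.Z.AX2
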