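import Vale.Agent.P353.AN.X2.Defs
import Vale.Agent.P353.AN.X.Stmt

/-! # P353, all `N`, block X2: zero modes with values in a module — statements (architect helper679)

A prover delivers the theorem named in the task in `Vale/Agent/P353/AN/X2/<File>.lean`, importing this file and landed files of `Z`,
`Z/U`, `AN`, with other statements as hypotheses. -/

open MeasureTheory Filter Topology Matrix
open scoped ContDiff

namespace Vale.Agent.P353.Z.AX2

universe u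

/-- **X2-Zms** PROOF. The set `{Ψ | IsZM Ψ ∧ Ψ ∈ K0 a.e.}` contains `0` and is closed under sums and multiples (add the approximants;
`∫‖(u+v) - (Ψ+Φ)‖² ≤ 2∫‖u-Ψ‖² + 2∫‖v-Φ‖²`, `Q_β`, `G_C` are linear on test functions; `Lp.coeFn_add`, `Lp.coeFn_smul`). -/
def ZmsStmt {d : ℕ} {F : Type u} [NormedAddCommGroup F] [InnerProductSpace ℂ F] (S : Setup d F) : Prop :=
  ∀ (K0 : Submodule ℂ F) (Ψ : Lp F 2 (volume : Measure (Cfg d))),
    Ψ ∈ S.zms K0 ↔ S.IsZM Ψ ∧ ∀ᵐ x ∂(volume : Measure (Cfg d)), Ψ x ∈ K0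

/-- **X2-Rst** zero modes of the restricted setup are the zero modes with values in `V`.
PROOF. `→`: compose the approximants with the inclusion. `←`: compose the approximants with the orthogonal projection onto `V` (it commutes
with all `S.th`, because `V` is invariant and `th` is self-adjoint). -/
def RstStmt {d : ℕ} {F : Type u} [NormedAddCommGroup F] [InnerProductSpace ℂ F] (S : Setup d F) : Prop :=
  FiniteDimensional ℂ F → ∀ (V : Submodule ℂ F) (hV : ∀ α A, ∀ v ∈ V, S.th α A v ∈ V),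
    (∀ Ψ : Lp V 2 (volume : Measure (Cfg d)), (S.rst V hV).IsZM Ψ ↔ S.IsZM (V.subtypeL.compLpL 2 volume Ψ)) ∧
    ∀ Φ : Lp F 2 (volume : Measure (Cfg d)), (∀ᵐ x ∂(volume : Measure (Cfg d)), Φ x ∈ V) →
      ∃ Ψ : Lp V 2 (volume : Measure (Cfg d)), Φ = V.subtypeL.compLpL 2 volume Ψ

/-- **X2-ZInv** the other fermions act on the zero modes. PROOF. `T = S2.th α A` anticommutes with every `S1.th`, so `S1.Q β (T u) = -T (S1.Q β u)`
(`S1.W` is linear in `S1.th`), and `S1.G C (T u) = T (S1.G C u)` (`cS` is bilinear). -/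
def ZInvStmt {d1 d2 : ℕ} {F : Type u} [NormedAddCommGroup F] [InnerProductSpace ℂ F] (S1 : Setup d1 F) (S2 : Setup d2 F) :
    Prop := Ant S1 S2 → ∀ K0 : Submodule ℂ F, (∀ α A, ∀ v ∈ K0, S2.th α A v ∈ K0) →
  ∀ α A, ∀ Ψ ∈ S1.zms K0, Setup.pwa d1 (S2.th α A) Ψ ∈ S1.zms K0

/-- **X2-Vex** a nonzero module (any dimension) contains a `Γ`-vacuum vector: `U.Vac_exists` with the isotropic space spanned by the
rows of `1 - iΓ` in every colour, as in `AN/F/Vac.lean`. -/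
def VexStmt {d : ℕ} {E : Type u} [NormedAddCommGroup E] [InnerProductSpace ℂ E] (S : Setup d E) : Prop :=
  (∃ v : E, v ≠ 0) → ∃ v : E, v ≠ 0 ∧ ∀ A α, S.amF A α v = 0

/-- **X2-VcaIrr** the vacuum space of the second system is irreducible for the first one, and the joint vacuum is a line.
PROOF. Let `J = {v ∈ K0 : S1.amF v = S2.amF v = 0}`; `J` is a line (`U.Vac_unique` for the irreducible module `K0` of all fermions: combine both
systems into one setup on `K0` with `d1 + d2` colours and `f = 0`; or repeat the proof). If `W ≠ ⊥` is an `S1`-submodule of `V = vca S2 K0`, then `W` contains an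
`S1`-vacuum vector (X2-Vex for `S1.rst W`), which lies in `J`; the orthogonal complement of `W` in `V` is a submodule too, if it were `≠ ⊥` it would
contain `J` as well: contradiction. `V` is `S1`-invariant since `S1.th` anticommutes with `S2.amF`. `V ≠ ⊥` by X2-Vex. -/
def VcaIrrStmt {d1 d2 : ℕ} {F : Type u} [NormedAddCommGroup F] [InnerProductSpace ℂ F] (S1 : Setup d1 F) (S2 : Setup d2 F) :
    Prop := FiniteDimensional ℂ F → Ant S1 S2 → ∀ K0 : Submodule ℂ F, IrrOn2 S1 S2 K0 →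
  IrrOn S1 (vca S2 K0) ∧ ∃ ζ ∈ vca S2 K0, ‖ζ‖ = 1 ∧ (∀ A α, S1.amF A α ζ = 0) ∧
    ∀ v ∈ vca S2 K0, (∀ A α, S1.amF A α v = 0) → ∃ c : ℂ, v = c • ζ

/-- **X2-Zvc** vacuum vectors of the lifted system = zero modes with values in the vacuum space. PROOF: `amF` is a linear combination of `th`,
`pwa` is pointwise, countably (finitely) many a.e. conditions. -/
def ZvcStmt {d1 d2 : ℕ} {F : Type u} [NormedAddCommGroup F] [InnerProductSpace ℂ F] (S1 : Setup d1 F) (S2 : Setup d2 F) :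
    Prop := ZmsStmt S1 → ∀ (K0 : Submodule ℂ F) (hZ : ∀ α A, ∀ Ψ ∈ S1.zms K0, Setup.pwa d1 (S2.th α A) Ψ ∈ S1.zms K0) (Ψ : S1.zms K0),
  (∀ A α, (S2.lft (S1.zms K0) hZ).amF A α Ψ = 0) ↔
    (Ψ : Lp F 2 (volume : Measure (Cfg d1))) ∈ S1.zms (vca S2 K0)

/-- output for a space of zero modes as a module -/
structure ZOut {d1 d2 : ℕ} {F : Type u} [NormedAddCommGroup F] [InnerProductSpace ℂ F] (S1 : Setup d1 F) (S2 : Setup d2 F)
    (K0 : Submodule ℂ F) (hZ : ∀ α A, ∀ Ψ ∈ S1.zms K0, Setup.pwa d1 (S2.th α A) Ψ ∈ S1.zms K0) : Prop where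
  fin : FiniteDimensional ℂ (S1.zms K0)
  irr : (S2.lft (S1.zms K0) hZ).Irr
  vac : ∃ k : S1.zms K0, ‖k‖ = 1 ∧ (∀ A α, (S2.lft (S1.zms K0) hZ).amF A α k = 0) ∧
    ∀ w : S1.zms K0, (∀ A α, (S2.lft (S1.zms K0) hZ).amF A α w = 0) → ∃ c : ℂ, w = c • k

/-- **X2-Zirr** the space of zero modes is an irreducible module of the other fermions. PROOF. `Z = S1.zms K0`. Its vacuum vectors are the zero modes with
values in `V = vca S2 K0` (X2-Zvc), a line by `OneD (S1.rst V _)` (X2-Rst). Let `W` = the submodule generated by the vacuum vector `k` (image of the finite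
dimensional algebra generated by the `S2.th`): finite dimensional, hence `Z = W ⊕ W^⊥`, `W^⊥` is a submodule; if `W^⊥ ≠ 0` it contains a vacuum vector
(X2-Vex), i.e. `k`: contradiction. The same argument for an arbitrary submodule. -/
def ZirrStmt {d1 d2 : ℕ} {F : Type u} [NormedAddCommGroup F] [InnerProductSpace ℂ F] (S1 : Setup d1 F) (S2 : Setup d2 F) :
    Prop := FiniteDimensional ℂ F → Ant S1 S2 → ∀ (K0 : Submodule ℂ F), IrrOn2 S1 S2 K0 →
  ∀ hV : ∀ α A, ∀ v ∈ vca S2 K0, S1.th α A v ∈ vca S2 K0, OneD (S1.rst (vca S2 K0) hV) →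
  ∀ hZ : ∀ α A, ∀ Ψ ∈ S1.zms K0, Setup.pwa d1 (S2.th α A) Ψ ∈ S1.zms K0, ZOut S1 S2 K0 hZ

/-- the structure constants `f` are the direct sum of `f1` and `f2` -/
structure DSum {d d1 d2 : ℕ} (ψ : Spl d1 d2 d) (f : Fin d → Fin d → Fin d → ℝ) (f1 : Fin d1 → Fin d1 → Fin d1 → ℝ)
    (f2 : Fin d2 → Fin d2 → Fin d2 → ℝ) : Prop where
  e1 : ∀ A B C, f (ψ (Sum.inl A)) (ψ (Sum.inl B)) (ψ (Sum.inl C)) = f1 A B C
  e2 : ∀ A B C, f (ψ (Sum.inr A)) (ψ (Sum.inr B)) (ψ (Sum.inr C)) = f2 A B C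
  m1 : ∀ A B C, f (ψ (Sum.inl A)) (ψ (Sum.inl B)) (ψ (Sum.inr C)) = 0
  m2 : ∀ A B C, f (ψ (Sum.inr A)) (ψ (Sum.inr B)) (ψ (Sum.inl C)) = 0

/-- **X2-Fub** zero modes of a direct sum = zero modes of the second summand with values in the zero modes of the first.
PROOF. `x = (x_1, x_2)` (coordinates `ψ`; measure preserving, cf. `AN/A/Coo.lean`). `Q_β = Q^{(1)}_β + Q^{(2)}_β` and `Q^{(1)}_βQ^{(2)}_β + Q^{(2)}_βQ^{(1)}_β = 0`, both
symmetric: `‖Q_βu‖² = ‖Q^{(1)}_βu‖² + ‖Q^{(2)}_βu‖²` for test functions. Let `Ψ` be a zero mode, `u_n` its approximants; `Z` = zero modes of `S1` (`K0 = ⊤`), orthonormal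
basis `ω_j`. For a subsequence and a.e. `x_2` (Fubini) `u_n(·,x_2) → Ψ(·,x_2)` in `L²`, `Q^{(1)}_βu_n(·,x_2) → 0`, so `Ψ(·,x_2) ∈ Z`. The functions
`c_n(x_2) = ∑_j⟨ω_j, u_n(·,x_2)⟩ω_j ∈ Z` are test functions, `G^{(2)}c_n = 0`, `Q^{(2)}_βc_n → 0` (`S2.th` is self-adjoint, preserves `Z`, acts on `Z` by `lft`),
`c_n → Ψ`: so `x_2 ↦ Ψ(·,x_2)` is a zero mode of `lft S2 Z`, unique up to a factor. EXISTENCE: let `c` be the zero mode of `lft S2 Z`, `c_n` its approximants, `ω_j^{(k)}` approximants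
of `ω_j` (chosen such that `S2.th` and `G^{(2)}` act on them by the same matrices as on the `ω_j`: take `ω^{(k)}` of the vacuum vector `k` of `Z` (with values in `vca S2 ⊤`) and
`ω_j^{(k)} = X_j ω^{(k)}` with `X_j` in the algebra generated by `S2.th`, `ω_j = X_jk`; relations hold on `vca S2 ⊤` because a relation `Xk = 0` implies `Xv = 0` for all
`v ∈ vca S2 ⊤`: `‖Xv‖² = ⟨v,X*Xv⟩` is `‖v‖²` times a universal number). Then `u = ∑_j⟨ω_j,c_n(x_2)⟩ω_j^{(k)}(x_1)` are approximants. -/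
def FubStmt : Prop := ∀ (d d1 d2 : ℕ) (F : Type u) [NormedAddCommGroup F] [InnerProductSpace ℂ F] (_ : FiniteDimensional ℂ F)
  (S : Setup d F) (S1 : Setup d1 F) (S2 : Setup d2 F) (ψ : Spl d1 d2 d), S.Irr → (∃ v : F, v ≠ 0) →
  DSum ψ S.f S1.f S2.f → S1.κ = S.κ → S2.κ = S.κ → S1.g = S.g → S2.g = S.g →
  (∀ α A, S1.th α A = S.th α (ψ (Sum.inl A))) → (∀ α A, S2.th α A = S.th α (ψ (Sum.inr A))) →
  ∀ hZ : ∀ α A, ∀ Ψ ∈ S1.zms ⊤, Setup.pwa d1 (S2.th α A) Ψ ∈ S1.zms ⊤, ZOut S1 S2 ⊤ hZ →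
    OneD (S2.lft (S1.zms ⊤) hZ) → OneD S

/-- **X2-Prod** PROOF: `S1 = S.sub ψ`, `S2 = S.sub (swapped ψ)`, X2-VcaIrr (`K0 = ⊤`), `OneA f1` for `S1.rst (vca S2 ⊤)`, X2-ZInv, X2-Zirr, `OneA f2` for
`lft S2 Z`, X2-Fub. -/
def ProdStmt : Prop := ∀ (d d1 d2 : ℕ) (κ : ℝ) (f : Fin d → Fin d → Fin d → ℝ) (f1 : Fin d1 → Fin d1 → Fin d1 → ℝ)
  (f2 : Fin d2 → Fin d2 → Fin d2 → ℝ) (ψ : Spl d1 d2 d), DSum ψ f f1 f2 → OneA.{u} κ f1 → OneA.{u} κ f2 → OneA.{u} κ f

/-- **X2-Zero** no colours: `OneD` holds trivially (`Cfg 0` is a point with Dirac measure; irreducible modules are one dimensional). -/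
def ZeroStmt : Prop := ∀ (κ : ℝ) (f : Fin 0 → Fin 0 → Fin 0 → ℝ), OneA.{u} κ f

/-- the setup of the centre of `h` -/
noncomputable def czs {d dh dm ds dz : ℕ} {F : Type u} [NormedAddCommGroup F] [InnerProductSpace ℂ F] {S : Setup d F} {φ : Spl dh dm d}
    {ψ : Spl ds dz dh} {z₀ : Cfg dz} (h : AD.Std2 S φ ψ z₀) : Setup dz F :=
  (S.sub φ h.std.sub).sub (spsw ψ) (fun A _ _ => h.cen A _ _)

/-- **X2-Main** OUTPUT: for a standard position and a vacuum bundle with typical fibre `K`: the zero modes of the semisimple part with values in `K` form a finite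
dimensional irreducible module of the fermions of the centre, with one vacuum line. PROOF: `S1 = h.ss`, `S2 = czs h`, `K0 = K` (`Bun.K_th`, `K_ne`, `K_irr` give `IrrOn2`),
X2-VcaIrr, `OneA` for `S1.rst (vca S2 K)`, X2-ZInv, X2-Zirr. -/
def X2Stmt : Prop := ∀ (d dh dm ds dz : ℕ) (F : Type u) [NormedAddCommGroup F] [InnerProductSpace ℂ F] (_ : FiniteDimensional ℂ F)
  (S : Setup d F) (φ : Spl dh dm d) (ψ : Spl ds dz dh) (z₀ : Cfg dz) (h : AD.Std2 S φ ψ z₀), S.Irr → (∃ v : F, v ≠ 0) →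
  ∀ (L : Finset (Fin dz → ℝ)) (Om : Cfg dz → Matrix (Fin dm) (Fin dm) ℝ) (K : Submodule ℂ F) (U : Cfg dz → F →L[ℂ] F),
  AX.Bun S φ (AX.Mz S φ ψ) L Om K U → OneA.{u} S.κ h.ss.f →
  ∃ hZ : ∀ α A, ∀ Ψ ∈ h.ss.zms K, Setup.pwa ds ((czs h).th α A) Ψ ∈ h.ss.zms K, ZOut h.ss (czs h) K hZ

end Vale.Agent.P353.Z.AX2
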